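import Vale.Agent.P057G.Tri
import Mathlib.LinearAlgebra.LinearIndependent.BaseChange
import Mathlib.LinearAlgebra.FreeModule.PID

/-!
The theta function restricted to a subgroup of frequencies: positivity, the error of the
restriction against a signed weight, and the modulus of continuity.
-/

open Matrix Finset
open scoped Real Classical
open Vale.Agent.P267.H775 Vale.Agent.P057G

namespace Vale.Agent.P057DP

noncomputable section

variable {ι : Type} [Fintype ι] [DecidableEq ι]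

/-- the Fourier coefficients of the theta function -/
def cf (G : Matrix ι ι ℝ) (k : ι → ℤ) : ℝ := vol G * gs G⁻¹ (toR k)

/-- the part of the Fourier series on a subgroup of frequencies -/
def thK (G : Matrix ι ι ℝ) (K : Submodule ℤ (ι → ℤ)) (u : ι → ℝ) : ℝ :=
  ∑' k : ι → ℤ, if k ∈ K then cf G k * Real.cos (2 * π * (toR k ⬝ᵥ u)) else 0

/-- the mass of the long frequencies -/
def tl (G : Matrix ι ι ℝ) (R : ℝ) : ℝ :=
  ∑' k : ι → ℤ, if R ≤ qq G⁻¹ (toR k) then cf G k else 0

variable {G : Matrix ι ι ℝ}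

theorem hs_congr {α E : Type*} [AddCommMonoid E] [TopologicalSpace E] {f g : α → E} {a : E}
    (h : HasSum f a) (e : ∀ x, g x = f x) : HasSum g a := (funext e : g = f) ▸ h

theorem cf_pos (hG : G.PosDef) (k : ι → ℤ) : 0 < cf G k := mul_pos (vol_pos hG) (gs_pos _ _)

theorem hasSum_cf (hG : G.PosDef) : HasSum (cf G) (th G 0) := by
  have h := (hasSum_th hG.inv 0).mul_left (vol G)
  simp only [sub_zero] at h
  rw [th_zero_eq hG]
  exact h

theorem summable_ite (hG : G.PosDef) {f : (ι → ℤ) → ℝ} {C : ℝ} (hf : ∀ k, |f k| ≤ C * cf G k) :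
    Summable f :=
  ((hasSum_cf hG).summable.mul_left C).of_norm_bounded hf

theorem summable_tl (hG : G.PosDef) (R : ℝ) :
    Summable fun k : ι → ℤ => if R ≤ qq G⁻¹ (toR k) then cf G k else 0 := by
  refine summable_ite hG (C := 1) fun k => ?_
  have := cf_pos hG k
  split_ifs
  · rw [abs_of_pos this, one_mul]
  · rw [abs_zero]; linarith

theorem tl_nonneg (hG : G.PosDef) (R : ℝ) : 0 ≤ tl G R :=
  tsum_nonneg fun k => by
    split_ifs
    exacts [(cf_pos hG k).le, le_rfl]

theorem tl_le (hG : G.PosDef) (R : ℝ) :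
    tl G R ≤ Real.exp (-(π * R / 2)) * √2 ^ Fintype.card ι * th G 0 := by
  have h := tail_norm hG.inv 0 R
  simp only [sub_zero] at h
  have e : tl G R = vol G * ∑' k : ι → ℤ, if R ≤ qq G⁻¹ (toR k) then gs G⁻¹ (toR k) else 0 := by
    rw [tl, ← tsum_mul_left]
    congr 1; funext k
    split_ifs
    exacts [rfl, (mul_zero _).symm]
  rw [e, th_zero_eq hG]
  refine (mul_le_mul_of_nonneg_left h (vol_pos hG).le).trans (le_of_eq ?_)
  ring

theorem abs_term_le (hG : G.PosDef) (p : Prop) [Decidable p] (k : ι → ℤ) (t : ℝ) :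
    |if p then cf G k * Real.cos t else 0| ≤ 1 * cf G k := by
  have := cf_pos hG k
  split_ifs
  · rw [abs_mul, abs_of_pos this, one_mul]
    exact mul_le_of_le_one_right this.le (Real.abs_cos_le_one _)
  · rw [abs_zero]; linarith

theorem hasSum_thK (hG : G.PosDef) (K : Submodule ℤ (ι → ℤ)) (u : ι → ℝ) :
    HasSum (fun k : ι → ℤ => if k ∈ K then cf G k * Real.cos (2 * π * (toR k ⬝ᵥ u)) else 0)
      (thK G K u) :=
  (summable_ite hG fun k => abs_term_le hG _ k _).hasSum

theorem abs_thK_le (hG : G.PosDef) (K : Submodule ℤ (ι → ℤ)) (u : ι → ℝ) :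
    |thK G K u| ≤ th G 0 :=
  (hasSum_thK hG K u).norm_le_of_bounded (hasSum_cf hG) fun k => by
    simpa using abs_term_le hG (k ∈ K) k _

omit [DecidableEq ι] in
theorem inj_of_li {n : ℕ} {v : Fin n → ι → ℤ} (hli : LinearIndependent ℤ v) :
    Function.Injective (Matrix.of fun i a => (v a i : ℝ)).mulVec := by
  rw [Matrix.mulVec_injective_iff]
  have h := (linearIndependent_algebraMap_comp_iff (R := ℤ) (S := ℝ) (v := v)).2 hli
  convert h using 1
  funext a i
  simp

/-- **positivity** -/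
theorem thK_pos (hG : G.PosDef) (K : Submodule ℤ (ι → ℤ)) (u : ι → ℝ) : 0 < thK G K u := by
  obtain ⟨n, b⟩ := Submodule.basisOfPid (Pi.basisFun ℤ ι) K
  have hli : LinearIndependent ℤ fun a => ((b a : K) : ι → ℤ) :=
    b.linearIndependent.map' K.subtype (Submodule.ker_subtype K)
  obtain ⟨E, hEd⟩ : ∃ E : Matrix ι (Fin n) ℝ,
    E = Matrix.of fun i a => (((b a : K) : ι → ℤ) i : ℝ) := ⟨_, rfl⟩
  have hE : Function.Injective E.mulVec := hEd ▸ inj_of_li hli
  have hH : (Eᵀ * G⁻¹ * E).PosDef := posDef_conj hG.inv E hE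
  obtain ⟨e, hed⟩ : ∃ e : (Fin n → ℤ) → (ι → ℤ),
    e = fun m => ((b.equivFun.symm m : K) : ι → ℤ) := ⟨_, rfl⟩
  have he : ∀ m, toR (e m) = E *ᵥ toR m := by
    intro m
    funext i
    simp only [hed, hEd, Module.Basis.equivFun_symm_apply, toR_apply, mulVec, dotProduct, of_apply]
    simp [mul_comm]
  have hm : ∀ m, e m ∈ K := fun m => hed ▸ (b.equivFun.symm m).2
  have hinj : Function.Injective e :=
    hed ▸ Subtype.val_injective.comp b.equivFun.symm.injective
  have h1 := (poisson_re hH.inv (Eᵀ *ᵥ u)).mul_left (vol G / vol (Eᵀ * G⁻¹ * E)⁻¹)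
  have h2 := (hinj.hasSum_iff (f := fun k : ι → ℤ =>
      if k ∈ K then cf G k * Real.cos (2 * π * (toR k ⬝ᵥ u)) else 0) (a := thK G K u) ?_).2
    (hasSum_thK hG K u)
  · have hv := vol_pos hH.inv
    have h3 : thK G K u = vol G / vol (Eᵀ * G⁻¹ * E)⁻¹ * th (Eᵀ * G⁻¹ * E)⁻¹ (Eᵀ *ᵥ u) := by
      refine h2.unique (hs_congr h1 fun m => ?_)
      simp only [Function.comp, if_pos (hm m), cf, he]
      rw [nonsing_inv_nonsing_inv _ (isUnit_iff_ne_zero.2 hH.det_pos.ne'), gs_conj,
        dotProduct_mulVec (toR m), vecMul_transpose]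
      field_simp
    rw [h3]
    exact mul_pos (div_pos (vol_pos hG) hv) (th_pos hH.inv _)
  · intro k hk
    refine if_neg fun h => hk ⟨b.equivFun ⟨k, h⟩, ?_⟩
    rw [hed]
    simp only [LinearEquiv.symm_apply_apply]

theorem thK_top (hG : G.PosDef) (u : ι → ℝ) : thK G ⊤ u = th G u := by
  refine (hasSum_thK hG ⊤ u).unique ?_
  simpa only [Submodule.mem_top, if_true, cf] using poisson_re hG u

/-- the Fourier coefficient of a signed weight -/
def ht {S : Type} (h : S → ℝ) (u : S → ι → ℝ) (k : ι → ℤ) : ℂ :=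
  ∑' s, (h s : ℂ) * ee (toR k ⬝ᵥ u s)

omit [DecidableEq ι] in
theorem hasSum_ht {S : Type} {h : S → ℝ} (hh : Summable h) (u : S → ι → ℝ) (k : ι → ℤ) :
    HasSum (fun s => (h s : ℂ) * ee (toR k ⬝ᵥ u s)) (ht h u k) :=
  (hh.abs.of_norm_bounded fun s => by
    rw [norm_mul, norm_ee, mul_one, Complex.norm_real, Real.norm_eq_abs]).hasSum

omit [DecidableEq ι] in
theorem norm_ht_le {S : Type} {h : S → ℝ} (hh : Summable h) (u : S → ι → ℝ) (k : ι → ℤ) :
    ‖ht h u k‖ ≤ ∑' s, |h s| :=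
  (hasSum_ht hh u k).norm_le_of_bounded hh.abs.hasSum fun s => by
    rw [norm_mul, norm_ee, mul_one, Complex.norm_real, Real.norm_eq_abs]

/-- exchange of the two sums -/
theorem hasSum_swap (hG : G.PosDef) (K : Submodule ℤ (ι → ℤ)) {S : Type} {h : S → ℝ}
    (hh : Summable h) (u : S → ι → ℝ) :
    HasSum (fun k : ι → ℤ => if k ∈ K then cf G k * (ht h u k).re else 0)
      (∑' s, h s * thK G K (u s)) := by
  have hs : Summable fun p : S × (ι → ℤ) => h p.1 *
      (if p.2 ∈ K then cf G p.2 * Real.cos (2 * π * (toR p.2 ⬝ᵥ u p.1)) else 0) := by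
    refine (hh.abs.mul_of_nonneg (hasSum_cf hG).summable (fun s => abs_nonneg _)
      fun k => (cf_pos hG k).le).of_norm_bounded fun p => ?_
    rw [Real.norm_eq_abs, abs_mul]
    refine mul_le_mul_of_nonneg_left ?_ (abs_nonneg _)
    simpa using abs_term_le hG (p.2 ∈ K) p.2 _
  have h1 := hs.hasSum.prod_fiberwise fun s => (hasSum_thK hG K (u s)).mul_left (h s)
  rw [h1.tsum_eq]
  refine (Equiv.prodComm _ _).symm.hasSum_iff.2 hs.hasSum |>.prod_fiberwise fun k => ?_
  simp only [Function.comp, Equiv.prodComm_symm, Equiv.prodComm_apply, Prod.swap]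
  by_cases hk : k ∈ K
  · have h2 := (Complex.hasSum_re (hasSum_ht hh u k)).mul_left (cf G k)
    simp only [Complex.re_ofReal_mul, ee_re] at h2
    rw [if_pos hk]
    exact hs_congr h2 fun s => (congrArg (h s * ·) (if_pos hk)).trans (by ring)
  · rw [if_neg hk]
    exact hs_congr hasSum_zero fun s => (congrArg (h s * ·) (if_neg hk)).trans (mul_zero _)

/-- **dropping** the frequencies outside `K` -/
theorem drop_err (hG : G.PosDef) (K : Submodule ℤ (ι → ℤ)) {S : Type} {h : S → ℝ}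
    (hh : Summable h) (u : S → ι → ℝ) {B η R : ℝ} (hB : ∑' s, |h s| ≤ B) (hη : 0 ≤ η)
    (hK : ∀ k, k ∉ K → qq G⁻¹ (toR k) < R → ‖ht h u k‖ ≤ η) :
    |∑' s, h s * th G (u s) - ∑' s, h s * thK G K (u s)| ≤ η * th G 0 + B * tl G R := by
  have h1 := hasSum_swap hG ⊤ hh u
  simp only [thK_top hG, Submodule.mem_top, if_true] at h1
  have hB0 : 0 ≤ B := (tsum_nonneg fun s => abs_nonneg _).trans hB
  refine (h1.sub (hasSum_swap hG K hh u)).norm_le_of_bounded
    (((hasSum_cf hG).mul_left η).add ((summable_tl hG R).hasSum.mul_left B)) fun k => ?_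
  have hc := cf_pos hG k
  have hr : |(ht h u k).re| ≤ ‖ht h u k‖ := Complex.abs_re_le_norm _
  by_cases hk : k ∈ K
  · rw [if_pos hk, sub_self, norm_zero]
    split_ifs <;> positivity
  · rw [if_neg hk, sub_zero, Real.norm_eq_abs, abs_mul, abs_of_pos hc]
    split_ifs with hR
    · have := hr.trans ((norm_ht_le hh u k).trans hB)
      nlinarith [mul_nonneg hη hc.le]
    · have := hr.trans (hK k hk (not_le.1 hR))
      nlinarith

theorem abs_cos_sub {s t τ : ℝ} {n : ℤ} (h : |s - t - n| ≤ τ) :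
    |Real.cos (2 * π * s) - Real.cos (2 * π * t)| ≤ 2 * π * τ := by
  have e : Real.cos (2 * π * t) = Real.cos (2 * π * (t + n)) := by
    rw [mul_add, show 2 * π * (n : ℝ) = n * (2 * π) by ring, Real.cos_add_int_mul_two_pi]
  rw [e]
  refine (Real.abs_cos_sub_cos_le _ _).trans ?_
  rw [← mul_sub, abs_mul, abs_of_pos (by positivity : 0 < 2 * π), ← sub_sub]
  exact mul_le_mul_of_nonneg_left h (by positivity)

/-- **modulus of continuity** -/
theorem thK_lip (hG : G.PosDef) (K : Submodule ℤ (ι → ℤ)) (u u' : ι → ℝ) {τ R : ℝ} (hτ : 0 ≤ τ)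
    (h : ∀ k ∈ K, qq G⁻¹ (toR k) < R → ∃ n : ℤ, |toR k ⬝ᵥ u - toR k ⬝ᵥ u' - n| ≤ τ) :
    |thK G K u - thK G K u'| ≤ 2 * π * τ * th G 0 + 2 * tl G R := by
  refine ((hasSum_thK hG K u).sub (hasSum_thK hG K u')).norm_le_of_bounded
    (((hasSum_cf hG).mul_left (2 * π * τ)).add ((summable_tl hG R).hasSum.mul_left 2))
    fun k => ?_
  have hc := cf_pos hG k
  have hp := Real.pi_pos
  by_cases hk : k ∈ K
  · rw [if_pos hk, if_pos hk, ← mul_sub, Real.norm_eq_abs, abs_mul, abs_of_pos hc]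
    split_ifs with hR
    · have h1 := abs_sub (Real.cos (2 * π * (toR k ⬝ᵥ u))) (Real.cos (2 * π * (toR k ⬝ᵥ u')))
      have h2 := Real.abs_cos_le_one (2 * π * (toR k ⬝ᵥ u))
      have h3 := Real.abs_cos_le_one (2 * π * (toR k ⬝ᵥ u'))
      have h4 : 0 ≤ 2 * π * τ * cf G k := by positivity
      nlinarith
    · obtain ⟨n, hn⟩ := h k hk (not_le.1 hR)
      have := abs_cos_sub hn
      nlinarith
  · rw [if_neg hk, if_neg hk, sub_self, norm_zero]
    split_ifs <;> positivity

end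

end Vale.Agent.P057DP
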