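import Vale.Agent.P057DP.Cs
import Vale.Agent.P057GH.Pb
import Vale.Agent.P057RH.Hom
import Vale.Agent.P057TP.Plan

/-!
Cube systems as triangular systems on faces; copies and junk free vertices; masses of closed
parts; embeddings given by maps of vertices.
-/

set_option linter.all false

open Matrix Finset
open Vale.Agent.P267.H775 Vale.Agent.P057G Vale.Agent.P057MA Vale.Agent.P057PC
open Vale.Agent.P057TP Vale.Agent.P057GH Vale.Agent.P057RH

namespace Vale.Agent.P057DP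

noncomputable section

section generic

variable {V ι : Type} [Fintype ι] [DecidableEq ι] {S : MS V ι}

/-- closed under passing to subfaces -/
def Dc (S : MS V ι) (q : Finset ι) : Prop := ∀ i ∈ q, ∀ j, S.fc j ⊆ S.fc i → j ∈ q

/-- local triangular systems -/
structure Lo (S : MS V ι) : Prop extends Tr S where
  orth : ∀ i j, S.G i j ≠ 0 → S.fc i = S.fc j
  loc : ∀ i z z', (∀ j, S.fc j ⊆ S.fc i → z j = z' j) → S.p z i = S.p z' i

/-- all closed parts have mass near one -/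
def Lf (S : MS V ι) (η : ℝ) : Prop := ∀ q, Dc S q → |S.mass q - 1| ≤ η

theorem Dc.cl {q : Finset ι} (hq : Dc S q) (h : Lo S) : Cl S q :=
  ⟨fun i j hi hj => by_contra fun h0 => hj (hq i hi j (h.orth i j h0).superset),
    fun i hi z z' hz => h.loc i z z' fun j hj => hz j (hq i hi j hj)⟩

theorem Dc.union {q r : Finset ι} (hq : Dc S q) (hr : Dc S r) : Dc S (q ∪ r) := fun i hi j hj =>
  (mem_union.1 hi).elim (fun h => mem_union_left _ (hq i h j hj))
    fun h => mem_union_right _ (hr i h j hj)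

theorem Dc.filter {q : Finset ι} (hq : Dc S q) (D : V → Prop)
    [DecidablePred fun i => ∀ v ∈ S.fc i, D v] : Dc S (q.filter fun i => ∀ v ∈ S.fc i, D v) :=
  fun i hi j hj => mem_filter.2 ⟨hq i (mem_filter.1 hi).1 j hj,
    fun v hv => (mem_filter.1 hi).2 v (hj hv)⟩

theorem dc_univ : Dc S univ := fun _ _ j _ => mem_univ j

theorem Lf.le {η : ℝ} (h : Lf S η) (hη : η ≤ 1) {q : Finset ι} (hq : Dc S q) : S.mass q ≤ 2 := by
  linarith [(abs_le.1 (h q hq)).2]

theorem Ev_eq_Ex (S : MS V ι) (q : Finset ι) (f : (ι → ℤ) → ℂ) :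
    Ev S q f = Ex (blk S.G q) (pq S q) fun x => f (put q x 0) := by
  rw [Ev, ← tsum_put q fun z i hi hz => by simp [nw, MS.wt_eq_zero hi hz]]
  simp only [nw, wt_ng, Ex]

end generic

variable {T : Tow} {C C₁ C₂ W W₁ W₂ S S₁ S₂ : Type} {s m : ℕ} {N : ℝ}

/-- the vertices of `W` below a face -/
def img [DecidableEq W] (j : W₁ → Option W) (A : Finset W₁) : Finset W :=
  A.biUnion fun v => (j v).toFinset

theorem mem_img [DecidableEq W] {j : W₁ → Option W} {A : Finset W₁} {w : W} :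
    w ∈ img j A ↔ ∃ v ∈ A, j v = some w := by simp [img]

theorem img_image [DecidableEq W] [DecidableEq W₂] (j : W₂ → Option W) (g : W₁ → W₂)
    (A : Finset W₁) : img j (A.image g) = img (j ∘ g) A := by
  ext w; simp [mem_img]

/-- copies of the vertices, junk free vertices, copies of the special vertex -/
def pbo [Fintype W₁] [DecidableEq W] (Z : Sys T W Unit) (j : W₁ → Option W) (S₁ : Type) :
    Sys T W₁ S₁ :=
  ⟨fsb Z.fam (fun w => ∑ v ∈ univ.filter fun v => j v = some w, MvPolynomial.X (some v))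
    fun _ => (), fun c _ => Z.off (img j c) ()⟩

theorem ok_pbo [Fintype W₁] [DecidableEq W] {Z : Sys T W Unit} (h : Z.Ok) (j : W₁ → Option W)
    (S₁ : Type) : (pbo Z j S₁).Ok := ok_sb h _ (fun _ v => v) _ _

/-- copies of one vertex lie in one class -/
def Cc (j : W₁ → Option W) (cl₁ : W₁ → C₁) : Prop :=
  ∀ v v' w, j v = some w → j v' = some w → cl₁ v = cl₁ v'

theorem at_pbo [Fintype W₁] [DecidableEq W] [DecidableEq W₁] (Z : Sys T W Unit)
    {j : W₁ → Option W} {cl₁ : W₁ → C₁} (hj : Cc j cl₁) (o : Option S₁) {A : Finset W₁}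
    (hA : Set.InjOn cl₁ A) (a : T.ι) :
    (pbo Z j S₁).fam.at' o A a = Z.fam.at' (o.map fun _ => ()) (img j A) a := by
  refine at_fsb _ _ o (fun w => ?_) a
  simp only [map_sum, evA, MvPolynomial.eval_X, Option.elim]
  split_ifs with k
  · obtain ⟨v, h1, h2⟩ := mem_img.1 k
    rw [sum_eq_single v, if_pos h1]
    · exact fun u hu e => if_neg fun n => e (hA n h1 (hj _ _ _ (mem_filter.1 hu).2 h2))
    · exact fun n => (n (mem_filter.2 ⟨mem_univ v, h2⟩)).elim
  · exact sum_eq_zero fun u hu => if_neg fun n => k (mem_img.2 ⟨u, n, (mem_filter.1 hu).2⟩)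

/-- the Gram matrix with one scalar for every face and base -/
def sG (T : Tow) (cl : W → C) (S : Type) (m : ℕ) (a : Finset W → Option S → ℝ) :
    Matrix (Lb T cl S m) (Lb T cl S m) ℝ := Matrix.of fun l l' => a l.fc l.bs * Gam T cl S m l l'

/-- the cube system as a system on faces -/
def cub [Fintype W] [DecidableEq W] [Fintype S] (Z : Sys T W S) (cl : W → C) (m : ℕ)
    (a : Finset W → Option S → ℝ) (c : Lb T cl S m → ℝ) : MS (W ⊕ S) (Lb T cl S m) where
  fc l := l.fc.disjSum l.bs.toFinset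
  lv l := T.lv l.cd
  G := sG T cl S m a
  p x := Z.pr cl m x + c

theorem Gam_ne {cl : W → C} {l l' : Lb T cl S m} (h : Gam T cl S m l l' ≠ 0) :
    l.fc = l'.fc ∧ l.bs = l'.bs := by
  by_contra h0
  exact h (if_neg h0)

variable [Fintype W] [DecidableEq W] [Fintype S] {cl : W → C} {Z : Sys T W S}
  {a : Finset W → Option S → ℝ} {c : Lb T cl S m → ℝ}

theorem cub_sub {l l' : Lb T cl S m} : (cub Z cl m a c).fc l' ⊆ (cub Z cl m a c).fc l ↔
    l'.fc ⊆ l.fc ∧ (l'.bs = none ∨ l'.bs = l.bs) := by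
  change l'.fc.disjSum l'.bs.toFinset ⊆ l.fc.disjSum l.bs.toFinset ↔ _
  rw [disjSum_subset]
  simp only [toLeft_disjSum, toRight_disjSum]
  refine and_congr Iff.rfl ?_
  cases l'.bs <;> cases l.bs <;> simp [eq_comm]

theorem inl_mem_cub {l : Lb T cl S m} {v : W} : Sum.inl v ∈ (cub Z cl m a c).fc l ↔ v ∈ l.fc :=
  inl_mem_disjSum

theorem inr_mem_cub {l : Lb T cl S m} {t : S} :
    Sum.inr t ∈ (cub Z cl m a c).fc l ↔ l.bs = some t := by
  change Sum.inr t ∈ l.fc.disjSum l.bs.toFinset ↔ _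
  simp

theorem qq_sG (a : Finset W → Option S → ℝ) (ha : ∀ A o, 0 ≤ a A o) (v : Lb T cl S m → ℝ) :
    qq (sG T cl S m a) v = qq (Gam T cl S m) fun l => √(a l.fc l.bs) * v l := by
  simp only [qq, dotProduct, mulVec, sG, of_apply, mul_sum]
  refine sum_congr rfl fun l _ => sum_congr rfl fun l' _ => ?_
  by_cases h : Gam T cl S m l l' = 0
  · simp [h]
  · rw [← (Gam_ne h).1, ← (Gam_ne h).2]
    conv_lhs => rw [← Real.mul_self_sqrt (ha l.fc l.bs)]
    ring

theorem herm_sG (hG : T.G.PosDef) (a : Finset W → Option S → ℝ) : (sG T cl S m a).IsHermitian := by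
  ext l l'
  have h1 := (pd_Gam hG cl S m).1.apply l l'
  simp only [conjTranspose_apply, star_trivial, sG, of_apply] at h1 ⊢
  by_cases h : Gam T cl S m l l' = 0
  · rw [h1, h, mul_zero, mul_zero]
  · rw [h1, (Gam_ne h).1, (Gam_ne h).2]

theorem pd_sG (hG : T.G.PosDef) (ha : ∀ A o, 0 < a A o) : (sG T cl S m a).PosDef := by
  refine PosDef.of_dotProduct_mulVec_pos (herm_sG hG a) fun x hx => ?_
  change 0 < qq _ x
  rw [qq_sG a fun A o => (ha A o).le]
  refine (pd_Gam hG cl S m).dotProduct_mulVec_pos fun h => hx (funext fun l => ?_)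
  exact (mul_eq_zero.1 (congrFun h l)).resolve_left (Real.sqrt_pos.2 (ha _ _)).ne'

theorem sG_sub (a b : Finset W → Option S → ℝ) :
    sG T cl S m a - sG T cl S m b = sG T cl S m fun A o => a A o - b A o := by
  ext l l'; simp [sG, sub_mul]

theorem qq_sG_mono (hG : T.G.PosDef) {a b : Finset W → Option S → ℝ} (v : Lb T cl S m → ℝ)
    (h : ∀ l : Lb T cl S m, v l ≠ 0 → a l.fc l.bs ≤ b l.fc l.bs) :
    qq (sG T cl S m a) v ≤ qq (sG T cl S m b) v := by
  classical
  have h1 : ∀ a b : Finset W → Option S → ℝ, qq (sG T cl S m a) v - qq (sG T cl S m b) v =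
      qq (sG T cl S m fun A o => a A o - b A o) v := fun a b => by
    rw [← sG_sub]; simp only [qq, sub_mulVec, dotProduct_sub]
  have h2 : qq (sG T cl S m fun A o => b A o - a A o) v =
      qq (sG T cl S m fun A o => max (b A o - a A o) 0) v := by
    simp only [qq, dotProduct, mulVec, sG, of_apply]
    refine sum_congr rfl fun l _ => ?_
    by_cases hv : v l = 0
    · simp [hv]
    · rw [max_eq_left (sub_nonneg.2 (h l hv))]
  rw [← sub_nonneg, h1, h2, qq_sG _ fun _ _ => le_max_right _ _]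
  exact qq_nonneg (pd_Gam hG cl S m).posSemidef _

theorem qq_sG_const (b : ℝ) (v : Lb T cl S m → ℝ) :
    qq (sG T cl S m fun _ _ => b) v = b * qq (Gam T cl S m) v := by
  rw [← qq_smul_mat]; rfl

theorem lo_cub (hT : T.Ok s N) (hZ : Z.Ok) (ha : ∀ A o, 0 < a A o) : Lo (cub Z cl m a c) := by
  refine ⟨⟨pd_sG hT.pd ha, fun l x x' h => ?_⟩, fun l l' h => ?_, fun l x x' h => ?_⟩
  · exact congrArg (· + c l) (pr_congr hT hZ fun l' _ _ h3 => h l' h3)
  · have := Gam_ne (right_ne_zero_of_mul h)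
    change l.fc.disjSum l.bs.toFinset = l'.fc.disjSum l'.bs.toFinset
    rw [this.1, this.2]
  · exact congrArg (· + c l) (pr_congr hT hZ fun l' h1 h2 _ => h l' (cub_sub.2 ⟨h1, h2⟩))

/-- the counting lemma for closed parts -/
theorem lf_cub (hC : CUB) (hT : T.Ok s N) (hZ : Z.Ok) (ha : ∀ A o, 0 < a A o) {d n : ℕ} {Λ η : ℝ}
    (hd : m ≤ d + 1) (hL : T.tw.LF d n Λ η) (hn : Fintype.card W + Fintype.card S ≤ n)
    (hΛ : ∀ A o, a A o ≤ Λ / ((n + 1) * (s + 1) ^ s)) : Lf (cub Z cl m a c) η := by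
  intro q hq
  rw [mass_ms]
  have h := hC T s N C W S cl m Z (fun l => l ∈ q) (fun l => c l) d n Λ η
    (blk (sG T cl S m a) q) hT hZ (fun l l' h1 h2 h3 _ => hq l h1 l' (cub_sub.2 ⟨h2, h3⟩))
    (fun l l' h1 h2 h3 _ => hq l h1 l' (cub_sub.2 ⟨h2.subset, Or.inr h3⟩))
    (fun l _ => Nat.lt_succ_iff.1 (l.2.1.trans_le hd)) hL hn (posDef_blk (pd_sG hT.pd ha) q)
    fun v => ?_
  · have e : pq (cub Z cl m a c) q = Z.pq cl m (fun l => l ∈ q) fun l => c l := by
      funext z l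
      change Z.pr cl m _ l + c l = Z.pr cl m _ l + c l
      congr 2
      funext l'
      simp only [toR, put]
      split_ifs <;> simp
    rw [e]
    have k : ∀ (i₁ i₂ : Fintype q) G p, @ms q i₁ _ G p = @ms q i₂ _ G p := fun i₁ i₂ G p => by
      rw [Subsingleton.elim i₁ i₂]
    exact (congrArg (fun x => |x - 1|) (k _ _ _ _)).trans_le h
  · have e : ∀ G : Matrix (Lb T cl S m) (Lb T cl S m) ℝ,
        qq (blk G q) v = qq G (msk q (put q v 0)) := fun G => by
      rw [qq_msk]; congr 1; funext i; rw [put_coe]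
    have h3 : qq (blk (sG T cl S m a) q) v ≤
        Λ / ((n + 1) * (s + 1) ^ s) * qq (blk (Gam T cl S m) q) v := by
      rw [e, e, ← qq_sG_const]
      exact qq_sG_mono hT.pd _ fun l _ => hΛ _ _
    have k : ∀ (i₁ i₂ : Fintype q) G, @qq q i₁ G v = @qq q i₂ G v := fun i₁ i₂ G => by
      rw [Subsingleton.elim i₁ i₂]
    exact (k _ _ _).trans_le (h3.trans_eq (congrArg (_ * ·) (k _ _ _)))

section embed

variable [Fintype W₁] [DecidableEq W₁] [Fintype S₁] [Fintype W₂] [DecidableEq W₂] [Fintype S₂]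
  {Z₀ : Sys T W Unit} {j₁ : W₁ → Option W} {j₂ : W₂ → Option W} {cl₁ : W₁ → C₁} {cl₂ : W₂ → C₂}
  {g : W₁ → W₂} {k : S₁ → S₂} (hc : ∀ w w', cl₂ (g w) = cl₂ (g w') ↔ cl₁ w = cl₁ w')

theorem pr_pbo (h₁ : Cc j₁ cl₁) (h₂ : Cc j₂ cl₂) (hg : g.Injective) (hk : k.Injective)
    (hj : ∀ v, j₂ (g v) = j₁ v) (x : Lb T cl₂ S₂ m → ℝ) (l : Lb T cl₁ S₁ m) :
    (pbo Z₀ j₂ S₂).pr cl₂ m x (lift hc k l) = (pbo Z₀ j₁ S₁).pr cl₁ m (x ∘ lift hc k) l := by
  rw [← pr_lift hc hg hk]
  refine pr_ext (fun B hB => ?_) _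
  have hB1 : Set.InjOn cl₁ B := l.2.2.1.mono hB
  have hB2 : Set.InjOn cl₂ (B.image g) := by
    rintro _ x _ y e
    obtain ⟨u, hu, rfl⟩ := mem_image.1 x
    obtain ⟨v, hv, rfl⟩ := mem_image.1 y
    rw [hB1 hu hv ((hc _ _).1 e)]
  rw [at_pb _ _ _ hg.injOn, at_pbo _ h₂ _ hB2, at_pbo _ h₁ _ hB1, img_image, Option.map_map,
    show j₂ ∘ g = j₁ from funext hj]

theorem sG_lift (hg : g.Injective) (hk : k.Injective) {a₁ : Finset W₁ → Option S₁ → ℝ}
    {a₂ : Finset W₂ → Option S₂ → ℝ} {l : Lb T cl₁ S₁ m}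
    (ha : a₂ (l.fc.image g) (l.bs.map k) = a₁ l.fc l.bs) (l' : Lb T cl₁ S₁ m) :
    sG T cl₂ S₂ m a₂ (lift hc k l) (lift hc k l') = sG T cl₁ S₁ m a₁ l l' := by
  simp only [sG, of_apply, lift_fc, lift_bs, ha, Gam_lift hc hg hk]

end embed

end

end Vale.Agent.P057DP
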