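import Vale.Agent.P057DP.Pl2
import Vale.Agent.P057EN.Ref
import Vale.Agent.P057NA.Nar

/-!
Masses, deletion and symmetries for systems of copies; embeddings that are injective on a part.
-/

set_option linter.all false

open Matrix Finset Real
open Vale.Agent.P267.H775 Vale.Agent.P057G Vale.Agent.P057MA Vale.Agent.P057PC
open Vale.Agent.P057TP hiding ind
open Vale.Agent.P057GH Vale.Agent.P057RH
open Vale.Agent.P057T1 (ind ind_pos ind_neg ind_nonneg ind_le abs_ind ind_mono)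
open Vale.Agent.P057EN (Cq cq_iff fine_pz del_cub qq_blk_mono qq_blk_const lin_pr at_pbo_insert)

namespace Vale.Agent.P057DP

noncomputable section

variable {C W X X₁ X₂ K S : Type} {T : Tow} {cl : W → C} {m s n : ℕ} {N L η : ℝ}
  [Fintype X] [DecidableEq X] [Fintype X₁] [DecidableEq X₁] [Fintype X₂] [DecidableEq X₂]
  [Fintype K] [DecidableEq K] [Fintype S] {O : Ov W X} {O₁ : Ov W X₁} {O₂ : Ov W X₂}
  {σ : X → ℝ} {P P' D : X → Prop}

theorem Sb.pos (h : Sb s L σ) (x : X) : 0 < σ x := one_pos.trans_le (h x).1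

theorem Sb.comp {σ : X₂ → ℝ} (h : Sb s L σ) (g : X₁ → X₂) : Sb s L (σ ∘ g) := fun x => h (g x)

theorem card_fc (hT : T.Ok s N) (l : LK T cl m O K S) : l.fc.card ≤ s := by
  refine le_trans ?_ (hT.le l.cd)
  cases e : l.bs with
  | none => exact (l.card_eq e).le
  | some u => exact (l.card_lt e).le

theorem Sb.sc_le (h : Sb s L σ) (hT : T.Ok s N) (hL : 4 ≤ L) (l : LK T cl m O K S) :
    4 * sc σ l.fc ≤ L := by
  rcases l.fc.eq_empty_or_nonempty with e | e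
  · simpa [e, sc] using hL
  obtain ⟨v, -, hv⟩ := exists_max_image l.fc (Sum.elim σ fun _ => 1) e
  have h1 : ∀ v : X ⊕ K, 1 ≤ Sum.elim σ (fun _ => (1 : ℝ)) v := by
    rintro (x | e); exacts [(h x).1, le_rfl]
  have h2 : sc σ l.fc ≤ Sum.elim σ (fun _ => (1 : ℝ)) v ^ s :=
    (prod_le_pow_card_of_le (fun u _ => zero_le_one.trans (h1 u)) hv).trans
      (pow_le_pow_right₀ (h1 v) (card_fc hT l))
  refine (mul_le_mul_of_nonneg_left h2 (by norm_num)).trans ?_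
  cases v with
  | inl x => exact (h x).2
  | inr e => simpa using hL
where
  prod_le_pow_card_of_le {α : Type} {t : Finset α} {f : α → ℝ} {b : ℝ} (h0 : ∀ u ∈ t, 0 ≤ f u)
      (h : ∀ u ∈ t, f u ≤ b) : ∏ u ∈ t, f u ≤ b ^ t.card := by
    rw [← prod_const]; exact prod_le_prod h0 h

theorem Sb.sc_le' (h : Sb s L σ) (hT : T.Ok s N) (hL : 4 ≤ L) (l : LK T cl m O K S) :
    sc σ l.fc ≤ L := by linarith [h.sc_le hT hL l, sc_pos h.pos l.fc]

theorem card_lk (hT : T.Ok s N) {H : ℝ} (hd : ∀ e, T.dm e ≤ H)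
    (hn : (Fintype.card X + Fintype.card K + Fintype.card S : ℝ) ≤ H) :
    (Fintype.card (LK T cl m O K S) : ℝ) ≤ (s + 1) * H * (H + 1) ^ (s + 1) :=
  P057NA.card_Lb hT hd (by rwa [Fintype.card_sum, Nat.cast_add])

theorem mem_aw {q : Finset (LK T cl m O K S)} {l : LK T cl m O K S} :
    l ∈ aw D q ↔ l ∈ q ∧ ∀ x, Sum.inl x ∈ l.fc → ¬ D x := by
  simp only [aw, mem_filter]

theorem cq_aw {q : Finset (LK T cl m O K S)} (hq : Cq q) (D : X → Prop) : Cq (aw D q) :=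
  fun l hl l' h1 h2 => mem_aw.2
    ⟨hq l (mem_aw.1 hl).1 l' h1 h2, fun x a => (mem_aw.1 hl).2 x (h1 a)⟩

theorem aw_b0 : aw D (b0 T cl m O K S P) = b0 T cl m O K S fun x => P x ∧ ¬ D x := by
  ext l
  simp only [mem_aw, mem_b0, and_assoc, ← forall_and, ← imp_and]

variable [Fintype W] [DecidableEq W] {Z : Sys T W Unit} {a : Finset (X ⊕ K) → Option S → ℝ}
  {c : LK T cl m O K S → ℝ} {q : Finset (LK T cl m O K S)}

theorem En.env {k : ℕ} {y A : ℝ} (h : En s N k m Z y A) (hk : 3 ≤ k) :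
    Env s N m Z ⌊A ^ k⌋₊ (exp (A ^ k / 2)) (exp (-A ^ k)) := by
  have h3 : (3 : ℝ) ≤ A := le_trans (by exact_mod_cast hk) (h.cy.trans h.yA)
  have h27 : (27 : ℝ) ≤ A ^ k := le_trans (by norm_num)
    ((pow_le_pow_left₀ (by norm_num) h3 3).trans (pow_le_pow_right₀ (by linarith) hk))
  obtain ⟨d, h1, h2⟩ := h.lf
  have h4 := Real.add_one_le_exp (A ^ k / 8)
  have h5 : exp (A ^ k / 2) = exp (A ^ k / 8) ^ 4 := by rw [← exp_nat_mul]; congr 1; ring
  have h6 : (A ^ k / 8 + 1) ^ 4 ≤ exp (A ^ k / 2) :=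
    h5 ▸ pow_le_pow_left₀ (by linarith) h4 4
  have h7 : 4 * A ^ k + 4 ≤ exp (A ^ k / 2) := by
    refine le_trans ?_ h6
    generalize A ^ k = u at h27
    have : (u / 8 + 1) ^ 4 = (u / 8 + 1) ^ 3 * (u / 8 + 1) := by ring
    have h8 : (4 : ℝ) ^ 3 ≤ (u / 8 + 1) ^ 3 := pow_le_pow_left₀ (by norm_num) (by linarith) 3
    nlinarith
  refine ⟨h.ok, h.zok, ⟨d, _, h1, h2, ?_⟩, by linarith, (exp_pos _).le,
    exp_le_one_iff.2 (by linarith)⟩
  have h9 := Nat.floor_le (show 0 ≤ A ^ k by linarith)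
  rw [show exp (A ^ k) = exp (A ^ k / 2) * exp (A ^ k / 2) by rw [← exp_add]; congr 1; ring]
  exact mul_le_mul_of_nonneg_right (by linarith) (exp_pos _).le

theorem Env.le_div (h : Env s N m Z n L η) {Λ : ℝ} (k : (4 * n + 4) * L ≤ Λ) {j : ℕ} (hj : j ≤ n) :
    0 < Λ ∧ L ≤ Λ / (4 * j + 4) := by
  have h1 : (j : ℝ) ≤ n := Nat.cast_le.2 hj
  have h2 := h.L4
  have h3 : (0 : ℝ) ≤ j := Nat.cast_nonneg j
  exact ⟨lt_of_lt_of_le (by positivity) k, (le_div_iff₀ (by positivity)).2 (by nlinarith)⟩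

theorem Env.al (h : Env s N m Z n L η) : Al cl m Z n L η := by
  intro X K S _ _ _ _ _ O a c hn ha hL q hq
  obtain ⟨d, Λ, h1, h2, h3⟩ := h.lf
  obtain ⟨h4, h5⟩ := h.le_div h3 (j := Fintype.card S) (by omega)
  rw [mass_ms]
  refine fine_pz h.ok (ok_pbo h.zok _ _) (cq_iff.1 hq) h1 h2 (by rwa [Fintype.card_sum]) h4 _ _
    (posDef_blk (pd_sG h.ok.pd ha) q) fun v => ?_
  rw [qq_smul_mat, ← qq_blk_const]
  refine qq_blk_mono h.ok.pd v fun l _ => (hL l).trans (h5.trans ?_)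
  exact div_le_div_of_nonneg_left h4.le (by positivity)
    (by linarith [Nat.cast_nonneg (α := ℝ) (Fintype.card S)])

theorem Env.lf_tst (h : Env s N m Z n L η) (hn : Fintype.card X + 1 ≤ n) (hσ : Sb s L σ) {ω : ℝ}
    (h0 : 0 < ω) (hω : ω ≤ L) : Lf (tst cl m Z O σ ω) η :=
  h.al X Unit Empty O _ _ (by simpa using hn)
    (fun A _ => by split_ifs; exacts [h0, sc_pos hσ.pos A])
    fun l => by split_ifs; exacts [hω, hσ.sc_le' h.ok h.L4 l]

/-- deletion of the vertices in `D` -/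
theorem Env.del (h : Env s N m Z n L η)
    (hn : 2 * Fintype.card X + Fintype.card K + Fintype.card S ≤ n) (ha : ∀ A o, 0 < a A o)
    (hL : ∀ l ∈ q, a l.fc l.bs ≤ L) (hq : Cq q) (D : X → Prop)
    {f : (LK T cl m O K S → ℤ) → ℂ} {B : ℝ} (hf : ∀ z, ‖f z‖ ≤ B) (df : Dp (aw D q) f) :
    ‖Ev (O.ms cl m Z K S a c) q f - Ev (O.ms cl m Z K S a c) (aw D q) f‖ ≤ 3 * √η * B := by
  classical
  obtain ⟨d, Λ, h1, h2, h3⟩ := h.lf
  obtain ⟨h4, h5⟩ := h.le_div h3 (j := Fintype.card S) (by omega)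
  have h6 := Fintype.card_subtype_le D
  exact del_cub (fun x : {x // D x} => (Sum.inl x.1 : X ⊕ K)) h.ok (ok_pbo h.zok _ _) hq h1 h2 h.η1
    (by rw [Fintype.card_sum]; omega) ha h4 (fun l hl => (hL l hl).trans h5)
    (fun l => mem_aw.trans (and_congr Iff.rfl
      ⟨fun k x b => k x b x.2, fun k x b e => k ⟨x, e⟩ b⟩)) hf df

theorem dn_del (h : Env s N m Z n L η) (hn : 2 * Fintype.card X + 1 ≤ n) (hσ : Sb s L σ)
    (hP : ∀ x, P' x → P x) {E : (LT T cl m O → ℤ) → Prop}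
    (hE : Dp (b0 T cl m O Unit Empty P') E) :
    |dn cl m Z O σ P E - dn cl m Z O σ P' E| ≤ 3 * √η := by
  have e : aw (fun x => ¬ P' x) (b0 T cl m O Unit Empty P) = b0 T cl m O Unit Empty P' := by
    rw [aw_b0]; congr 1; funext x; exact propext ⟨fun k => not_not.1 k.2, fun k => ⟨hP x k, (· k)⟩⟩
  have := h.del (K := Unit) (S := Empty) (c := 0) (q := b0 T cl m O Unit Empty P)
    (a := fun A _ => if Sum.inr () ∈ A then 1 else sc σ A) (by simpa using hn)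
    (fun A _ => by split_ifs; exacts [one_pos, sc_pos hσ.pos A])
    (fun l _ => by split_ifs; exacts [by linarith [h.L4], hσ.sc_le' h.ok h.L4 l]) (cq_b0 P)
    (fun x => ¬ P' x) (f := fun z => (ind (E z) : ℝ)) (B := 1)
    (fun z => by rw [Complex.norm_real]; exact abs_ind _)
    (by rw [e]; exact hE.map fun p => ((ind p : ℝ) : ℂ))
  rwa [e, Ev_Er, Ev_Er, ← Complex.ofReal_sub, Complex.norm_real, mul_one] at this

theorem mem_fc {l : LK T cl m O K S} {v : (X ⊕ K) ⊕ S} :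
    v ∈ (O.ms cl m Z K S a c).fc l ↔ v.elim (· ∈ l.fc) fun u => l.bs = some u := by
  change v ∈ l.fc.disjSum l.bs.toFinset ↔ _
  cases v <;> simp

/-- involutions of the vertices give symmetries -/
theorem flip_ms [DecidableEq S] {g : X → X} {k : K → K} {t : S → S} (h : ∀ x, O.π (g x) = O.π x)
    (hj : ∀ x, O.jk (g x) = O.jk x) (hg : g.Involutive) (hk : k.Involutive) (ht : t.Involutive)
    (ha : ∀ l : LK T cl m O K S, a (l.fc.image (Sum.map g k)) (l.bs.map t) = a l.fc l.bs)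
    (hc : ∀ l, c (lf h k t l) = c l) {D : (X ⊕ K) ⊕ S → Prop} {φ : (X ⊕ K) ⊕ S → Bool}
    (on : ∀ v, D v → D (Sum.map (Sum.map g k) t v) ∧ φ (Sum.map (Sum.map g k) t v) = !φ v)
    (off : ∀ v, ¬ D v → Sum.map (Sum.map g k) t v = v) :
    Flip (O.ms cl m Z K S a c) D φ (lf h k t) (Sum.map (Sum.map g k) t) := by
  have e := emb_lf (Z := Z) (h := h) (q := univ) hg.injective hk.injective ht.injective hj
    (fun l _ => ha l) fun l _ => hc l
  refine ⟨fun l => (lf_lf _ _ _).trans (lf_self (fun x _ => hg x) (fun x _ => hk x) fun x _ => ht x),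
    fun v => ?_, fun l => ?_, on, off, fun l hl => lf_self (fun x b => ?_) (fun x b => ?_)
      fun x b => ?_, fun i j => e.gr i (mem_univ _) j (mem_univ _), fun z i => e.ce z i (mem_univ _)⟩
  · rcases v with (x | x) | x
    exacts [congrArg (Sum.inl ∘ Sum.inl) (hg x), congrArg (Sum.inl ∘ Sum.inr) (hk x),
      congrArg Sum.inr (ht x)]
  · ext v
    simp only [mem_image, mem_fc, lf_fc, lf_bs]
    cases v <;> simp
  · simpa using off (.inl (.inl x)) (hl _ (mem_fc.2 b))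
  · simpa using off (.inl (.inr x)) (hl _ (mem_fc.2 b))
  · simpa using off (.inr x) (hl _ (mem_fc.2 b))

open Classical in
/-- the exchange of the two copies of the vertices in `D` -/
def fl {X : Type} (D : X → Prop) (x : X × Bool) : X × Bool := (x.1, if D x.1 then !x.2 else x.2)

theorem fl_inv {X : Type} (D : X → Prop) : (fl D).Involutive := fun x => by
  by_cases e : D x.1 <;> simp [fl, e]

/-- forgetting the number of the copy -/
abbrev pj (O : Ov W X) (K S : Type) [Fintype K] [DecidableEq K] :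
    LK T cl m O.dbl (K × Bool) (S × Bool) → LK T cl m O K S :=
  lf (O₁ := O.dbl) (O₂ := O) (g := Prod.fst) (fun _ => rfl) Prod.fst Prod.fst

/-- the first copy -/
abbrev i0 (O : Ov W X) (K S : Type) [Fintype K] [DecidableEq K] :
    LK T cl m O K S → LK T cl m O.dbl (K × Bool) (S × Bool) :=
  lf (O₁ := O) (O₂ := O.dbl) (g := (·, false)) (fun _ => rfl) (·, false) (·, false)

variable (Z a c) in
/-- the doubled system -/
def m2 : MS ((X × Bool ⊕ K × Bool) ⊕ S × Bool) (LK T cl m O.dbl (K × Bool) (S × Bool)) :=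
  O.dbl.ms cl m Z (K × Bool) (S × Bool)
    (fun A o => a (A.image (Sum.map Prod.fst Prod.fst)) (o.map Prod.fst)) (c ∘ pj O K S)

/-- the vertex below a copy -/
def vf : (X × Bool ⊕ K × Bool) ⊕ S × Bool → (X ⊕ K) ⊕ S :=
  Sum.map (Sum.map Prod.fst Prod.fst) Prod.fst

/-- the number of a copy -/
def vb : (X × Bool ⊕ K × Bool) ⊕ S × Bool → Bool := Sum.elim (Sum.elim Prod.snd Prod.snd) Prod.snd

/-- the exchange of the copies on labels -/
abbrev tf (O : Ov W X) (D : (X ⊕ K) ⊕ S → Prop) :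
    LK T cl m O.dbl (K × Bool) (S × Bool) → LK T cl m O.dbl (K × Bool) (S × Bool) :=
  lf (O₁ := O.dbl) (O₂ := O.dbl) (g := fl fun x => D (.inl (.inl x))) (fun _ => rfl)
    (fl fun x => D (.inl (.inr x))) (fl fun x => D (.inr x))

theorem pj_i0 (l : LK T cl m O K S) : pj O K S (i0 O K S l) = l :=
  (lf_lf _ _ _).trans (lf_self (fun _ _ => rfl) (fun _ _ => rfl) fun _ _ => rfl)

theorem pj_tf (D : (X ⊕ K) ⊕ S → Prop) (l : LK T cl m O.dbl (K × Bool) (S × Bool)) :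
    pj O K S (tf O D l) = pj O K S l :=
  (lf_lf _ _ _).trans (lf_congr (fun _ _ => rfl) (fun _ _ => rfl) fun _ _ => rfl)

theorem emb_i0 (q : Finset (LK T cl m O K S)) :
    Emb (O.ms cl m Z K S a c) (m2 Z a c) (i0 O K S) q := by
  unfold m2
  exact emb_lf (O₁ := O) (O₂ := O.dbl) (fun _ _ e => (Prod.mk.inj e).1)
    (fun _ _ e => (Prod.mk.inj e).1) (fun _ _ e => (Prod.mk.inj e).1) (fun _ => rfl)
    (fun l _ => congrArg (fun u : LK T cl m O K S => a u.fc u.bs) (pj_i0 l))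
    fun l _ => congrArg c (pj_i0 l)

theorem flip2 [DecidableEq S] (D : (X ⊕ K) ⊕ S → Prop) :
    ∃ ϖ, Flip (m2 Z a c) (D ∘ vf) vb (tf O D) ϖ :=
  ⟨_, flip_ms (O := O.dbl) (g := fl fun x => D (.inl (.inl x))) (D := D ∘ vf) (φ := vb)
    (k := fl fun x => D (.inl (.inr x))) (t := fl fun x => D (.inr x)) (fun _ => rfl)
    (fun _ => rfl) (fl_inv _) (fl_inv _) (fl_inv _)
    (fun l => congrArg (fun u : LK T cl m O K S => a u.fc u.bs) (pj_tf D l))
    (fun l => congrArg c (pj_tf D l))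
    (by rintro ((x | x) | x) e <;> exact ⟨e, if_pos e⟩)
    (by rintro ((x | x) | x) e <;> simp only [Sum.map_inl, Sum.map_inr, fl] <;>
      rw [if_neg (by exact e)])⟩

theorem lo_m2 (h : Env s N m Z n L η) (ha : ∀ A o, 0 < a A o) : Lo (m2 Z a c) :=
  lo_ms h.ok h.zok (fun _ _ => ha _ _) _

theorem lf_m2 (h : Env s N m Z n L η)
    (hn : 2 * (Fintype.card X + Fintype.card K + Fintype.card S) ≤ n) (ha : ∀ A o, 0 < a A o)
    (hL : ∀ l : LK T cl m O K S, a l.fc l.bs ≤ L) : Lf (m2 Z a c) η :=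
  h.al _ _ _ _ _ _ (by simp only [Fintype.card_prod, Fintype.card_bool]; omega) (fun _ _ => ha _ _)
    fun l => hL (pj O K S l)

theorem fc_i0 {l : LK T cl m O K S} {v} (hv : v ∈ (m2 Z a c).fc (i0 O K S l)) :
    vb v = false ∧ vf v ∈ (O.ms cl m Z K S a c).fc l := by
  rw [m2, mem_fc] at hv
  rw [mem_fc]
  rcases v with (x | x) | x
  · obtain ⟨y, b, rfl⟩ := inl_lf.1 hv; exact ⟨rfl, b⟩
  · obtain ⟨y, b, rfl⟩ := inr_lf.1 hv; exact ⟨rfl, b⟩
  · obtain ⟨y, b, rfl⟩ := Option.map_eq_some_iff.1 hv; exact ⟨rfl, b⟩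

theorem dn_i0 [DecidableEq S] (D) : Dn (m2 Z a c) D vb (q.image (i0 O K S)) := fun i hi v hv _ => by
  obtain ⟨l, -, rfl⟩ := mem_image.1 hi
  exact (fc_i0 hv).1

theorem av_i0 [DecidableEq S] (D : (X ⊕ K) ⊕ S → Prop) :
    av (m2 Z a c) (D ∘ vf) (q.image (i0 O K S)) =
      (av (O.ms cl m Z K S a c) D q).image (i0 O K S) := by
  ext i
  simp only [mem_av, mem_image]
  constructor
  · rintro ⟨⟨l, hl, rfl⟩, b⟩
    refine ⟨l, ⟨hl, fun v hv => ?_⟩, rfl⟩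
    rw [mem_fc] at hv
    rcases v with (x | x) | x
    · exact b (.inl (.inl (x, false))) (mem_fc.2 (inl_lf.2 ⟨x, hv, rfl⟩))
    · exact b (.inl (.inr (x, false))) (mem_fc.2 (inr_lf.2 ⟨x, hv, rfl⟩))
    · exact b (.inr (x, false)) (mem_fc.2 (Option.map_eq_some_iff.2 ⟨x, hv, rfl⟩))
  · rintro ⟨l, ⟨hl, b⟩, rfl⟩
    exact ⟨⟨l, hl, rfl⟩, fun v hv => b _ (fc_i0 hv).2⟩

theorem cq_i0 (hq : Cq q) : Cq (q.image (i0 O K S)) :=
  cq_image (fun _ _ e => congrArg Prod.fst e) (fun _ _ e => congrArg Prod.fst e)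
    (fun _ _ e => congrArg Prod.fst e) hq

/-- the masses of the fibres over the labels that avoid `D` -/
theorem Env.l1 [DecidableEq S] (h : Env s N m Z n L η)
    (hn : 2 * (Fintype.card X + Fintype.card K + Fintype.card S) ≤ n) (ha : ∀ A o, 0 < a A o)
    (hL : ∀ l : LK T cl m O K S, a l.fc l.bs ≤ L) (hq : Cq q) (D : (X ⊕ K) ⊕ S → Prop) :
    Er (O.ms cl m Z K S a c) (av (O.ms cl m Z K S a c) D q)
      (fun y => |fm (O.ms cl m Z K S a c) (q \ av (O.ms cl m Z K S a c) D q) y - 1|) ≤ 3 * √η := by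
  obtain ⟨ϖ, f⟩ := flip2 (Z := Z) (a := a) (c := c) D
  have := f.l1 (lo_m2 h ha) (dc_ms (cq_i0 hq)) (dn_i0 _) (lf_m2 h hn ha hL) h.η1
  rw [av_i0, ← image_sdiff _ _ (emb_i0 (Z := Z) (a := a) (c := c) q).inj] at this
  rw [← (emb_i0 _).er]
  simpa only [Er, (emb_i0 _).fm] using this

/-- the centres are linear on sets of labels through star vertices -/
theorem lin_ms (hT : T.Ok s N) (hZ : Z.Ok) {r : Finset (LK T cl m O K S)}
    (h0 : ∀ l ∈ r, c l = 0) (h1 : ∀ l ∈ r, l.bs = none ∧ ∃ e, Sum.inr e ∈ l.fc)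
    (h2 : ∀ l ∈ r, ∀ l' : LK T cl m O K S, l'.fc ⊆ l.fc → l'.bs = none →
      (l' ∈ r ↔ ∃ e, Sum.inr e ∈ l'.fc)) (y : LK T cl m O K S → ℝ) :
    LinAt (O.ms cl m Z K S a c) r y := by
  classical
  intro l hl
  obtain ⟨b, e, he⟩ := h1 l hl
  have k := lin_pr (ok_pbo hZ (O.j K) S) b he (fun B => at_pbo_insert Z rfl _ B _)
    (r := univ.filter fun k => Sum.inr e ∈ k.fc) (by simp) y
  convert k using 2 with x
  change _ + c l = _
  rw [h0 l hl, add_zero]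
  refine pr_congr hT (ok_pbo hZ _ _) fun l' c1 c2 _ => ?_
  have c3 := h2 l hl l' c1 (c2.elim id (·.trans b))
  refine if_congr (c3.trans ⟨fun ⟨e', d⟩ => ?_, fun d => ⟨e, by simpa using d⟩⟩) rfl rfl
  obtain rfl : e' = e := Sum.inr_injective (l.2.2.1 (c1 d) he rfl)
  simpa using d

theorem lin_tst (hT : T.Ok s N) (hZ : Z.Ok) (σ : X → ℝ) (ω : ℝ) (P : X → Prop)
    (y : LT T cl m O → ℝ) : LinAt (tst cl m Z O σ ω) (st T cl m O P) y :=
  lin_ms hT hZ (fun _ _ => rfl) (fun l hl => ⟨bs_lt l, (), (mem_st.1 hl).1⟩)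
    (fun l hl l' k _ => mem_st.trans ⟨fun b => ⟨(), b.1⟩,
      fun ⟨_, b⟩ => ⟨b, fun x d => (mem_st.1 hl).2 x (k d)⟩⟩) y

theorem ln2_tst (hT : T.Ok s N) (σ : X → ℝ) (ω : ℝ) (y : LT T cl m O → ℝ) :
    ln2 (tst cl m Z O σ ω) (st T cl m O P) y =
      ω * ln2 (tst cl m Z O (fun _ => 1) 1) (st T cl m O P) y := by
  simp only [ln2, qq_msk, ← qq_smul_mat]
  congr 1
  ext i j
  change (if _ then ω else _) * _ = ω * ((if _ then 1 else _) * _)
  rw [if_pos (mem_st.1 i.2).1, if_pos (mem_st.1 i.2).1, one_mul]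

theorem NR.scale (hT : T.Ok s N) {ω ω' ρ κ : ℝ} {Θ : (LT T cl m O → ℝ) → ℝ}
    {y : LT T cl m O → ℝ} (h : NR cl m Z O ω P Θ κ y) (hZ : Z.Ok) (hκ : 0 ≤ κ) (hρ : 0 ≤ ρ)
    (k : ω ≤ ρ ^ 2 * ω') : NR cl m Z O ω' P Θ (ρ * κ) y := by
  refine h.imp fun u hu x => (hu x).trans ?_
  rw [ln2_tst hT _ ω, ln2_tst hT _ ω', mul_comm ρ, mul_assoc, ← sqrt_sq hρ,
    ← sqrt_mul (sq_nonneg _), ← mul_assoc]
  exact mul_le_mul_of_nonneg_left (sqrt_le_sqrt (mul_le_mul_of_nonneg_right k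
    (qq_nonneg (lo_tst hT hZ (fun _ => one_pos) one_pos).pd.posSemidef _))) hκ

section part

variable {g : X₁ → X₂} {P₁ : X₁ → Prop} {P₂ : X₂ → Prop}

/-- the vertices in `P` -/
def Ov.sub (O : Ov W X) (P : X → Prop) : Ov W {x // P x} := ⟨fun x => O.π x, fun x => O.jk x⟩

open Classical in
theorem lt_sub (h : ∀ x, O₂.π (g x) = O₁.π x) (l : LT T cl m (O₁.sub P₁)) :
    (lt (O₁ := O₁.sub P₁) (g := g ∘ Subtype.val) (fun x => h x) () l : LT T cl m O₂) =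
      lt h () (lt (O₁ := O₁.sub P₁) (O₂ := O₁) (g := Subtype.val) (fun _ => rfl) () l :
        LT T cl m O₁) :=
  lb_ext rfl (Eq.symm (image_image.trans (image_congr fun v _ => by cases v <;> rfl)))
    ((bs_lt _).trans (bs_lt _).symm)

open Classical in
theorem ext_lt {α : Type} [Zero α] (h : ∀ x, O₂.π (g x) = O₁.π x) (z : LT T cl m O₂ → α)
    {l : LT T cl m O₁} (hl : ∀ x, Sum.inl x ∈ l.fc → P₁ x) :
    Function.extend (lt (O₁ := O₁.sub P₁) (O₂ := O₁) (g := Subtype.val) (fun _ => rfl) ())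
      (z ∘ lt (O₁ := O₁.sub P₁) (g := g ∘ Subtype.val) (fun x => h x) ()) 0 l =
        z (lt h () l) := by
  obtain ⟨l₁, rfl⟩ := lf_range (O₁ := O₁.sub P₁) (g := Subtype.val) (k := fun _ : Unit => ())
    (t := (Empty.elim : Empty → Empty)) (fun _ => rfl) Subtype.val_injective (fun _ _ _ => rfl)
    (l := l) (fun x b => ⟨⟨x, hl x b⟩, rfl⟩) (fun _ _ => ⟨(), rfl⟩) fun u : Empty => u.elim
  refine ((lf_inj Subtype.val_injective (fun _ _ _ => rfl) fun u : Empty => u.elim).extend_apply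
    _ _ l₁).trans (congrArg z (lt_sub h l₁))

theorem dn_emb' (h : ∀ x, O₂.π (g x) = O₁.π x) (hg : Set.InjOn g {x | P₁ x})
    (hj : ∀ x, P₁ x → O₂.jk (g x) = O₁.jk x) {σ₁ : X₁ → ℝ} {σ₂ : X₂ → ℝ}
    (hσ : ∀ x, P₁ x → σ₂ (g x) = σ₁ x) (hP : ∀ x, P₂ x ↔ ∃ y, P₁ y ∧ g y = x)
    {E : (LT T cl m O₁ → ℤ) → Prop} (hE : Dp (b0 T cl m O₁ Unit Empty P₁) E) :
    dn cl m Z O₂ σ₂ P₂ (fun z => E (z ∘ lt h ())) = dn cl m Z O₁ σ₁ P₁ E := by
  classical
  let j := lt (T := T) (cl := cl) (m := m) (O₁ := O₁.sub P₁) (O₂ := O₁) (g := Subtype.val)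
    (K₂ := Unit) (S₂ := Empty) (fun _ => rfl) ()
  have e1 := dn_emb (Z := Z) (O₁ := O₁.sub P₁) (g := g ∘ Subtype.val) (fun x => h x)
    (fun x y e => Subtype.ext (hg x.2 y.2 e)) (fun x => hj x x.2) (σ₁ := σ₁ ∘ Subtype.val)
    (P₁ := fun _ => True) (P₂ := P₂) (fun x _ => hσ x x.2)
    (fun x => (hP x).trans (by simp)) fun z => E (Function.extend j z 0)
  have e2 := dn_emb (Z := Z) (O₁ := O₁.sub P₁) (O₂ := O₁) (g := Subtype.val) (fun x => rfl)
    Subtype.val_injective (fun x => rfl) (σ₁ := σ₁ ∘ Subtype.val) (σ₂ := σ₁)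
    (P₁ := fun _ => True) (P₂ := P₁) (fun x _ => rfl) (by simp) fun z => E (Function.extend j z 0)
  refine Eq.trans ?_ (e1.trans (e2.symm.trans ?_)) <;> congr 1 <;> funext z
  · exact hE _ _ fun l hl => (ext_lt h z (mem_b0.1 hl).2).symm
  · exact hE _ _ fun l hl => (ext_lt (g := id) (fun _ => rfl) z (mem_b0.1 hl).2).trans
      (congrArg z (lf_self (fun _ _ => rfl) (fun _ _ => rfl) fun u : Empty => u.elim))

theorem nr_emb' (hT : T.Ok s N) (hZ : Z.Ok) (h : ∀ x, O₂.π (g x) = O₁.π x)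
    (hg : Set.InjOn g {x | P₁ x}) (hj : ∀ x, P₁ x → O₂.jk (g x) = O₁.jk x)
    (hP : ∀ x, P₂ x ↔ ∃ y, P₁ y ∧ g y = x) {Θ : (LT T cl m O₁ → ℝ) → ℝ}
    (hΘ : Dp (b0 T cl m O₁ Unit Empty P₁ ∪ st T cl m O₁ P₁) Θ) {ω κ : ℝ} {y : LT T cl m O₂ → ℝ} :
    NR cl m Z O₂ ω P₂ (fun x => Θ (x ∘ lt h ())) κ y ↔ NR cl m Z O₁ ω P₁ Θ κ (y ∘ lt h ()) := by
  classical
  let j := lt (T := T) (cl := cl) (m := m) (O₁ := O₁.sub P₁) (O₂ := O₁) (g := Subtype.val)
    (K₂ := Unit) (S₂ := Empty) (fun _ => rfl) ()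
  have e1 := nr_emb (Z := Z) (ω := ω) (κ := κ) (O₁ := O₁.sub P₁) (g := g ∘ Subtype.val)
    (fun x => h x) (fun x y e => Subtype.ext (hg x.2 y.2 e)) (fun x => hj x x.2)
    (P₁ := fun _ => True) (P₂ := P₂) (fun x => (hP x).trans (by simp))
    (Θ := fun z => Θ (Function.extend j z 0)) (y := y)
  have e2 := nr_emb (Z := Z) (ω := ω) (κ := κ) (O₁ := O₁.sub P₁) (O₂ := O₁) (g := Subtype.val)
    (fun x => rfl) Subtype.val_injective (fun x => rfl) (P₁ := fun _ => True) (P₂ := P₁) (by simp)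
    (Θ := fun z => Θ (Function.extend j z 0)) (y := y ∘ lt h ())
  have e3 : y ∘ lt (O₁ := O₁.sub P₁) (g := g ∘ Subtype.val) (fun x => h x) () = (y ∘ lt h ()) ∘ j :=
    funext fun l => congrArg y (lt_sub h l)
  rw [e3] at e1
  refine Iff.trans ?_ (e1.trans (e2.symm.trans ?_)) <;> refine Iff.of_eq ?_ <;> congr 1 <;> funext z
  · exact hΘ _ _ fun l hl => (ext_lt h z (mem_bs.1 hl)).symm
  · exact hΘ _ _ fun l hl => (ext_lt (g := id) (fun _ => rfl) z (mem_bs.1 hl)).trans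
      (congrArg z (lf_self (fun _ _ => rfl) (fun _ _ => rfl) fun u : Empty => u.elim))

end part

end

end Vale.Agent.P057DP
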