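import Vale.Agent.P057DP.Pd1
import Vale.Agent.P057L.Crq

/-!
Pointwise dropping of frequencies: the kernel is replaced by a positive kernel that depends only
on a few frequencies, each of which is a large Fourier coefficient of the signed weight.
-/

open Matrix Finset
open scoped Real Classical
open Vale.Agent.P267.H775 Vale.Agent.P057G

namespace Vale.Agent.P057DP

noncomputable section

variable {ι : Type} [Fintype ι] [DecidableEq ι]

/-- a finite description of a subgroup of frequencies -/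
structure Sel (ι : Type) where
  t : ℕ
  b : Fin t → ι → ℤ
  w : Fin t → ι → ℤ
  D : ℤ

/-- the subgroup of a description -/
def Sel.K (σ : Sel ι) : Submodule ℤ (ι → ℤ) where
  carrier := {k | σ.D • k = ∑ i, (σ.w i ⬝ᵥ k) • σ.b i}
  add_mem' := by
    intro a c ha hc
    simp only [Set.mem_ofPred_eq] at *
    simp only [smul_add, ha, hc, dotProduct_add, add_smul, sum_add_distrib]
  zero_mem' := by simp
  smul_mem' := by
    intro c a ha
    simp only [Set.mem_ofPred_eq] at *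
    rw [smul_comm, ha, smul_sum]
    simp only [dotProduct_smul, smul_assoc]

omit [DecidableEq ι] in
theorem Sel.mem_K {σ : Sel ι} {k : ι → ℤ} :
    k ∈ σ.K ↔ σ.D • k = ∑ i, (σ.w i ⬝ᵥ k) • σ.b i := Iff.rfl

/-- the size of the dual family -/
def cb (ι : Type) [Fintype ι] (H : ℕ) : ℕ := (Fintype.card ι).factorial * H ^ Fintype.card ι

/-- a bounded description -/
structure Sel.Bd (σ : Sel ι) (H : ℕ) : Prop where
  ht : σ.t ≤ Fintype.card ι
  hb : ∀ a i, |σ.b a i| ≤ H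
  hw : ∀ a i, |σ.w a i| ≤ cb ι H
  hD : σ.D ≠ 0
  hD' : |σ.D| ≤ cb ι H

/-- short dual vectors have bounded entries -/
theorem entry_le {G : Matrix ι ι ℝ} (hG : G.PosDef) {R : ℝ} {H : ℕ}
    (hH : ∀ i, G i i * R ≤ (H : ℝ) ^ 2) {k : ι → ℤ} (hk : qq G⁻¹ (toR k) < R) (i : ι) :
    |k i| ≤ H := by
  have h1 := dot_sq_le hG (Pi.single i 1) (toR k)
  have h2 : qq G (Pi.single i 1) = G i i := by simp [qq]
  have h3 : (0 : ℝ) ≤ G i i := h2 ▸ qq_nonneg hG.posSemidef _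
  rw [h2, single_dotProduct, one_mul, toR_apply] at h1
  have h4 : (k i : ℝ) ^ 2 ≤ (H : ℝ) ^ 2 :=
    h1.trans ((mul_le_mul_of_nonneg_left hk.le h3).trans (hH i))
  have h5 := abs_le_of_sq_le_sq h4 (Nat.cast_nonneg H)
  exact_mod_cast h5

/-- **pointwise drop** -/
theorem drop_pt {G : Matrix ι ι ℝ} (hG : G.PosDef) {S : Type} {h : S → ℝ} (hh : Summable h)
    (u : S → ι → ℝ) {B η R : ℝ} {H : ℕ} (hB : ∑' s, |h s| ≤ B) (hη : 0 ≤ η) (H1 : 1 ≤ H)
    (hH : ∀ i, G i i * R ≤ (H : ℝ) ^ 2) :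
    ∃ σ : Sel ι, σ.Bd H ∧ (∀ a, η ≤ ‖ht h u (σ.b a)‖) ∧
      ∑' s, h s * th G (u s) - (η * th G 0 + B * tl G R) ≤ ∑' s, h s * thK G σ.K (u s) := by
  let T := (bx ι H).filter fun k => η ≤ ‖ht h u k‖
  obtain ⟨t, sel, w, D, h1, h2, h3, h4, -, h6⟩ := P057L.crq ι T (fun a => a.1) H H1 fun a r => by
    have := Fintype.mem_piFinset.1 (mem_filter.1 a.2).1 r
    rw [mem_Icc] at this
    exact abs_le.2 this
  refine ⟨⟨t, fun a => (sel a).1, w, D⟩, ⟨h1, fun a i => ?_, h4, h2, h3⟩,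
    fun a => (mem_filter.1 (sel a).2).2, ?_⟩
  · have := Fintype.mem_piFinset.1 (mem_filter.1 (sel a).2).1 i
    rw [mem_Icc] at this
    exact abs_le.2 this
  · have := drop_err hG (Sel.K ⟨t, fun a => (sel a).1, w, D⟩) hh u (R := R) hB hη fun k hk hR => by
      by_contra hc
      refine hk (h6 ⟨k, mem_filter.2 ⟨Fintype.mem_piFinset.2 fun i => ?_, (not_le.1 hc).le⟩⟩)
      rw [mem_Icc]
      exact abs_le.1 (entry_le hG hH hR i)
    linarith [(abs_le.1 this).2]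

/-- the new kernel depends only on the selected frequencies divided by `D` -/
theorem Sel.lip {G : Matrix ι ι ℝ} (hG : G.PosDef) {σ : Sel ι} {R τ : ℝ} {H : ℕ} (hσ : σ.Bd H)
    (hH : ∀ i, G i i * R ≤ (H : ℝ) ^ 2) (hτ : 0 ≤ τ) (u u' : ι → ℝ)
    (h : ∀ a, ∃ n : ℤ, |(toR (σ.b a) ⬝ᵥ u - toR (σ.b a) ⬝ᵥ u') / σ.D - n| ≤ τ) :
    |thK G σ.K u - thK G σ.K u'| ≤
      2 * π * ((Fintype.card ι : ℝ) ^ 2 * cb ι H * H * τ) * th G 0 + 2 * tl G R := by
  refine thK_lip hG _ u u' (by positivity) fun k hk hR => ?_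
  choose n hn using h
  refine ⟨∑ a, (σ.w a ⬝ᵥ k) * n a, ?_⟩
  have hD : (σ.D : ℝ) ≠ 0 := Int.cast_ne_zero.2 hσ.hD
  have e : ∀ x : ι → ℝ, toR k ⬝ᵥ x = ∑ a, ((σ.w a ⬝ᵥ k : ℤ) : ℝ) * (toR (σ.b a) ⬝ᵥ x) / σ.D := by
    intro x
    have e1 : (σ.D : ℝ) • toR k = ∑ a, ((σ.w a ⬝ᵥ k : ℤ) : ℝ) • toR (σ.b a) := by
      funext i
      have := congrArg (fun v : ι → ℤ => (v i : ℝ)) (Sel.mem_K.1 hk)
      simpa [Finset.sum_apply] using this
    have e2 := congrArg (· ⬝ᵥ x) e1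
    simp only [smul_dotProduct, sum_dotProduct, smul_eq_mul] at e2
    rw [← sum_div, ← e2]
    field_simp
  have hw : ∀ a, |((σ.w a ⬝ᵥ k : ℤ) : ℝ)| ≤ Fintype.card ι * cb ι H * H := by
    intro a
    have : |σ.w a ⬝ᵥ k| ≤ ∑ _i : ι, (cb ι H : ℤ) * H :=
      (abs_sum_le_sum_abs _ _).trans (sum_le_sum fun i _ => by
        rw [abs_mul]
        exact mul_le_mul (hσ.hw a i) (entry_le hG hH hR i) (abs_nonneg _) (by positivity))
    rw [sum_const, card_univ, nsmul_eq_mul, ← mul_assoc] at this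
    exact_mod_cast this
  rw [e u, e u', Int.cast_sum, ← sum_sub_distrib, ← sum_sub_distrib]
  refine (abs_sum_le_sum_abs _ _).trans ?_
  refine (sum_le_card_nsmul _ _ ((Fintype.card ι : ℝ) * cb ι H * H * τ) fun a _ => ?_).trans ?_
  · have e3 : ((σ.w a ⬝ᵥ k : ℤ) : ℝ) * (toR (σ.b a) ⬝ᵥ u) / σ.D -
        ((σ.w a ⬝ᵥ k : ℤ) : ℝ) * (toR (σ.b a) ⬝ᵥ u') / σ.D - (((σ.w a ⬝ᵥ k) * n a : ℤ) : ℝ) =
        ((σ.w a ⬝ᵥ k : ℤ) : ℝ) * ((toR (σ.b a) ⬝ᵥ u - toR (σ.b a) ⬝ᵥ u') / σ.D - n a) := by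
      rw [Int.cast_mul]; ring
    rw [e3, abs_mul]
    exact mul_le_mul (hw a) (hn a) (abs_nonneg _) (by positivity)
  · rw [card_univ, Fintype.card_fin, nsmul_eq_mul]
    have : (σ.t : ℝ) ≤ Fintype.card ι := Nat.cast_le.2 hσ.ht
    calc (σ.t : ℝ) * ((Fintype.card ι : ℝ) * cb ι H * H * τ)
        ≤ Fintype.card ι * ((Fintype.card ι : ℝ) * cb ι H * H * τ) :=
          mul_le_mul_of_nonneg_right this (by positivity)
      _ = _ := by ring

/-- the bounded descriptions form a finite family -/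
theorem exists_sels (ι : Type) [Fintype ι] [DecidableEq ι] (H : ℕ) (H1 : 1 ≤ H) :
    ∃ F : Finset (Sel ι), (∀ σ : Sel ι, σ.Bd H → σ ∈ F) ∧
      F.card ≤ (Fintype.card ι + 1) * (2 * cb ι H + 1) ^ (2 * Fintype.card ι ^ 2 + 1) := by
  set r := Fintype.card ι with hr
  set M := cb ι H with hM
  let P : (t : ℕ) → Finset ((Fin t → ι → ℤ) × (Fin t → ι → ℤ) × ℤ) := fun t =>
    Fintype.piFinset (fun _ => bx ι H) ×ˢ Fintype.piFinset (fun _ => bx ι M) ×ˢ Icc (-(M : ℤ)) M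
  have hbx : ∀ N : ℕ, (bx ι N).card = (2 * N + 1) ^ r := fun N => by
    rw [bx, Fintype.card_piFinset, prod_const, card_univ, Int.card_Icc]
    congr 1; omega
  refine ⟨(range (r + 1)).biUnion fun t => (P t).image fun p => ⟨t, p.1, p.2.1, p.2.2⟩,
    fun σ hσ => ?_, ?_⟩
  · refine mem_biUnion.2 ⟨σ.t, mem_range.2 (Nat.lt_succ_of_le hσ.ht),
      mem_image.2 ⟨(σ.b, σ.w, σ.D), ?_, rfl⟩⟩
    simp only [P, mem_product, Fintype.mem_piFinset, bx, mem_Icc]
    exact ⟨fun a i => abs_le.1 (hσ.hb a i), fun a i => abs_le.1 (hσ.hw a i), abs_le.1 hσ.hD'⟩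
  · refine card_biUnion_le.trans ?_
    refine (sum_le_card_nsmul _ _ ((2 * M + 1) ^ (2 * r ^ 2 + 1)) fun t ht => ?_).trans ?_
    · refine card_image_le.trans ?_
      have ht' : t ≤ r := Nat.lt_succ_iff.1 (mem_range.1 ht)
      have hc : (Icc (-(M : ℤ)) M).card = 2 * M + 1 := by rw [Int.card_Icc]; omega
      simp only [P, card_product, Fintype.card_piFinset_const, hbx, hc, ← pow_mul]
      rcases Nat.eq_zero_or_pos r with h0 | h0
      · simp [h0]
      · have hHM : H ≤ M := by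
          rw [hM, cb, ← hr]
          calc H = 1 * H ^ 1 := by simp
            _ ≤ _ := Nat.mul_le_mul (Nat.factorial_pos r) (Nat.pow_le_pow_right H1 h0)
        have h1 : (2 * H + 1) ^ (r * t) ≤ (2 * M + 1) ^ (r ^ 2) :=
          (Nat.pow_le_pow_left (by omega) _).trans
            (Nat.pow_le_pow_right (by omega) (by nlinarith))
        have h2 : (2 * M + 1) ^ (r * t) ≤ (2 * M + 1) ^ (r ^ 2) :=
          Nat.pow_le_pow_right (by omega) (by nlinarith)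
        calc _ ≤ (2 * M + 1) ^ (r ^ 2) * ((2 * M + 1) ^ (r ^ 2) * (2 * M + 1)) :=
              Nat.mul_le_mul h1 (Nat.mul_le_mul_right _ h2)
          _ = _ := by ring
    · rw [card_range, smul_eq_mul]

end

end Vale.Agent.P057DP
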