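import Vale.Agent.P057DP.Cub

/-!
Symmetries that exchange two copies of a set of vertices; deletion; the box inequality.
-/

set_option linter.all false

open Matrix Finset
open Vale.Agent.P267.H775 Vale.Agent.P057G Vale.Agent.P057MA Vale.Agent.P057PC

namespace Vale.Agent.P057DP

noncomputable section

variable {V ι : Type} [DecidableEq V] [Fintype ι] [DecidableEq ι] {S : MS V ι}

open Classical in
/-- the labels of `q` whose face avoids `D` -/
def av (S : MS V ι) (D : V → Prop) (q : Finset ι) : Finset ι :=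
  q.filter fun i => ∀ v ∈ S.fc i, ¬ D v

theorem mem_av {D : V → Prop} {q : Finset ι} {i : ι} :
    i ∈ av S D q ↔ i ∈ q ∧ ∀ v ∈ S.fc i, ¬ D v := by
  classical
  unfold av; rw [mem_filter]

theorem av_sub (D : V → Prop) (q : Finset ι) : av S D q ⊆ q := fun _ h => (mem_av.1 h).1

theorem Dc.av {q : Finset ι} (hq : Dc S q) (D : V → Prop) : Dc S (av S D q) := fun i hi j hj =>
  mem_av.2 ⟨hq i (mem_av.1 hi).1 j hj, fun v hv => (mem_av.1 hi).2 v (hj hv)⟩

theorem av_union (D : V → Prop) (q : Finset ι) : av S D q ∪ q \ av S D q = q :=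
  union_sdiff_of_subset (av_sub D q)

/-- a symmetry that changes the flag `φ` on the vertices in `D` -/
structure Flip (S : MS V ι) (D : V → Prop) (φ : V → Bool) (τ : ι → ι) (π : V → V) : Prop where
  inv : Function.Involutive τ
  pinv : Function.Involutive π
  fc : ∀ i, S.fc (τ i) = (S.fc i).image π
  on : ∀ v, D v → D (π v) ∧ φ (π v) = !φ v
  off : ∀ v, ¬ D v → π v = v
  fix : ∀ i, (∀ v ∈ S.fc i, ¬ D v) → τ i = i
  gr : ∀ i j, S.G (τ i) (τ j) = S.G i j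
  ce : ∀ z i, S.p z (τ i) = S.p (z ∘ τ) i

/-- the flag is down on the vertices in `D` -/
def Dn (S : MS V ι) (D : V → Prop) (φ : V → Bool) (q : Finset ι) : Prop :=
  ∀ i ∈ q, ∀ v ∈ S.fc i, D v → φ v = false

/-- a set of labels with its mirror image -/
def db (τ : ι → ι) (q : Finset ι) : Finset ι := q ∪ q.image τ

variable {D D' : V → Prop} {φ : V → Bool} {τ τ' : ι → ι} {π π' : V → V} {q : Finset ι}

theorem Flip.mem_image (f : Flip S D φ τ π) {i : ι} : i ∈ q.image τ ↔ τ i ∈ q :=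
  ⟨fun h => by obtain ⟨j, hj, rfl⟩ := Finset.mem_image.1 h; rwa [f.inv j],
    fun h => Finset.mem_image.2 ⟨τ i, h, f.inv i⟩⟩

theorem Flip.mem_db (f : Flip S D φ τ π) {i : ι} : i ∈ db τ q ↔ i ∈ q ∨ τ i ∈ q := by
  rw [db, mem_union, f.mem_image]

theorem Flip.dc_image (f : Flip S D φ τ π) (hq : Dc S q) : Dc S (q.image τ) := fun i hi j hj =>
  f.mem_image.2 (hq _ (f.mem_image.1 hi) _ (by rw [f.fc, f.fc]; exact image_subset_image hj))

theorem Flip.dc (f : Flip S D φ τ π) (hq : Dc S q) : Dc S (db τ q) := hq.union (f.dc_image hq)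

theorem Flip.iff (f : Flip S D φ τ π) (hd : ∀ v, D v → ¬ D' v) (v : V) : D' (π v) ↔ D' v := by
  by_cases h : D v
  · exact ⟨fun k => (hd _ (f.on v h).1 k).elim, fun k => (hd _ h k).elim⟩
  · rw [f.off v h]

theorem Flip.avoid (f : Flip S D φ τ π) (hd : ∀ v, D v → ¬ D' v) (i : ι) :
    (∀ v ∈ S.fc (τ i), ¬ D' v) ↔ ∀ v ∈ S.fc i, ¬ D' v := by
  rw [f.fc, forall_mem_image]
  simp only [f.iff hd]

theorem Flip.dn (f : Flip S D φ τ π) (hd : ∀ v, D v → ¬ D' v) (hq : Dn S D' φ q) :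
    Dn S D' φ (db τ q) := by
  intro i hi v hv k
  rcases f.mem_db.1 hi with h | h
  · exact hq i h v hv k
  · have h1 : π v = v := f.off v fun n => hd v n k
    exact hq _ h v (by rw [f.fc]; exact Finset.mem_image.2 ⟨v, hv, h1⟩) k

theorem Flip.av_db (f : Flip S D φ τ π) (hd : ∀ v, D v → ¬ D' v) :
    av S D' (db τ q) = db τ (av S D' q) := by
  ext i
  rw [mem_av, f.mem_db, f.mem_db, mem_av, mem_av, f.avoid hd]
  tauto

theorem Flip.av_self (f : Flip S D φ τ π) : av S D (db τ q) = av S D q := by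
  ext i
  rw [mem_av, f.mem_db, mem_av]
  exact ⟨fun h => ⟨h.1.elim id fun k => f.fix i h.2 ▸ k, h.2⟩, fun h => ⟨Or.inl h.1, h.2⟩⟩

theorem Flip.dp (f : Flip S D φ τ π) {α β : Type*} {g : (ι → α) → β} (hg : Dp q g) :
    Dp (db τ q) fun z => g (z ∘ τ) := fun z z' hz =>
  hg _ _ fun i hi => hz _ (f.mem_db.2 (Or.inr (by rwa [f.inv i])))

theorem dp_db {α β : Type*} {g : (ι → α) → β} (hg : Dp q g) : Dp (db τ q) g :=
  hg.mono subset_union_left

theorem Flip.split (f : Flip S D φ τ π) :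
    av S D q ∪ q \ av S D q ∪ (q \ av S D q).image τ = db τ q := by
  rw [av_union]
  ext i
  rw [mem_union, f.mem_db, f.mem_image, mem_sdiff, mem_av]
  refine ⟨fun h => h.imp id And.left, fun h => ?_⟩
  by_cases h1 : i ∈ q
  · exact Or.inl h1
  · refine Or.inr ⟨h.resolve_left h1, fun k => h1 ?_⟩
    have := f.fix _ k.2
    rw [f.inv i] at this
    exact this ▸ k.1

theorem Flip.cp (h : Lo S) (f : Flip S D φ τ π) (hq : Dc S q) (hn : Dn S D φ q) :
    Cp S (av S D q) (q \ av S D q) ((q \ av S D q).image τ) τ := by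
  have hfix : ∀ i ∈ av S D q, τ i = i := fun i hi => f.fix i (mem_av.1 hi).2
  have e : av S D q ∪ (q \ av S D q).image τ = q.image τ := by
    conv_rhs => rw [← av_union (S := S) D q, image_union]
    rw [image_congr (g := id) fun i hi => hfix i hi, image_id]
  refine ⟨(hq.av D).cl h, by rw [av_union]; exact hq.cl h, by rw [e]; exact (f.dc_image hq).cl h,
    disjoint_sdiff, ?_, f.inv.injective, hfix, rfl, fun i _ j _ => f.gr i j, fun z i _ => f.ce z i⟩
  rw [av_union, disjoint_left]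
  intro i hi k
  rw [f.mem_image, mem_sdiff, mem_av] at k
  refine k.2 ⟨k.1, fun v hv hD => ?_⟩
  have h1 := hn _ k.1 v hv hD
  rw [f.fc] at hv
  obtain ⟨u, hu, rfl⟩ := Finset.mem_image.1 hv
  have hu' : D u := by
    have := (f.on _ hD).1
    rwa [f.pinv u] at this
  rw [(f.on u hu').2, hn i hi u hu hu'] at h1
  exact absurd h1 (by decide)

/-- Cauchy-Schwarz in the vertices of `D` -/
theorem Flip.cs (h : Lo S) (f : Flip S D φ τ π) (hq : Dc S q) (hn : Dn S D φ q) {η : ℝ}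
    (hL : Lf S η) (hη : η ≤ 1) {a g : (ι → ℤ) → ℂ} {C : ℝ} (ha : ∀ z, ‖a z‖ ≤ 1)
    (hg : ∀ z, ‖g z‖ ≤ C) (da : Dp (av S D q) a) (dg : Dp q g) :
    ‖Ev S q fun z => a z * g z‖ ^ 2 ≤
      2 * ‖Ev S (db τ q) fun z => (starRingEnd ℂ) (g z) * g (z ∘ τ)‖ := by
  have := (f.cp h hq hn).cs h.toTr ha hg da (by rwa [av_union])
  rw [f.split, av_union] at this
  exact this.trans (mul_le_mul (hL.le hη (hq.av D)) (Complex.re_le_norm _ )
    (by
      have h2 := (sq_nonneg _).trans this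
      by_contra h3
      push Not at h3
      have h4 := (f.cp h hq hn).ev h.toTr (f := fun z => (starRingEnd ℂ) (g z)) (g := g) (C := C)
        (by simpa using hg) hg (by rw [av_union]; exact dg.map _) (by rwa [av_union])
      rw [f.split] at h4
      rw [h4] at h3
      simp only [Fb_conj, ← Complex.normSq_eq_conj_mul_self] at h3
      rw [Ev_real, Complex.ofReal_re] at h3
      exact absurd h3 (not_lt.2 (tsum_nonneg fun z =>
        mul_nonneg (nw_nonneg _ _ _) (Complex.normSq_nonneg _))))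
    (by norm_num))

/-- deletion of the vertices in `D` -/
theorem Flip.del (h : Lo S) (f : Flip S D φ τ π) (hq : Dc S q) (hn : Dn S D φ q) {η : ℝ}
    (hL : Lf S η) (hη : η ≤ 1) {g : (ι → ℤ) → ℂ} {C : ℝ} (hg : ∀ z, ‖g z‖ ≤ C)
    (dg : Dp (av S D q) g) : ‖Ev S q g - Ev S (av S D q) g‖ ≤ 3 * √η * C := by
  have := (f.cp h hq hn).del h.toTr hη (hL _ (hq.av D)) (by rw [av_union]; exact hL _ hq)
    (by rw [f.split]; exact hL _ (f.dc hq)) hg dg
  rwa [av_union] at this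

/-- the masses of the fibres over the part that avoids `D` -/
theorem Flip.l1 (h : Lo S) (f : Flip S D φ τ π) (hq : Dc S q) (hn : Dn S D φ q) {η : ℝ}
    (hL : Lf S η) (hη : η ≤ 1) :
    ∑' y, nw S (av S D q) y * |fm S (q \ av S D q) y - 1| ≤ 3 * √η :=
  (f.cp h hq hn).l1 h.toTr hη (hL _ (hq.av D)) (by rw [av_union]; exact hL _ hq)
    (by rw [f.split]; exact hL _ (f.dc hq))

/-- the alternating product over a rectangle -/
def bx (τa τb : ι → ι) (Φ : (ι → ℤ) → ℂ) (z : ι → ℤ) : ℂ :=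
  (starRingEnd ℂ) ((starRingEnd ℂ) (Φ z) * Φ (z ∘ τb)) *
    ((starRingEnd ℂ) (Φ (z ∘ τa)) * Φ (z ∘ τa ∘ τb))

theorem norm_cm_le {x y : ℂ} (hx : ‖x‖ ≤ 1) (hy : ‖y‖ ≤ 1) : ‖(starRingEnd ℂ) x * y‖ ≤ 1 := by
  rw [norm_mul, Complex.norm_conj]; exact mul_le_one₀ hx (norm_nonneg _) hy

/-- the box inequality with deletion of the vertices in `DS` -/
theorem box (h : Lo S) {DA DB DS : V → Prop} {τa τb τs : ι → ι} {πa πb πs : V → V}
    (fa : Flip S DA φ τa πa) (fb : Flip S DB φ τb πb) (fs : Flip S DS φ τs πs)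
    (ab : ∀ v, DB v → ¬ DA v) (as : ∀ v, DA v → ¬ DS v) (bs : ∀ v, DB v → ¬ DS v)
    (hq : Dc S q) (na : Dn S DA φ q) (nb : Dn S DB φ q) (ns : Dn S DS φ q) {η : ℝ} (hL : Lf S η)
    (hη : η ≤ 1) {A B Φ : (ι → ℤ) → ℂ} (hA : ∀ z, ‖A z‖ ≤ 1) (hB : ∀ z, ‖B z‖ ≤ 1)
    (hΦ : ∀ z, ‖Φ z‖ ≤ 1) (dA : Dp (av S DB q) A) (dB : Dp (av S DA q) B)
    (dΦ : Dp (av S DS q) Φ) :
    ‖Ev S q fun z => A z * (B z * Φ z)‖ ^ 4 ≤
      8 * (‖Ev S (db τa (db τb (av S DS q))) (bx τa τb Φ)‖ + 3 * √η) := by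
  have dB' : Dp q B := dB.mono (av_sub _ _)
  have dΦ' : Dp q Φ := dΦ.mono (av_sub _ _)
  have h1 := fb.cs h hq nb hL hη hA (g := fun z => B z * Φ z) (C := 1)
    (fun z => by rw [norm_mul]; exact mul_le_one₀ (hB z) (norm_nonneg _) (hΦ z)) dA
    (dB'.map₂ dΦ' (· * ·))
  have e1 : (fun z => (starRingEnd ℂ) (B z * Φ z) * (B (z ∘ τb) * Φ (z ∘ τb))) = fun z =>
      ((starRingEnd ℂ) (B z) * B (z ∘ τb)) * ((starRingEnd ℂ) (Φ z) * Φ (z ∘ τb)) := by
    funext z; rw [map_mul]; ring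
  have h2 := fa.cs h (fb.dc hq) (fb.dn ab na) hL hη
    (a := fun z => (starRingEnd ℂ) (B z) * B (z ∘ τb))
    (g := fun z => (starRingEnd ℂ) (Φ z) * Φ (z ∘ τb)) (C := 1)
    (fun z => norm_cm_le (hB _) (hB _)) (fun z => norm_cm_le (hΦ _) (hΦ _))
    (by rw [fb.av_db ab]; exact (dp_db dB).map₂ (fb.dp dB) fun x y => (starRingEnd ℂ) x * y)
    ((dp_db dΦ').map₂ (fb.dp dΦ') fun x y => (starRingEnd ℂ) x * y)
  have e2 : av S DS (db τa (db τb q)) = db τa (db τb (av S DS q)) := by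
    rw [fa.av_db as, fb.av_db bs]
  have d1 : Dp (db τb (av S DS q)) fun z => (starRingEnd ℂ) (Φ z) * Φ (z ∘ τb) :=
    (dp_db dΦ).map₂ (fb.dp dΦ) fun x y => (starRingEnd ℂ) x * y
  have h3 := fs.del h (fa.dc (fb.dc hq)) (fa.dn as (fb.dn bs ns)) hL hη (g := bx τa τb Φ) (C := 1)
    (fun z => norm_cm_le (norm_cm_le (hΦ _) (hΦ _)) (norm_cm_le (hΦ _) (hΦ _)))
    (by rw [e2]; exact (dp_db d1).map₂ (fa.dp d1) fun x y => (starRingEnd ℂ) x * y)
  rw [e2, mul_one] at h3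
  rw [e1] at h1
  have h4 : ‖Ev S (db τa (db τb q)) (bx τa τb Φ)‖ ≤
      ‖Ev S (db τa (db τb (av S DS q))) (bx τa τb Φ)‖ + 3 * √η := by
    linarith [norm_sub_norm_le (Ev S (db τa (db τb q)) (bx τa τb Φ))
      (Ev S (db τa (db τb (av S DS q))) (bx τa τb Φ))]
  calc _ = (‖Ev S q fun z => A z * (B z * Φ z)‖ ^ 2) ^ 2 := by ring
    _ ≤ _ := pow_le_pow_left₀ (sq_nonneg _) h1 2
    _ ≤ 4 * (2 * ‖Ev S (db τa (db τb q)) (bx τa τb Φ)‖) := by
      rw [mul_pow]; exact mul_le_mul (by norm_num) h2 (sq_nonneg _) (by norm_num)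
    _ ≤ _ := by linarith

end

end Vale.Agent.P057DP
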