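import Vale.Agent.P057DP.Ext

/-!
The box inequality on the doubled system and the extraction of the relations.
-/

set_option linter.all false

open Matrix Finset Real
open Vale.Agent.P267.H775 Vale.Agent.P057G Vale.Agent.P057MA Vale.Agent.P057PC
open Vale.Agent.P057TP hiding ind
open Vale.Agent.P057GH Vale.Agent.P057RH
open Vale.Agent.P057T1 (ind ind_pos ind_neg ind_nonneg ind_le abs_ind ind_mono)
open Vale.Agent.P057EN (Cq cq_iff)

namespace Vale.Agent.P057DP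

noncomputable section

variable {C W X K S : Type} {T : Tow} {cl : W → C} {m : ℕ} [Fintype W] [DecidableEq W]
  [Fintype X] [DecidableEq X] [Fintype K] [DecidableEq K] [Fintype S] {O : Ov W X}
  {P DA DB : X → Prop} {Z : Sys T W Unit} {a : Finset (X ⊕ K) → Option S → ℝ}
  {c : LK T cl m O K S → ℝ} {q : Finset (LK T cl m O K S)} {b : C}

/-- the vertices in `D` -/
def vX (K S : Type) (D : X → Prop) : (X ⊕ K) ⊕ S → Prop :=
  Sum.elim (Sum.elim D fun _ => False) fun _ => False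

/-- the star vertices -/
def vK (X K S : Type) : (X ⊕ K) ⊕ S → Prop :=
  Sum.elim (Sum.elim (fun _ => False) fun _ => True) fun _ => False

/-- the special vertices -/
def vS (X K S : Type) : (X ⊕ K) ⊕ S → Prop := Sum.elim (fun _ => False) fun _ => True

/-- the corners on labels -/
abbrev kc (O : Ov W X) (K S : Type) [Fintype K] [DecidableEq K] (DA DB : X → Prop) (i j : Bool) :
    LK T cl m O K S → LK T cl m O.dbl (K × Bool) (S × Bool) :=
  lf (O₁ := O) (O₂ := O.dbl) (g := cn DA DB i j) (fun _ => rfl) (·, false) (·, false)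

theorem bs_lf {X₂ K₂ S₂ : Type} [Fintype X₂] [DecidableEq X₂] [Fintype K₂] [DecidableEq K₂]
    {O₂ : Ov W X₂} {g : X → X₂} {h : ∀ x, O₂.π (g x) = O.π x} {k : K → K₂} {t : S → S₂}
    {l : LK T cl m O K S} (hl : l.bs = none) : (lf h k t l).bs = none :=
  congrArg (Option.map t) hl

theorem av_vX [DecidableEq S] (D : X → Prop) : av (O.ms cl m Z K S a c) (vX K S D) q = aw D q := by
  ext l
  rw [mem_av, mem_aw]
  refine and_congr Iff.rfl ⟨fun h x k => h (.inl (.inl x)) (mem_fc.2 k), fun h v k => ?_⟩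
  rcases v with (x | x) | x
  exacts [h x (mem_fc.1 k), id, id]

theorem mem_vS [DecidableEq S] {l : LK T cl m O K S} :
    l ∈ av (O.ms cl m Z K S a c) (vS X K S) q ↔ l ∈ q ∧ l.bs = none := by
  rw [mem_av]
  refine and_congr Iff.rfl ⟨fun h => Option.eq_none_iff_forall_ne_some.2 fun u k =>
    h (.inr u) (mem_fc.2 k) trivial, fun h v k => ?_⟩
  rcases v with x | x
  · exact id
  · exact absurd (h.symm.trans (mem_fc.1 k)) (by simp)

theorem i0_kc (l : LK T cl m O K S) : i0 O K S l = kc O K S DA DB false false l :=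
  lf_congr (fun x _ => by simp [cn]) (fun _ _ => rfl) fun _ _ => rfl

theorem tb_kc (hd : ∀ x, DA x → ¬ DB x) (i : Bool) (l : LK T cl m O K S) :
    tf O (vX K S DB) (kc O K S DA DB i false l) = kc O K S DA DB i true l :=
  (lf_lf _ _ _).trans (lf_congr (fun x _ => by
    have := hd x
    by_cases h1 : DA x <;> by_cases h2 : DB x <;> simp_all [cn, fl, vX])
    (fun _ _ => by simp [fl, vX]) fun _ _ => by simp [fl, vX])

theorem ta_kc (j : Bool) (l : LK T cl m O K S) :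
    tf O (vX K S DA) (kc O K S DA DB false j l) = kc O K S DA DB true j l :=
  (lf_lf _ _ _).trans (lf_congr (fun x _ => by by_cases h1 : DA x <;> simp_all [cn, fl, vX])
    (fun _ _ => by simp [fl, vX]) fun _ _ => by simp [fl, vX])

theorem mem_dd (hd : ∀ x, DA x → ¬ DB x) {l : LK T cl m O.dbl (K × Bool) (S × Bool)} :
    l ∈ db (tf O (vX K S DA)) (db (tf O (vX K S DB)) (q.image (i0 O K S))) ↔
      ∃ i j, ∃ l₀ ∈ q, kc O K S DA DB i j l₀ = l := by
  simp only [db, image_union, image_image, mem_union, mem_image, Function.comp_apply,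
    i0_kc (DA := DA) (DB := DB), tb_kc hd, ta_kc, Bool.exists_bool]

theorem kc_li (i j : Bool) (e : K) (l : LT T cl m O) : kc O K S DA DB i j (li O S e l) =
    li O.dbl (S × Bool) (e, false) (lt (g := cn DA DB i j) (fun _ => rfl) () l) :=
  lb_ext rfl (image_image.trans (Eq.trans (image_congr fun v _ => by cases v <;> rfl)
    image_image.symm)) ((bs_lf bs_li).trans bs_li.symm)

theorem p2_cn {x : X} (hx : P x) (i j : Bool) : P2 P (fun x => DA x ∨ DB x) (cn DA DB i j x) :=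
  ⟨hx, by unfold cn; split_ifs <;> simp [*]⟩

theorem kc_pj (hb : ∀ x, DA x ∨ DB x → cl (O.π x) = b) {l : LK T cl m O.dbl (K × Bool) (S × Bool)}
    (h1 : ∀ x, Sum.inl x ∈ l.fc → P2 P (fun x => DA x ∨ DB x) x)
    (h2 : ∀ e, Sum.inr e ∈ l.fc → e.2 = false) (h3 : l.bs = none) :
    ∃ i, kc O K S DA DB i i (pj O K S l) = l := by
  classical
  refine ⟨decide (∃ x, Sum.inl (x, true) ∈ l.fc), (lf_lf _ _ _).trans (lf_self (fun x hx => ?_)
    (fun e he => Prod.ext rfl (h2 e he).symm) fun u k => by rw [h3] at k; cases k)⟩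
  refine Prod.ext rfl ?_
  change (if DA x.1 then _ else if DB x.1 then _ else false) = x.2
  by_cases k : DA x.1 ∨ DB x.1
  · have e : decide (∃ x, Sum.inl (x, true) ∈ l.fc) = x.2 := by
      by_cases f : ∃ x, Sum.inl (x, true) ∈ l.fc
      · obtain ⟨u, hu⟩ := f
        rw [decide_eq_true ⟨u, hu⟩, Sum.inl_injective (l.2.2.1 hx hu (congrArg some
          ((hb _ k).trans (hb _ ((h1 _ hu).2.resolve_left (by simp))).symm)))]
      · rw [decide_eq_false f, eq_comm, ← Bool.not_eq_true]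
        exact fun n => f ⟨x.1, n ▸ hx⟩
    split_ifs with n1 n2
    exacts [e, e, (k.elim n1 n2).elim]
  · rw [if_neg fun n => k (Or.inl n), if_neg fun n => k (Or.inr n)]
    exact ((h1 x hx).2.resolve_right k).symm

theorem box_pt {Φ F : ℂ} {β f f' : ℝ} {E G : Prop} (hβ : 0 < β) (hΦ : ‖Φ‖ ≤ ind E)
    (hF : ‖F‖ ≤ f) (hG : E → β ≤ ‖F‖ → f' ≤ 2 → G) :
    ‖Φ * F‖ ≤ β + (2 * ind G + (2 * ind (2 < f') + ind (2 < f) * f)) := by
  have h0 := (norm_nonneg _).trans hF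
  have h1 := ind_nonneg G
  have h2 := ind_nonneg (2 < f')
  have h3 := mul_nonneg (ind_nonneg (2 < f)) h0
  rw [norm_mul]
  by_cases e : E
  swap
  · rw [ind_neg e] at hΦ
    rw [le_antisymm hΦ (norm_nonneg _), zero_mul]; linarith
  refine (mul_le_of_le_one_left (norm_nonneg _) (hΦ.trans (ind_le _))).trans ?_
  by_cases k1 : β ≤ ‖F‖
  swap
  · linarith
  by_cases k2 : 2 < f
  · rw [ind_pos k2]; linarith
  by_cases k3 : 2 < f'
  · rw [ind_pos k3]; linarith
  · rw [ind_pos (hG e k1 (not_lt.1 k3))]; linarith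

theorem bx_split (u₁ u₂ u₃ u₄ : ℂ) (t₁ t₂ t₃ t₄ : ℝ) :
    (starRingEnd ℂ) ((starRingEnd ℂ) (u₁ * ee t₁) * (u₂ * ee t₂)) *
      ((starRingEnd ℂ) (u₃ * ee t₃) * (u₄ * ee t₄)) =
    (starRingEnd ℂ) ((starRingEnd ℂ) u₁ * u₂) * ((starRingEnd ℂ) u₃ * u₄) *
      ee (t₁ - t₃ - t₂ + t₄) := by
  simp only [sub_eq_add_neg, ee_add, ee_neg, map_mul, Complex.conj_conj]
  ring

theorem box_ex : BOX := by
  intro T s N C W X K S κ _ _ _ _ _ _ _ _ Z cl m O σ P DA DB b n L η am ω ρ β a c q e₀ e Pk Θ E A B Φ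
    h hn hσ ha1 ha2 hc hL hω hρ hρω hβ hq hq1 hq2 hd hb he hΘ hP hst hA hB dA dB hΦ dΦ dE
  classical
  have hT := h.ok
  have hZ := h.zok
  have am0 : 0 < am := (ha2 {Sum.inr e₀} none fun k => k.2 e₀ (mem_singleton_self _)).1.trans_le
    (ha2 {Sum.inr e₀} none fun k => k.2 e₀ (mem_singleton_self _)).2
  have ha : ∀ F o, 0 < a F o := fun F o => by
    by_cases k : Kp F o
    exacts [ha1 F o k ▸ sc_pos hσ.pos F, (ha2 F o k).1]
  have haL : ∀ l : LK T cl m O K S, a l.fc l.bs ≤ L := fun l => by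
    by_cases k : Kp l.fc l.bs
    exacts [ha1 _ _ k ▸ hσ.sc_le' hT h.L4 l, by linarith [(ha2 _ _ k).2]]
  let a' : Finset (X ⊕ K) → Option S → ℝ := fun F o => if Kp F o then sc σ F else 8 * am
  have ha' : ∀ F o, 0 < a' F o := fun F o => by
    simp only [a']; split_ifs; exacts [sc_pos hσ.pos F, by linarith]
  have haL' : ∀ l : LK T cl m O K S, a' l.fc l.bs ≤ L := fun l => by
    simp only [a']; split_ifs; exacts [hσ.sc_le' hT h.L4 l, hL]
  have hΦ1 : ∀ z, ‖Φ z‖ ≤ 1 := fun z => (hΦ z).trans (ind_le _)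
  set S₀ := O.ms cl m Z K S a c
  set P₂ := P2 P fun x => DA x ∨ DB x with hP₂
  set Q := av S₀ (vS X K S) q
  obtain ⟨πa, fa⟩ := flip2 (Z := Z) (a := a) (c := c) (vX K S DA)
  obtain ⟨πb, fb⟩ := flip2 (Z := Z) (a := a) (c := c) (vX K S DB)
  obtain ⟨πs, fs⟩ := flip2 (Z := Z) (a := a) (c := c) (vS X K S)
  have lo := lo_m2 (c := c) h ha
  have hf := lf_m2 (c := c) h hn ha haL
  have dΨ : Dp Q fun z => Φ z * ee (∑ k, Θ k (toR z ∘ li O S (e k))) := by
    refine (dΦ.mono fun l hl => mem_vS.2 ⟨hq1 hl, (mem_b0.1 hl).1.1⟩).map₂ (fun z z' hz => ?_) _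
    congr 1
    refine sum_congr rfl fun k _ => (hΘ k).dp _ _ fun l hl => congrArg Int.cast (hz _ ?_)
    exact mem_vS.2 ⟨(mem_union.1 hl).elim (fun f => hq1 (lf_b0 (hP k) f)) (hst k l), bs_li⟩
  have hbx := box lo fa fb fs
    (by rintro ((x | x) | x); exacts [fun u v => hd _ v u, False.elim, False.elim])
    (by rintro ((x | x) | x); exacts [fun _ => id, fun _ => id, False.elim])
    (by rintro ((x | x) | x); exacts [fun _ => id, fun _ => id, False.elim])
    (dc_ms (cq_i0 hq)) (dn_i0 _) (dn_i0 _) (dn_i0 _) hf h.η1 (A := fun z => A (z ∘ i0 O K S))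
    (B := fun z => B (z ∘ i0 O K S))
    (Φ := fun z => Φ (z ∘ i0 O K S) * ee (∑ k, Θ k (toR (z ∘ i0 O K S) ∘ li O S (e k))))
    (fun _ => hA _) (fun _ => hB _) (fun _ => by rw [norm_mul, norm_ee, mul_one]; exact hΦ1 _)
    (by rw [av_i0, av_vX]; exact dA.comp fun _ => mem_image_of_mem _)
    (by rw [av_i0, av_vX]; exact dB.comp fun _ => mem_image_of_mem _)
    (by rw [av_i0]; exact dΨ.comp fun _ => mem_image_of_mem _)
  rw [(emb_i0 q).ev fun z => A z * (B z * (Φ z * ee (∑ k, Θ k (toR z ∘ li O S (e k))))), av_i0] at hbx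
  set q' := db (tf O (vX K S DA)) (db (tf O (vX K S DB)) (Q.image (i0 O K S)))
  set b2 := b0 T cl m O.dbl (K × Bool) (S × Bool) P₂
  have cq : Dc (m2 Z a c) q' := fa.dc (fb.dc (dc_ms (cq_i0 (cq_iff.1 ((dc_ms hq).av _)))))
  have m1 : ∀ l ∈ q', l.bs = none ∧ (∀ e, Sum.inr e ∈ l.fc → e.2 = false) ∧
      ∀ x, Sum.inl x ∈ l.fc → P₂ x := fun l hl => by
    obtain ⟨i, j, l₀, k, rfl⟩ := (mem_dd hd).1 hl
    refine ⟨bs_lf (mem_vS.1 k).2, fun e f => ?_, fun x f => ?_⟩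
    · obtain ⟨y, -, rfl⟩ := inr_lf.1 f; rfl
    · obtain ⟨y, f', rfl⟩ := inl_lf.1 f; exact p2_cn (hq2 _ (mem_vS.1 k).1 y f') i j
  have m2' : b2 ⊆ q' := fun l hl => by
    obtain ⟨k1, k2⟩ := mem_b0.1 hl
    obtain ⟨i, k⟩ := kc_pj hb k2 (fun e f => (k1.2 e f).elim) k1.1
    exact (mem_dd hd).2 ⟨i, i, _, mem_vS.2 ⟨hq1 (lf_b0 (fun x f => f.1) hl),
      (kp_lf.2 k1).1⟩, k⟩
  have m3 : ∀ l, l ∈ q' \ b2 ↔ l ∈ q' ∧ ∃ e, Sum.inr e ∈ l.fc := fun l => by
    rw [mem_sdiff, mem_b0]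
    exact and_congr_right fun k => ⟨fun f => by_contra fun g =>
      f ⟨⟨(m1 l k).1, not_exists.1 g⟩, (m1 l k).2.2⟩, fun ⟨e, f⟩ g => g.1.2 e f⟩
  have m4 : ∀ a c, av (m2 Z a c) (vK X K S ∘ vf) q' = b2 := fun a c => by
    ext l
    rw [mem_av]
    refine ⟨fun k => by_contra fun f => ?_, fun k => ⟨m2' k, fun v f => ?_⟩⟩
    · obtain ⟨e, g⟩ := ((m3 l).1 (mem_sdiff.2 ⟨k.1, f⟩)).2
      exact k.2 (.inl (.inr e)) (mem_fc.2 g) trivial
    · rcases v with (x | x) | x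
      exacts [id, fun _ => (mem_b0.1 k).1.2 x (mem_fc.1 f), id]
  have l1 : ∀ a c, (∀ F o, 0 < a F o) → (∀ l : LK T cl m O K S, a l.fc l.bs ≤ L) →
      Er (m2 Z a c) b2 (fun y => |fm (m2 Z a c) (q' \ b2) y - 1|) ≤ 3 * √η := fun a c k1 k2 => by
    obtain ⟨πk, fk⟩ := flip2 (Z := Z) (a := a) (c := c) (vK X K S)
    have := fk.l1 (lo_m2 h k1) (dc_ms (cq_iff.1 cq)) (fun l hl v f g => by
      rcases v with (x | x) | x
      exacts [g.elim, (m1 l hl).2.1 x (mem_fc.1 f), g.elim]) (lf_m2 h hn k1 k2) h.η1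
    rwa [m4] at this
  have cb : Dc (m2 Z a c) b2 := dc_ms (cq_b0 _)
  let Φ4 : (LK T cl m O.dbl (K × Bool) (S × Bool) → ℤ) → ℂ := fun z =>
    (starRingEnd ℂ) ((starRingEnd ℂ) (Φ (z ∘ kc O K S DA DB false false)) *
      Φ (z ∘ kc O K S DA DB false true)) * ((starRingEnd ℂ) (Φ (z ∘ kc O K S DA DB true false)) *
      Φ (z ∘ kc O K S DA DB true true))
  let Ψ : (LK T cl m O.dbl (K × Bool) (S × Bool) → ℤ) → ℂ := fun z =>
    ee (∑ k, al4 DA DB (Θ k) (toR z ∘ li O.dbl (S × Bool) (e k, false)))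
  have eb : bx (tf O (vX K S DA)) (tf O (vX K S DB)) (fun z => Φ (z ∘ i0 O K S) *
      ee (∑ k, Θ k (toR (z ∘ i0 O K S) ∘ li O S (e k)))) = fun z => Φ4 z * Ψ z := by
    funext z
    have e1 : (i0 O K S : LK T cl m O K S → _) = kc O K S DA DB false false := funext i0_kc
    have e2 : ∀ i, (tf O (vX K S DB) ∘ kc O K S DA DB i false : LK T cl m O K S → _) =
        kc O K S DA DB i true := fun i => funext (tb_kc hd i)
    have e3 : ∀ j, (tf O (vX K S DA) ∘ kc O K S DA DB false j : LK T cl m O K S → _) =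
        kc O K S DA DB true j := fun j => funext (ta_kc j)
    have e4 : ∀ i j k, toR (z ∘ kc O K S DA DB i j) ∘ li O S (e k) =
        (toR z ∘ li O.dbl (S × Bool) (e k, false)) ∘ lt (g := cn DA DB i j) (fun _ => rfl) () :=
      fun i j k => funext fun l => congrArg (toR z) (kc_li i j (e k) l)
    simp only [bx, Function.comp_assoc z, e1, Function.comp_assoc (tf O (vX K S DA)), e2, e3,
      bx_split, e4, Φ4, Ψ, al4, sum_add_distrib, sum_sub_distrib]
  have dk : ∀ i j, Dp b2 fun z => Φ (z ∘ kc O K S DA DB i j) := fun i j =>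
    dΦ.comp fun l hl => lf_b0 (fun x f => p2_cn f i j) hl
  have d4 : Dp b2 Φ4 := (((dk _ _).map₂ (dk _ _) fun u v => (starRingEnd ℂ) u * v).map₂
    ((dk _ _).map₂ (dk _ _) fun u v => (starRingEnd ℂ) u * v) fun u v => (starRingEnd ℂ) u * v)
  have n4 : ∀ z, ‖Φ4 z‖ ≤ ind (∀ i j, E ((z ∘ li O.dbl (S × Bool) (e₀, false)) ∘
      lt (g := cn DA DB i j) (fun _ => rfl) ())) := fun z => by
    by_cases k : ∀ i j, E ((z ∘ li O.dbl (S × Bool) (e₀, false)) ∘
      lt (g := cn DA DB i j) (fun _ => rfl) ())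
    · rw [ind_pos k]
      exact norm_cm_le (norm_cm_le (hΦ1 _) (hΦ1 _)) (norm_cm_le (hΦ1 _) (hΦ1 _))
    · rw [ind_neg k]
      obtain ⟨i, j, k⟩ : ∃ i j, Φ (z ∘ kc O K S DA DB i j) = 0 := by
        push Not at k
        obtain ⟨i, j, k⟩ := k
        have := hΦ (z ∘ kc O K S DA DB i j)
        rw [ind_neg fun f => k (by
          convert f using 1
          exact funext fun l => congrArg z (kc_li i j e₀ l).symm)] at this
        exact ⟨i, j, norm_le_zero_iff.1 this⟩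
      cases i <;> cases j <;> simp [Φ4, k]
  have nΨ : ∀ z, ‖Ψ z‖ ≤ 1 := fun z => (norm_ee _).le
  have dj : Disjoint b2 (q' \ b2) := disjoint_sdiff
  have un : b2 ∪ q' \ b2 = q' := union_sdiff_of_subset m2'
  have sp := Ev_split lo.toTr (cb.cl lo)
    (sat_of_union lo.pd.1 (cb.cl lo).sat (un.symm ▸ (cq.cl lo).sat) dj) dj
    (f := fun z => Φ4 z * Ψ z) (C := 1) fun z => by
      rw [norm_mul]; exact mul_le_one₀ ((n4 z).trans (ind_le _)) (norm_nonneg _) (nΨ z)
  rw [un, funext (Fb_mul dj Ψ d4)] at sp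
  rw [eb, sp] at hbx
  let G : (LT T cl m O.dbl → ℤ) → Prop := fun z =>
    (∀ i j, E (z ∘ lt (g := cn DA DB i j) (fun _ => rfl) ())) ∧
      ∀ k, NR cl m Z O.dbl ω P₂ (al4 DA DB (Θ k)) (ρ * √(log (2 / β))) (toR z)
  have lo' := lo_m2 (c := (0 : LK T cl m O K S → ℝ)) h ha'
  have pt : ∀ y, ‖Φ4 y * Fb (m2 Z a c) (q' \ b2) Ψ y‖ ≤
      β + (2 * ind (G (y ∘ li O.dbl (S × Bool) (e₀, false))) +
        (2 * ind (2 < fm (m2 Z a' (0 : LK T cl m O K S → ℝ)) (q' \ b2) y) +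
          ind (2 < fm (m2 Z a c) (q' \ b2) y) * fm (m2 Z a c) (q' \ b2) y)) := fun y => by
    refine box_pt hβ (n4 y) (by simpa using lo.norm_Fb _ nΨ y) fun k1 k2 k3 => ⟨k1, fun k => ?_⟩
    have nr := extract hT hZ (O := O.dbl) (P := P₂) (r := q' \ b2) (e := fun k => (e k, false))
      (fun _ _ f => he (Prod.mk.inj f).1) (fun k => (hΘ k).al4)
      (fun k x f => ⟨hP k _ f.1, f.2⟩) (fun k l hl => by
        obtain ⟨f1, f2⟩ := mem_st.1 hl
        refine (m3 _).2 ⟨?_, _, inr_lt.2 ⟨f1, rfl⟩⟩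
        obtain ⟨i, f⟩ := kc_pj (P := Pk k) hb (l := li O.dbl (S × Bool) (e k, false) l)
          (fun x u => f2 x (inl_li.1 u)) (fun e' u => by rw [← (inr_lt.1 u).2]) bs_li
        refine (mem_dd hd).2 ⟨i, i, _, mem_vS.2 ⟨?_, bs_lf bs_li⟩, f⟩
        obtain ⟨l₁, g, g'⟩ := mem_image.1 ((mem_li (P := Pk k) (e := e k)
          (l := pj O K S (li O.dbl (S × Bool) (e k, false) l))).2 ⟨bs_lf bs_li,
            inr_lf.2 ⟨_, inr_lt.2 ⟨f1, rfl⟩, rfl⟩, fun x u => by
              obtain ⟨v, u', rfl⟩ := inl_lf.1 u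
              exact (f2 v (inl_li.1 u')).1⟩)
        exact (congrArg (· ∈ q) g').mp (hst k l₁ g))
      (fun l hl => ⟨(m1 l ((m3 l).1 hl).1).1, ((m3 l).1 hl).2, (m1 l ((m3 l).1 hl).1).2.2⟩)
      (fun l hl l' f g u => (m3 _).2 ⟨cq_iff.1 cq l ((m3 l).1 hl).1 l' f (Or.inl g), u⟩)
      (fun _ _ => ha _ _) (fun _ _ => ha' _ _) (ω := 8 * am)
      (fun l hl => mul_le_mul_of_nonneg_left (ha2 _ _ fun f => ((m3 l).1 hl).2.elim
        (kp_lf.1 (show Kp (pj O K S l).fc (pj O K S l).bs from f)).2).2 (by norm_num))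
      (fun l hl => if_neg fun f => hl.elim
        (kp_lf.1 (show Kp (pj O K S l).fc (pj O K S l).bs from f)).2) hβ k3 k2 k
    refine (NR.dp hT hZ ((hΘ k).al4.mono (P' := P₂) fun x f => ⟨hP k _ f.1, f.2⟩).dp _ _
      fun l hl => ?_).mp (nr.scale hT hZ (sqrt_nonneg _) hρ hρω)
    exact congrArg (toR y) (lf_congr (fun _ _ => rfl)
      (fun u f => ((mem_b0.1 hl).1.2 u f).elim) fun u => u.elim)
  have em : ∀ a c, (∀ F o, Kp F o → a F o = sc σ F) → (∀ l ∈ b0 T cl m O K S P, c l = 0) →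
      Emb (tst cl m Z O.dbl (σ ∘ Prod.fst) 1) (m2 Z a c) (li O.dbl (S × Bool) (e₀, false))
        (b0 T cl m O.dbl Unit Empty P₂) := fun a c k1 k2 =>
    emb_lf Function.injective_id (fun _ _ _ => rfl) (fun u : Empty => u.elim) (fun _ => rfl)
      (fun l hl => by
        have f := (mem_b0.1 hl).1
        refine (k1 _ _ (kp_lf.2 (kp_lf.2 f) : Kp (pj O K S (li O.dbl (S × Bool) (e₀, false) l)).fc
          (pj O K S (li O.dbl (S × Bool) (e₀, false) l)).bs)).trans ?_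
        change sc σ ((l.fc.image _).image _) = _
        rw [if_neg (f.2 ()), image_image, sc, prod_image]
        · exact prod_congr rfl fun v _ => by cases v <;> rfl
        · rintro (u | u) hu (v | v) hv g
          · exact l.2.2.1 hu hv (congrArg (fun x => some (cl (O.π x))) (Sum.inl_injective g))
          all_goals first | rfl | cases g)
      fun l hl => k2 _ (lf_b0 (fun x f => f.1) (lf_b0 (fun _ => id) hl))
  have ib : (b0 T cl m O.dbl Unit Empty P₂).image (li O.dbl (S × Bool) (e₀, false)) = b2 :=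
    b0_image Function.injective_id (fun _ _ _ => rfl) (by simp)
  have e1 := (em a c ha1 hc).er fun z => ind (G z)
  rw [ib] at e1
  have e2 : ∀ f, Er (m2 Z a c) b2 f = Er (m2 Z a' (0 : LK T cl m O K S → ℝ)) b2 f := fun f => by
    have k : Emb (m2 Z a c) (m2 Z a' (0 : LK T cl m O K S → ℝ)) id b2 := by
      refine ⟨Function.injective_id, fun i hi j _ => ?_, fun z i hi => ?_⟩
      · have f : Kp (pj O K S i).fc (pj O K S i).bs := kp_lf.2 (mem_b0.1 hi).1
        exact congrArg (· * _) ((if_pos f).trans (ha1 _ _ f).symm)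
      · exact congrArg (_ + ·) (hc _ (lf_b0 (fun x f => f.1) hi)).symm
    simpa only [image_id, Function.comp_id] using (k.er f).symm
  have b1 := bd_ind fun y => G (y ∘ li O.dbl (S × Bool) (e₀, false))
  have b3 := bd_ind fun y => 2 < fm (m2 Z a' (0 : LK T cl m O K S → ℝ)) (q' \ b2) y
  have b4 := (bd_ind fun y => 2 < fm (m2 Z a c) (q' \ b2) y).mul (lo.bd_fm (q' \ b2))
  have fin := lo.norm_Ev_le (q := b2) ((bd_const β).add (((bd_const 2).mul b1).add
    (((bd_const 2).mul b3).add b4))) fun y _ => pt y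
  rw [lo.Er_add (bd_const β) (((bd_const 2).mul b1).add (((bd_const 2).mul b3).add b4)),
    lo.Er_add ((bd_const 2).mul b1) (((bd_const 2).mul b3).add b4),
    lo.Er_add ((bd_const 2).mul b3) b4, Er_const, Er_mul, Er_mul, e1,
    e2 fun y => ind (2 < fm _ _ y)] at fin
  have t1 := lo.heavy (l1 a c ha haL)
  have t2 := lo'.heavy' (l1 a' 0 ha' haL')
  have t3 := mul_le_mul_of_nonneg_left (hf.le h.η1 cb) hβ.le
  change _ ≤ 16 * β + 16 * Er _ _ (fun z => ind (G z)) + _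
  linarith

end

end Vale.Agent.P057DP
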