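import Vale.Agent.P057MA.Blow
import Vale.Agent.P057PC.Ex

/-!
Expectations over closed parts of a triangular system: splitting, doubling of a set of
coordinates in copy form, Cauchy-Schwarz and deletion.
-/

open Matrix Finset
open Vale.Agent.P267.H775 Vale.Agent.P057G Vale.Agent.P057MA Vale.Agent.P057PC

namespace Vale.Agent.P057DP

noncomputable section

variable {V ι : Type*} [Fintype ι] [DecidableEq ι] {S : MS V ι}

/-- triangular systems -/
structure Tr (S : MS V ι) : Prop where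
  pd : S.G.PosDef
  tri : ∀ i z z', (∀ j, S.lv j < S.lv i → z j = z' j) → S.p z i = S.p z' i

/-- `f` depends only on the coordinates in `q` -/
def Dp {α β : Type*} (q : Finset ι) (f : (ι → α) → β) : Prop :=
  ∀ z z', (∀ i ∈ q, z i = z' i) → f z = f z'

/-- closed sets of coordinates -/
structure Cl (S : MS V ι) (q : Finset ι) : Prop where
  sat : Sat S.G q
  dep : ∀ i ∈ q, Dp q fun z => S.p z i

/-- the normalised weight -/
def nw (S : MS V ι) (q : Finset ι) (z : ι → ℤ) : ℝ := S.wt q z / vl S.G q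

/-- the expectation over the part `q` -/
def Ev (S : MS V ι) (q : Finset ι) (f : (ι → ℤ) → ℂ) : ℂ := ∑' z, (nw S q z : ℂ) * f z

/-- the centres of the fibre -/
def fp (S : MS V ι) (r : Finset ι) (y : ι → ℤ) (x : r → ℤ) : r → ℝ :=
  fun i => S.p (toR (put r x y)) i

/-- the expectation over the fibre of the coordinates in `r` -/
def Fb (S : MS V ι) (r : Finset ι) (f : (ι → ℤ) → ℂ) (y : ι → ℤ) : ℂ :=
  Ex (blk S.G r) (fp S r y) fun x => f (put r x y)

/-- the mass of the fibre -/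
def fm (S : MS V ι) (r : Finset ι) (y : ι → ℤ) : ℝ := ms (blk S.G r) (fp S r y)

omit [Fintype ι] [DecidableEq ι] in
theorem Dp.mono {α β : Type*} {q q' : Finset ι} {f : (ι → α) → β} (h : Dp q f) (hq : q ⊆ q') :
    Dp q' f := fun z z' hz => h z z' fun i hi => hz i (hq hi)

omit [Fintype ι] [DecidableEq ι] in
theorem Dp.map₂ {α β γ δ : Type*} {q : Finset ι} {f : (ι → α) → β} {g : (ι → α) → γ}
    (hf : Dp q f) (hg : Dp q g) (φ : β → γ → δ) : Dp q fun z => φ (f z) (g z) :=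
  fun z z' hz => by beta_reduce; rw [hf z z' hz, hg z z' hz]

omit [Fintype ι] [DecidableEq ι] in
theorem Dp.map {α β γ : Type*} {q : Finset ι} {f : (ι → α) → β} (hf : Dp q f) (φ : β → γ) :
    Dp q fun z => φ (f z) := fun z z' hz => by beta_reduce; rw [hf z z' hz]

omit [Fintype ι] in
theorem Cl.union {q r : Finset ι} (hq : Cl S q) (hr : Cl S r) : Cl S (q ∪ r) := by
  refine ⟨fun i j hi hj => ?_, fun i hi => ?_⟩
  · rw [mem_union, not_or] at hj
    exact (mem_union.1 hi).elim (fun h => hq.sat i j h hj.1) fun h => hr.sat i j h hj.2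
  · exact (mem_union.1 hi).elim (fun h => (hq.dep i h).mono subset_union_left)
      fun h => (hr.dep i h).mono subset_union_right

theorem Tr.summable (h : Tr S) (q : Finset ι) : Summable (S.wt q) := by
  have ht : Tri S.lv fun z => msk q (S.p (toR z)) := by
    intro i z z' hz
    beta_reduce
    by_cases hi : i ∈ q
    · rw [msk_pos _ hi, msk_pos _ hi]
      exact h.tri i _ _ fun j hj => by rw [toR_apply, toR_apply, hz j hj]
    · rw [msk_neg _ hi, msk_neg _ hi]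
  refine (ht.summable h.pd).of_nonneg_of_le (MS.wt_nonneg q) fun z => ?_
  unfold MS.wt
  split_ifs with hz
  · refine le_of_eq ?_
    congr 1; funext i
    by_cases hi : i ∈ q
    · rw [msk_pos _ hi, Pi.sub_apply, msk_pos _ hi]; rfl
    · rw [msk_neg _ hi, Pi.sub_apply, msk_neg _ hi, toR_apply, hz i hi]; simp
  · exact (gs_pos _ _).le

theorem nw_nonneg (S : MS V ι) (q : Finset ι) (z : ι → ℤ) : 0 ≤ nw S q z :=
  div_nonneg (MS.wt_nonneg q z) (inv_nonneg.2 (Real.sqrt_nonneg _))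

theorem Tr.summable_nw (h : Tr S) (q : Finset ι) : Summable (nw S q) := (h.summable q).div_const _

theorem tsum_nw (S : MS V ι) (q : Finset ι) : ∑' z, nw S q z = S.mass q := tsum_div_const

theorem mass_nonneg (S : MS V ι) (q : Finset ι) : 0 ≤ S.mass q :=
  tsum_nw S q ▸ tsum_nonneg (nw_nonneg S q)

theorem Tr.summable_Ev (h : Tr S) (q : Finset ι) {f : (ι → ℤ) → ℂ} {C : ℝ} (hf : ∀ z, ‖f z‖ ≤ C) :
    Summable fun z => (nw S q z : ℂ) * f z := summable_mul_cx (h.summable_nw q) (nw_nonneg S q) hf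

theorem Ev_real (S : MS V ι) (q : Finset ι) (f : (ι → ℤ) → ℝ) :
    Ev S q (fun z => f z) = ((∑' z, nw S q z * f z : ℝ) : ℂ) := by
  simp only [Ev, Complex.ofReal_tsum, Complex.ofReal_mul]

theorem Ev_one (S : MS V ι) (q : Finset ι) : Ev S q (fun _ => 1) = S.mass q := by
  simp only [Ev, mul_one, ← tsum_nw, Complex.ofReal_tsum]

theorem Tr.norm_Ev (h : Tr S) (q : Finset ι) {f : (ι → ℤ) → ℂ} {C : ℝ} (hf : ∀ z, ‖f z‖ ≤ C) :
    ‖Ev S q f‖ ≤ C * S.mass q := by
  rw [← tsum_nw]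
  refine tsum_of_norm_bounded ((h.summable_nw q).hasSum.mul_left C) fun z => ?_
  rw [norm_mul, Complex.norm_real, Real.norm_of_nonneg (nw_nonneg _ _ _), mul_comm]
  exact mul_le_mul_of_nonneg_right (hf z) (nw_nonneg _ _ _)

theorem Ev_congr {q : Finset ι} {f g : (ι → ℤ) → ℂ}
    (h : ∀ z, (∀ i ∉ q, z i = 0) → f z = g z) : Ev S q f = Ev S q g := by
  refine tsum_congr fun z => ?_
  by_cases hz : ∀ i ∉ q, z i = 0
  · rw [h z hz]
  · simp [nw, MS.wt, if_neg hz]

omit [Fintype ι] in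
theorem Tr.tri_fp (h : Tr S) (r : Finset ι) (y : ι → ℤ) : Tri (fun i : r => S.lv i) (fp S r y) := by
  intro i x x' hx
  refine h.tri i _ _ fun j hj => ?_
  by_cases hr : j ∈ r
  · simp only [toR, put_pos _ _ hr, hx ⟨j, hr⟩ hj]
  · simp only [toR, put_neg _ _ hr]

omit [Fintype ι] in
theorem Tr.fm_bdd (h : Tr S) (r : Finset ι) : ∃ B, ∀ y, fm S r y ≤ B := by
  obtain ⟨B, hB⟩ := ms_bdd (posDef_blk h.pd r)
  exact ⟨B, fun y => hB _ _ (h.tri_fp r y)⟩

omit [Fintype ι] in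
theorem fm_nonneg (S : MS V ι) (r : Finset ι) (y : ι → ℤ) : 0 ≤ fm S r y := ms_nonneg _ _

omit [Fintype ι] in
theorem Tr.norm_Fb (h : Tr S) (r : Finset ι) {f : (ι → ℤ) → ℂ} {C : ℝ} (hf : ∀ z, ‖f z‖ ≤ C)
    (y : ι → ℤ) : ‖Fb S r f y‖ ≤ C * fm S r y :=
  norm_Ex_le (h.tri_fp r y) (posDef_blk h.pd r) fun _ => hf _

omit [Fintype ι] in
theorem Tr.Fb_bdd (h : Tr S) (r : Finset ι) {f : (ι → ℤ) → ℂ} {C : ℝ} (hf : ∀ z, ‖f z‖ ≤ C) :
    ∃ B, ∀ y, ‖Fb S r f y‖ ≤ B := by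
  obtain ⟨B, hB⟩ := h.fm_bdd r
  exact ⟨C * B, fun y => (h.norm_Fb r hf y).trans
    (mul_le_mul_of_nonneg_left (hB y) ((norm_nonneg _).trans (hf 0)))⟩

omit [Fintype ι] in
theorem Fb_one (S : MS V ι) (r : Finset ι) (y : ι → ℤ) : Fb S r (fun _ => 1) y = fm S r y :=
  Ex_one _ _

omit [Fintype ι] in
theorem Fb_mul {q r : Finset ι} (hd : Disjoint q r) (f : (ι → ℤ) → ℂ) {g : (ι → ℤ) → ℂ}
    (hg : Dp q g) (y : ι → ℤ) : Fb S r (fun z => g z * f z) y = g y * Fb S r f y := by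
  unfold Fb
  rw [← Ex_mul_const]
  congr 1
  funext x
  beta_reduce
  rw [hg (put r x y) y fun i hi => put_neg _ _ (disjoint_left.1 hd hi)]

omit [Fintype ι] in
theorem Fb_conj (r : Finset ι) (f : (ι → ℤ) → ℂ) (y : ι → ℤ) :
    Fb S r (fun z => (starRingEnd ℂ) (f z)) y = (starRingEnd ℂ) (Fb S r f y) := by
  simp only [Fb, Ex, Complex.conj_tsum, map_mul, Complex.conj_ofReal]

omit [Fintype ι] in
theorem dp_Fb {q r : Finset ι} (hc : Cl S (q ∪ r)) {f : (ι → ℤ) → ℂ} (hf : Dp (q ∪ r) f) :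
    Dp q (Fb S r f) := by
  intro y y' hy
  have key : ∀ x : r → ℤ, ∀ i ∈ q ∪ r, put r x y i = put r x y' i := fun x i hi => by
    by_cases h : i ∈ r
    · rw [put_pos _ _ h, put_pos _ _ h]
    · rw [put_neg _ _ h, put_neg _ _ h, hy i ((mem_union.1 hi).resolve_right h)]
  unfold Fb
  congr 1
  · funext x i
    exact hc.dep i (mem_union_right _ i.2) _ _ fun j hj => by simp only [toR, key x j hj]
  · funext x
    exact hf _ _ (key x)

theorem nw_put (h : Tr S) {q r : Finset ι} (hq : Cl S q) (hr : Sat S.G r) (hd : Disjoint q r)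
    {y : ι → ℤ} (hy : ∀ i ∈ r, y i = 0) (x : r → ℤ) :
    nw S (q ∪ r) (put r x y) = nw S q y * ng (blk S.G r) (toR x - fp S r y x) := by
  have e1 : (q ∪ r) ∩ r = r := union_inter_cancel_right
  have e2 : (q ∪ r) \ r = q := union_sdiff_cancel_right hd
  unfold nw ng MS.wt
  have h1 : (∀ i ∉ q ∪ r, put r x y i = 0) ↔ ∀ i ∉ q, y i = 0 := by
    refine ⟨fun k i hi => ?_, fun k i hi => ?_⟩
    · by_cases hi2 : i ∈ r
      · exact hy i hi2
      · rw [← put_neg x y hi2]; exact k i fun m => (mem_union.1 m).elim hi hi2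
    · rw [put_neg _ _ fun m => hi (mem_union_right _ m)]
      exact k i fun m => hi (mem_union_left _ m)
  rw [if_congr h1 rfl rfl, vl_split h.pd hr, gs_msk_split h.pd.1 hr, e1, e2]
  split_ifs
  · have h2 : msk q (S.ps (put r x y)) = msk q (S.ps y) := msk_congr fun i hi => by
      simp only [MS.ps, Pi.sub_apply, toR_apply, put_neg x y (disjoint_left.1 hd hi)]
      exact congrArg _ (hq.dep i hi _ (toR y) fun j hj => by
        rw [toR_apply, toR_apply, put_neg x y (disjoint_left.1 hd hj)])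
    have h3 : (fun i : r => S.ps (put r x y) i) = toR x - fp S r y x := by
      funext i
      simp only [MS.ps, Pi.sub_apply, toR_apply, put_coe, fp]
    rw [h2, gs_msk S.G r, h3, div_mul_div_comm, mul_comm (gs _ _), mul_comm (vl _ _)]
    rfl
  · simp

/-- summation over the fibres first -/
theorem Ev_split (h : Tr S) {q r : Finset ι} (hq : Cl S q) (hr : Sat S.G r) (hd : Disjoint q r)
    {f : (ι → ℤ) → ℂ} {C : ℝ} (hf : ∀ z, ‖f z‖ ≤ C) : Ev S (q ∪ r) f = Ev S q (Fb S r f) := by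
  rw [Ev, ← (hasSum_put r (h.summable_Ev (q ∪ r) hf)).2.tsum_eq]
  refine tsum_congr fun y => ?_
  split_ifs with hy
  · rw [Fb, Ex, ← tsum_mul_left]
    refine tsum_congr fun x => ?_
    rw [nw_put h hq hr hd hy]; push_cast; ring
  · push Not at hy
    obtain ⟨i, hi, h0⟩ := hy
    simp [nw, MS.wt_eq_zero (disjoint_right.1 hd hi) h0]

/-- transport along an embedding of the coordinates -/
theorem Ev_image {V' ι' : Type*} [Fintype ι'] [DecidableEq ι'] {S' : MS V' ι'} {e : ι → ι'}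
    {q : Finset ι} (he : Function.Injective e)
    (hG : ∀ i ∈ q, ∀ j ∈ q, S'.G (e i) (e j) = S.G i j)
    (hp : ∀ z, ∀ i ∈ q, S'.p z (e i) = S.p (z ∘ e) i) (f : (ι → ℤ) → ℂ) :
    Ev S' (q.image e) (fun z => f (z ∘ e)) = Ev S q f := by
  have := tsum_wt_image he hG hp f
  simp only [Complex.real_smul] at this
  simp only [Ev, nw, vl_image he hG, div_eq_inv_mul, Complex.ofReal_mul, mul_assoc, tsum_mul_left,
    this]

/-- a copy `r'` of the coordinates `r` over the base `q` -/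
structure Cp (S : MS V ι) (q r r' : Finset ι) (τ : ι → ι) : Prop where
  cq : Cl S q
  cr : Cl S (q ∪ r)
  cr' : Cl S (q ∪ r')
  d1 : Disjoint q r
  d2 : Disjoint (q ∪ r) r'
  inj : Function.Injective τ
  fix : ∀ i ∈ q, τ i = i
  img : r.image τ = r'
  gr : ∀ i ∈ r, ∀ j ∈ r, S.G (τ i) (τ j) = S.G i j
  ce : ∀ z, ∀ i ∈ r, S.p z (τ i) = S.p (z ∘ τ) i

omit [Fintype ι] in
theorem sat_of_union (hG : S.G.IsHermitian) {q r : Finset ι} (hq : Sat S.G q)
    (hr : Sat S.G (q ∪ r)) (hd : Disjoint q r) : Sat S.G r := by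
  have := Sat.sdiff hG hr hq
  rwa [union_sdiff_cancel_left hd] at this

omit [Fintype ι] in
theorem Cp.fb {q r r' : Finset ι} {τ : ι → ι} (c : Cp S q r r' τ) {g : (ι → ℤ) → ℂ}
    (hg : Dp (q ∪ r) g) (y : ι → ℤ) : Fb S r' (fun z => g (z ∘ τ)) y = Fb S r g y := by
  let a : r ≃ r' := Equiv.ofBijective (fun i => ⟨τ i, c.img ▸ mem_image_of_mem τ i.2⟩)
    ⟨fun i j h => Subtype.ext (c.inj (congrArg Subtype.val h)), fun j => by
      obtain ⟨i, hi, h⟩ := mem_image.1 (c.img.symm ▸ j.2 : (j : ι) ∈ r.image τ)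
      exact ⟨⟨i, hi⟩, Subtype.ext h⟩⟩
  have key : ∀ x : r' → ℤ, ∀ i ∈ q ∪ r, put r (x ∘ a) y i = (put r' x y ∘ τ) i := fun x i hi => by
    by_cases h : i ∈ r
    · rw [put_pos _ _ h]
      exact (put_coe x y (a ⟨i, h⟩)).symm
    · have hq := (mem_union.1 hi).resolve_right h
      rw [put_neg _ _ h, Function.comp_apply, c.fix i hq, put_neg _ _ (disjoint_left.1 c.d2 hi)]
  refine (Ex_equiv a (fun i j => (c.gr i i.2 j j.2).symm) (fun x i => ?_) fun x => ?_).symm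
  · change S.p _ i = S.p _ (τ i)
    rw [c.ce _ i i.2]
    exact c.cr.dep i (mem_union_right _ i.2) _ _ fun j hj => congrArg (Int.cast : ℤ → ℝ) (key x j hj)
  · exact hg _ _ (key x)

/-- the doubled system factors over the base -/
theorem Cp.ev (h : Tr S) {q r r' : Finset ι} {τ : ι → ι} (c : Cp S q r r' τ)
    {f g : (ι → ℤ) → ℂ} {C D : ℝ} (hf : ∀ z, ‖f z‖ ≤ C) (hg : ∀ z, ‖g z‖ ≤ D)
    (df : Dp (q ∪ r) f) (dg : Dp (q ∪ r) g) :
    Ev S (q ∪ r ∪ r') (fun z => f z * g (z ∘ τ)) = Ev S q fun y => Fb S r f y * Fb S r g y := by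
  have hC : 0 ≤ C := (norm_nonneg _).trans (hf 0)
  obtain ⟨B, hB⟩ := h.Fb_bdd r hg
  have s1 : Sat S.G r := sat_of_union h.pd.1 c.cq.sat c.cr.sat c.d1
  have s2 : Sat S.G r' := sat_of_union h.pd.1 c.cq.sat c.cr'.sat
    (c.d2.mono_left subset_union_left)
  rw [Ev_split h c.cr s2 c.d2 (C := C * D) fun z => by
      rw [norm_mul]; exact mul_le_mul (hf _) (hg _) (norm_nonneg _) hC]
  have e1 : Fb S r' (fun z => f z * g (z ∘ τ)) = fun y => Fb S r g y * f y := by
    funext y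
    rw [Fb_mul c.d2 _ df, c.fb dg, mul_comm]
  rw [e1, Ev_split h c.cq s1 c.d1 (C := B * C) fun z => by
      rw [norm_mul]; exact mul_le_mul (hB _) (hf _) (norm_nonneg _) ((norm_nonneg _).trans (hB 0))]
  congr 1
  funext y
  rw [Fb_mul c.d1 _ (dp_Fb c.cr dg), mul_comm]

/-- Cauchy-Schwarz over the base; a bounded factor on the base is removed -/
theorem Cp.cs (h : Tr S) {q r r' : Finset ι} {τ : ι → ι} (c : Cp S q r r' τ)
    {a f : (ι → ℤ) → ℂ} {C : ℝ} (ha : ∀ z, ‖a z‖ ≤ 1) (hf : ∀ z, ‖f z‖ ≤ C) (da : Dp q a)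
    (df : Dp (q ∪ r) f) : ‖Ev S (q ∪ r) fun z => a z * f z‖ ^ 2 ≤
      S.mass q * (Ev S (q ∪ r ∪ r') fun z => (starRingEnd ℂ) (f z) * f (z ∘ τ)).re := by
  obtain ⟨B, hB⟩ := h.Fb_bdd r hf
  have s1 : Sat S.G r := sat_of_union h.pd.1 c.cq.sat c.cr.sat c.d1
  rw [c.ev h (f := fun z => (starRingEnd ℂ) (f z)) (C := C) (by simpa using hf) hf (df.map _) df,
    Ev_split h c.cq s1 c.d1 (C := C) fun z => by
      rw [norm_mul]; exact (mul_le_of_le_one_left (norm_nonneg _) (ha z)).trans (hf z)]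
  have h1 : ∀ y, Fb S r (fun z => (starRingEnd ℂ) (f z)) y * Fb S r f y =
      ((‖Fb S r f y‖ ^ 2 : ℝ) : ℂ) := fun y => by
    rw [← Complex.normSq_eq_norm_sq, Complex.normSq_eq_conj_mul_self, Fb_conj]
  simp_rw [h1]
  rw [Ev_real, Complex.ofReal_re, ← tsum_nw]
  have hw := h.summable_nw q
  have hs := summable_mul_real hw (nw_nonneg S q) (f := fun y => ‖Fb S r f y‖ ^ 2) (C := B ^ 2)
    fun y => by rw [abs_of_nonneg (sq_nonneg _)]; exact pow_le_pow_left₀ (norm_nonneg _) (hB y) 2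
  have hle : ∀ y, nw S q y * ‖a y * Fb S r f y‖ ^ 2 ≤ nw S q y * ‖Fb S r f y‖ ^ 2 := fun y => by
    refine mul_le_mul_of_nonneg_left (pow_le_pow_left₀ (norm_nonneg _) ?_ 2) (nw_nonneg _ _ _)
    rw [norm_mul]; exact mul_le_of_le_one_left (norm_nonneg _) (ha y)
  have hs2 := hs.of_nonneg_of_le (fun y => mul_nonneg (nw_nonneg _ _ _) (sq_nonneg _)) hle
  have h2 := norm_tsum_sq_le hw (nw_nonneg S q) (f := fun y => a y * Fb S r f y) hs2
  simp only [Complex.real_smul] at h2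
  rw [funext (Fb_mul c.d1 f da)]
  exact h2.trans (mul_le_mul_of_nonneg_left (hs2.tsum_le_tsum hle hs)
    (tsum_nonneg (nw_nonneg S q)))

/-- the masses of the fibres are close to one in the mean -/
theorem Cp.l1 (h : Tr S) {q r r' : Finset ι} {τ : ι → ι} (c : Cp S q r r' τ) {η : ℝ} (hη : η ≤ 1)
    (h0 : |S.mass q - 1| ≤ η) (h1 : |S.mass (q ∪ r) - 1| ≤ η)
    (h2 : |S.mass (q ∪ r ∪ r') - 1| ≤ η) : ∑' y, nw S q y * |fm S r y - 1| ≤ 3 * √η := by
  have hη0 : 0 ≤ η := (abs_nonneg _).trans h0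
  obtain ⟨B, hB⟩ := h.fm_bdd r
  have hB' : ∀ y, |fm S r y| ≤ B := fun y => by rw [abs_of_nonneg (fm_nonneg _ _ _)]; exact hB y
  have s1 : Sat S.G r := sat_of_union h.pd.1 c.cq.sat c.cr.sat c.d1
  have hw := h.summable_nw q
  have hw0 := nw_nonneg S q
  have t1 := summable_mul_real hw hw0 hB'
  have t2 := summable_mul_real hw hw0 (f := fun y => fm S r y * fm S r y) (C := B * B) fun y => by
    rw [abs_mul]; exact mul_le_mul (hB' y) (hB' y) (abs_nonneg _) ((abs_nonneg _).trans (hB' y))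
  have e1 : S.mass (q ∪ r) = ∑' y, nw S q y * fm S r y := by
    have := Ev_split h c.cq s1 c.d1 (f := fun _ => 1) (C := 1) (by simp)
    rw [Ev_one, funext (Fb_one S r), Ev_real] at this
    exact_mod_cast this
  have e2 : S.mass (q ∪ r ∪ r') = ∑' y, nw S q y * (fm S r y * fm S r y) := by
    have := c.ev h (f := fun _ => 1) (g := fun _ => 1) (C := 1) (D := 1) (by simp) (by simp)
      (fun _ _ _ => rfl) fun _ _ _ => rfl
    simp only [mul_one, Fb_one, ← Complex.ofReal_mul] at this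
    rw [Ev_one, Ev_real] at this
    exact_mod_cast this
  have s3 : HasSum (fun y => nw S q y * (fm S r y - 1) ^ 2)
      (S.mass (q ∪ r ∪ r') - 2 * S.mass (q ∪ r) + S.mass q) := by
    rw [e1, e2, ← tsum_nw]
    refine ((t2.hasSum.sub (t1.hasSum.mul_left 2)).add hw.hasSum).congr_fun fun y => ?_
    ring
  have h3 := (tsum_cs (c := fun y => nw S q y * |fm S r y - 1|) hw s3.summable hw0
    (fun y => mul_nonneg (hw0 y) (sq_nonneg _)) (fun y => mul_nonneg (hw0 y) (abs_nonneg _))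
    fun y => le_of_eq (by rw [mul_pow, sq_abs]; ring)).2
  rw [s3.tsum_eq, tsum_nw] at h3
  rw [abs_le] at h0 h1 h2
  refine le_of_sq_le_sq ?_ (by positivity)
  rw [mul_pow, Real.sq_sqrt hη0]
  refine h3.trans ?_
  refine (mul_le_mul (b := 2) (d := 4 * η) (by linarith) (by linarith)
    (s3.nonneg fun y => mul_nonneg (hw0 y) (sq_nonneg _)) (by norm_num)).trans ?_
  linarith

/-- deletion of the coordinates in `r` -/
theorem Cp.del (h : Tr S) {q r r' : Finset ι} {τ : ι → ι} (c : Cp S q r r' τ) {η : ℝ} (hη : η ≤ 1)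
    (h0 : |S.mass q - 1| ≤ η) (h1 : |S.mass (q ∪ r) - 1| ≤ η)
    (h2 : |S.mass (q ∪ r ∪ r') - 1| ≤ η) {f : (ι → ℤ) → ℂ} {C : ℝ} (hf : ∀ z, ‖f z‖ ≤ C)
    (df : Dp q f) : ‖Ev S (q ∪ r) f - Ev S q f‖ ≤ 3 * √η * C := by
  have hC : 0 ≤ C := (norm_nonneg _).trans (hf 0)
  obtain ⟨B, hB⟩ := h.fm_bdd r
  have s1 : Sat S.G r := sat_of_union h.pd.1 c.cq.sat c.cr.sat c.d1
  have e1 : Fb S r f = fun y => f y * fm S r y := by
    funext y
    rw [← Fb_one, ← Fb_mul c.d1 _ df]; simp only [mul_one]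
  have hb : ∀ y, ‖f y * fm S r y‖ ≤ C * B := fun y => by
    rw [norm_mul, Complex.norm_real, Real.norm_of_nonneg (fm_nonneg _ _ _)]
    exact mul_le_mul (hf y) (hB y) (fm_nonneg _ _ _) hC
  rw [Ev_split h c.cq s1 c.d1 hf, e1, Ev, Ev,
    ← (h.summable_Ev q hb).tsum_sub (h.summable_Ev q hf)]
  have t1 := summable_mul_real (h.summable_nw q) (nw_nonneg S q)
    (f := fun y => |fm S r y - 1|) (C := B + 1) fun y => by
      rw [abs_abs, abs_le]
      have := hB y
      have := fm_nonneg S r y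
      constructor <;> linarith
  refine (tsum_of_norm_bounded (t1.hasSum.mul_right C) fun y => ?_).trans
    (mul_le_mul_of_nonneg_right (c.l1 h hη h0 h1 h2) hC)
  rw [← mul_sub, norm_mul, Complex.norm_real, Real.norm_of_nonneg (nw_nonneg _ _ _), mul_assoc,
    ← mul_sub_one, norm_mul, ← Complex.ofReal_one, ← Complex.ofReal_sub, Complex.norm_real,
    mul_comm ‖f y‖]
  exact mul_le_mul_of_nonneg_left (mul_le_mul_of_nonneg_left (hf y) (abs_nonneg _))
    (nw_nonneg _ _ _)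

end

end Vale.Agent.P057DP
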