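import Vale.Agent.P057DP.Sd

/-!
Real expectations, embeddings, rules for near integer forms, independent fibres.
-/

set_option linter.all false

open Matrix Finset
open Vale.Agent.P267.H775 Vale.Agent.P057G Vale.Agent.P057MA Vale.Agent.P057PC
open Vale.Agent.P057T1 (ind ind_pos ind_neg ind_nonneg ind_le abs_ind ind_mono)

namespace Vale.Agent.P057DP

noncomputable section

variable {V ι V' ι' : Type} [Fintype ι] [DecidableEq ι] [Fintype ι'] [DecidableEq ι']
  {S : MS V ι} {S' : MS V' ι'} {q r : Finset ι}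

/-- the real expectation over a fibre -/
def Fr (S : MS V ι) (r : Finset ι) (f : (ι → ℤ) → ℝ) (y : ι → ℤ) : ℝ :=
  ∑' x : r → ℤ, ng (blk S.G r) (toR x - fp S r y x) * f (put r x y)

/-- bounded functions -/
def Bd {α : Type*} (f : α → ℝ) : Prop := ∃ C, ∀ z, |f z| ≤ C

theorem bd_ind {α : Type*} (E : α → Prop) : Bd fun z => ind (E z) := ⟨1, fun _ => abs_ind _⟩

theorem bd_const {α : Type*} (c : ℝ) : Bd fun _ : α => c := ⟨|c|, fun _ => le_rfl⟩

theorem Bd.mul {α : Type*} {f g : α → ℝ} (hf : Bd f) (hg : Bd g) : Bd fun z => f z * g z := by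
  obtain ⟨C, hC⟩ := hf
  obtain ⟨D, hD⟩ := hg
  exact ⟨C * D, fun z => by
    rw [abs_mul]; exact mul_le_mul (hC z) (hD z) (abs_nonneg _) ((abs_nonneg _).trans (hC z))⟩

theorem Bd.add {α : Type*} {f g : α → ℝ} (hf : Bd f) (hg : Bd g) : Bd fun z => f z + g z := by
  obtain ⟨C, hC⟩ := hf
  obtain ⟨D, hD⟩ := hg
  exact ⟨C + D, fun z => (abs_add_le _ _).trans (add_le_add (hC z) (hD z))⟩

theorem Bd.abs {α : Type*} {f : α → ℝ} (hf : Bd f) : Bd fun z => |f z| := by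
  simpa only [Bd, abs_abs] using hf

theorem Bd.sub {α : Type*} {f g : α → ℝ} (hf : Bd f) (hg : Bd g) : Bd fun z => f z - g z := by
  simpa only [sub_eq_add_neg, neg_mul, one_mul] using hf.add ((bd_const (-1)).mul hg)

theorem Bd.cx {α : Type*} {f : α → ℝ} (hf : Bd f) : ∃ C, ∀ z, ‖(f z : ℂ)‖ ≤ C := by
  simpa only [Complex.norm_real, Real.norm_eq_abs, Bd] using hf

theorem bd_norm {α : Type*} {f : α → ℂ} {C : ℝ} (hf : ∀ z, ‖f z‖ ≤ C) : Bd fun z => ‖f z‖ :=
  ⟨C, fun z => by rw [abs_norm]; exact hf z⟩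

theorem ind_and (p r : Prop) : ind (p ∧ r) = ind p * ind r := by
  by_cases a : p <;> by_cases b : r <;> simp [ind, a, b]

theorem Ev_Er (S : MS V ι) (q : Finset ι) (f : (ι → ℤ) → ℝ) :
    Ev S q (fun z => f z) = Er S q f := Ev_real S q f

theorem Fb_Fr (S : MS V ι) (r : Finset ι) (f : (ι → ℤ) → ℝ) (y : ι → ℤ) :
    Fb S r (fun z => f z) y = Fr S r f y := Ex_real _ _ fun x => f (put r x y)

theorem Tr.sumEr (h : Tr S) (q : Finset ι) {f : (ι → ℤ) → ℝ} (hf : Bd f) :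
    Summable fun z => nw S q z * f z :=
  summable_mul_real (h.summable_nw q) (nw_nonneg S q) hf.choose_spec

theorem Tr.Er_le (h : Tr S) {f g : (ι → ℤ) → ℝ} (hf : Bd f) (hg : Bd g)
    (k : ∀ z, (∀ i ∉ q, z i = 0) → f z ≤ g z) : Er S q f ≤ Er S q g := by
  refine (h.sumEr q hf).tsum_le_tsum (fun z => ?_) (h.sumEr q hg)
  by_cases hz : ∀ i ∉ q, z i = 0
  · exact mul_le_mul_of_nonneg_left (k z hz) (nw_nonneg _ _ _)
  · simp [nw, MS.wt, if_neg hz]

theorem Tr.Er_add (h : Tr S) {f g : (ι → ℤ) → ℝ} (hf : Bd f) (hg : Bd g) :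
    Er S q (fun z => f z + g z) = Er S q f + Er S q g := by
  simp only [Er, mul_add, (h.sumEr q hf).tsum_add (h.sumEr q hg)]

theorem Er_mul (c : ℝ) (f : (ι → ℤ) → ℝ) : Er S q (fun z => c * f z) = c * Er S q f := by
  simp only [Er, ← tsum_mul_left, mul_left_comm c]

theorem Er_const (c : ℝ) : Er S q (fun _ => c) = c * S.mass q := by
  rw [Er, tsum_mul_right, tsum_nw, mul_comm]

theorem Er_nonneg {f : (ι → ℤ) → ℝ} (hf : ∀ z, 0 ≤ f z) : 0 ≤ Er S q f :=
  tsum_nonneg fun z => mul_nonneg (nw_nonneg _ _ _) (hf z)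

theorem Tr.norm_Ev_le (h : Tr S) {f : (ι → ℤ) → ℂ} {g : (ι → ℤ) → ℝ} (hg : Bd g)
    (k : ∀ z, (∀ i ∉ q, z i = 0) → ‖f z‖ ≤ g z) : ‖Ev S q f‖ ≤ Er S q g := by
  refine tsum_of_norm_bounded (h.sumEr q hg).hasSum fun z => ?_
  rw [norm_mul, Complex.norm_real, Real.norm_of_nonneg (nw_nonneg _ _ _)]
  by_cases hz : ∀ i ∉ q, z i = 0
  · exact mul_le_mul_of_nonneg_left (k z hz) (nw_nonneg _ _ _)
  · simp [nw, MS.wt, if_neg hz]

theorem Tr.Er_split (h : Tr S) (hq : Cl S q) (hr : Sat S.G r) (hd : Disjoint q r)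
    {f : (ι → ℤ) → ℝ} (hf : Bd f) : Er S (q ∪ r) f = Er S q (Fr S r f) := by
  have := Ev_split h hq hr hd hf.cx.choose_spec
  rw [Ev_Er, funext (Fb_Fr S r f), Ev_Er] at this
  exact_mod_cast this

theorem Tr.bd_Fr (h : Tr S) (r : Finset ι) {f : (ι → ℤ) → ℝ} (hf : Bd f) : Bd (Fr S r f) := by
  obtain ⟨B, hB⟩ := h.Fb_bdd r hf.cx.choose_spec
  exact ⟨B, fun y => by simpa only [Fb_Fr, Complex.norm_real, Real.norm_eq_abs] using hB y⟩

theorem Tr.bd_fm (h : Tr S) (r : Finset ι) : Bd (fm S r) := by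
  obtain ⟨B, hB⟩ := h.fm_bdd r
  exact ⟨B, fun y => by rw [abs_of_nonneg (fm_nonneg _ _ _)]; exact hB y⟩

theorem Tr.Fr_le (h : Tr S) {f g : (ι → ℤ) → ℝ} (hf : Bd f) (hg : Bd g) (y : ι → ℤ)
    (k : ∀ x, f (put r x y) ≤ g (put r x y)) : Fr S r f y ≤ Fr S r g y := by
  have s := summable_ng (h.tri_fp r y) (posDef_blk h.pd r)
  exact (summable_mul_real s (fun _ => ng_nonneg _ _) fun _ => hf.choose_spec _).tsum_le_tsum
    (fun x => mul_le_mul_of_nonneg_left (k x) (ng_nonneg _ _))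
    (summable_mul_real s (fun _ => ng_nonneg _ _) fun _ => hg.choose_spec _)

theorem Fr_nonneg {f : (ι → ℤ) → ℝ} (hf : ∀ z, 0 ≤ f z) (y : ι → ℤ) : 0 ≤ Fr S r f y :=
  tsum_nonneg fun _ => mul_nonneg (ng_nonneg _ _) (hf _)

theorem Fr_one (y : ι → ℤ) : Fr S r (fun _ => 1) y = fm S r y := by simp [Fr, fm, ms]

theorem Tr.Fr_ind (h : Tr S) (E : (ι → ℤ) → Prop) (y : ι → ℤ) :
    Fr S r (fun z => ind (E z)) y ≤ fm S r y :=
  Fr_one (S := S) y ▸ h.Fr_le (bd_ind E) (bd_const 1) y fun _ => ind_le _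

theorem Fr_mul (hd : Disjoint q r) (f : (ι → ℤ) → ℝ) {g : (ι → ℤ) → ℝ} (hg : Dp q g) (y : ι → ℤ) :
    Fr S r (fun z => g z * f z) y = g y * Fr S r f y := by
  have := Fb_mul (S := S) hd (fun z => (f z : ℂ)) (hg.map fun x : ℝ => (x : ℂ)) y
  simp only [← Complex.ofReal_mul, Fb_Fr] at this
  exact_mod_cast this

theorem dp_Fr (hc : Cl S (q ∪ r)) {f : (ι → ℤ) → ℝ} (hf : Dp (q ∪ r) f) : Dp q (Fr S r f) :=
  fun y y' hy => by
    have := dp_Fb hc (hf.map fun x : ℝ => (x : ℂ)) y y' hy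
    simp only [Fb_Fr] at this
    exact_mod_cast this

/-- heavy fibres are rare -/
theorem Tr.heavy (h : Tr S) {ε : ℝ} (k : Er S q (fun y => |fm S r y - 1|) ≤ ε) :
    Er S q (fun y => ind (2 < fm S r y) * fm S r y) ≤ 2 * ε := by
  refine (h.Er_le ((bd_ind _).mul (h.bd_fm r)) ((bd_const 2).mul ((h.bd_fm r).sub (bd_const 1)).abs)
    fun y _ => ?_).trans (by rw [Er_mul]; linarith)
  by_cases a : 2 < fm S r y
  · rw [ind_pos a, abs_of_pos (by linarith)]; linarith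
  · rw [ind_neg a, zero_mul]; positivity

theorem Tr.heavy' (h : Tr S) {ε : ℝ} (k : Er S q (fun y => |fm S r y - 1|) ≤ ε) :
    Er S q (fun y => ind (2 < fm S r y)) ≤ ε := by
  refine (h.Er_le (bd_ind _) ((h.bd_fm r).sub (bd_const 1)).abs fun y _ => ?_).trans k
  by_cases a : 2 < fm S r y
  · rw [ind_pos a, abs_of_pos (by linarith)]; linarith
  · rw [ind_neg a]; positivity

/-- an embedding of the part `q` -/
structure Emb (S : MS V ι) (S' : MS V' ι') (e : ι → ι') (q : Finset ι) : Prop where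
  inj : Function.Injective e
  gr : ∀ i ∈ q, ∀ j ∈ q, S'.G (e i) (e j) = S.G i j
  ce : ∀ z, ∀ i ∈ q, S'.p z (e i) = S.p (z ∘ e) i

variable {e : ι → ι'}

theorem Emb.mono (h : Emb S S' e q) (hr : r ⊆ q) : Emb S S' e r :=
  ⟨h.inj, fun i a j b => h.gr i (hr a) j (hr b), fun z i a => h.ce z i (hr a)⟩

theorem Emb.ev (h : Emb S S' e q) (f : (ι → ℤ) → ℂ) :
    Ev S' (q.image e) (fun z => f (z ∘ e)) = Ev S q f := Ev_image h.inj h.gr h.ce f

theorem Emb.er (h : Emb S S' e q) (f : (ι → ℤ) → ℝ) :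
    Er S' (q.image e) (fun z => f (z ∘ e)) = Er S q f := by
  have := h.ev fun z => f z
  rw [Ev_Er, Ev_Er] at this
  exact_mod_cast this

theorem Emb.fb (h : Emb S S' e r) (f : (ι → ℤ) → ℂ) (y : ι' → ℤ) :
    Fb S' (r.image e) (fun z => f (z ∘ e)) y = Fb S r f (y ∘ e) := by
  let a : r ≃ r.image e := Equiv.ofBijective (fun i => ⟨e i, mem_image_of_mem e i.2⟩)
    ⟨fun i j k => Subtype.ext (h.inj (congrArg Subtype.val k)), fun j => by
      obtain ⟨i, hi, k⟩ := mem_image.1 j.2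
      exact ⟨⟨i, hi⟩, Subtype.ext k⟩⟩
  have key : ∀ x : r.image e → ℤ, put r (x ∘ a) (y ∘ e) = put (r.image e) x y ∘ e := fun x => by
    funext i
    by_cases k : i ∈ r
    · rw [put_pos _ _ k]
      exact (put_coe x y (a ⟨i, k⟩)).symm
    · rw [put_neg _ _ k, Function.comp_apply, Function.comp_apply,
        put_neg _ _ fun b => k (h.inj.mem_finset_image.1 b)]
  refine (Ex_equiv a (fun i j => (h.gr i i.2 j j.2).symm) (fun x i => ?_) fun x => ?_).symm
  · change S.p _ i = S'.p _ (e i)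
    rw [h.ce _ i i.2, key]
    rfl
  · rw [key]

theorem Emb.fr (h : Emb S S' e r) (f : (ι → ℤ) → ℝ) (y : ι' → ℤ) :
    Fr S' (r.image e) (fun z => f (z ∘ e)) y = Fr S r f (y ∘ e) := by
  have := h.fb (fun z => f z) y
  rw [Fb_Fr, Fb_Fr] at this
  exact_mod_cast this

theorem Emb.fm (h : Emb S S' e r) (y : ι' → ℤ) : fm S' (r.image e) y = fm S r (y ∘ e) := by
  rw [← Fr_one, ← Fr_one]; exact h.fr (fun _ => 1) y

theorem Dp.comp {α β : Type*} {f : (ι → α) → β} (hf : Dp q f) {q' : Finset ι'}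
    (he : ∀ i ∈ q, e i ∈ q') : Dp q' fun z => f (z ∘ e) :=
  fun z z' hz => hf _ _ fun i hi => hz _ (he i hi)

theorem mix_comp {α : Type*} (he : e.Injective) (x y : ι' → α) :
    mix (r.image e) x y ∘ e = mix r (x ∘ e) (y ∘ e) := by
  funext i
  simp only [mix, Function.comp_apply, he.mem_finset_image]

variable {Θ Θ' : (ι → ℝ) → ℝ} {K K' : ℝ} {y : ι → ℝ}

theorem Emb.nl (h : Emb S S' e r) {y : ι' → ℝ} :
    NL S' (r.image e) (fun x => Θ (x ∘ e)) K y ↔ NL S r Θ K (y ∘ e) := by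
  have e1 : ∀ x, ln2 S' (r.image e) (mix (r.image e) x y) = ln2 S r (mix r (x ∘ e) (y ∘ e)) :=
    fun x => by rw [ln2_image h.inj h.gr h.ce, mix_comp h.inj]
  constructor
  · rintro ⟨k, hk⟩
    refine ⟨k ∘ e, fun x => ?_⟩
    have := hk (Function.extend e x 0)
    beta_reduce at this
    rwa [e1, mix_comp h.inj, sum_image h.inj.injOn, Function.extend_comp h.inj,
      sum_congr rfl fun i _ => by rw [h.inj.extend_apply]] at this
  · rintro ⟨k, hk⟩
    refine ⟨Function.extend e k 0, fun x => ?_⟩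
    beta_reduce
    rw [e1, mix_comp h.inj, sum_image h.inj.injOn,
      sum_congr rfl fun i _ => by rw [h.inj.extend_apply]]
    exact hk (x ∘ e)

theorem NL.mono (h : NL S r Θ K y) (hK : K ≤ K') : NL S r Θ K' y :=
  h.imp fun _ hk x => (hk x).trans (mul_le_mul_of_nonneg_right hK (Real.sqrt_nonneg _))

theorem NL.congr (h : NL S r Θ K y) (k : ∀ x, Θ (mix r x y) = Θ' (mix r x y)) : NL S r Θ' K y :=
  h.imp fun _ hk x => k x ▸ hk x

theorem NL.add (h : NL S r Θ K y) (h' : NL S r Θ' K' y) :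
    NL S r (fun x => Θ x + Θ' x) (K + K') y := by
  obtain ⟨k, hk⟩ := h
  obtain ⟨k', hk'⟩ := h'
  refine ⟨k + k', fun x => ?_⟩
  have := (abs_add_le _ _).trans (add_le_add (hk x) (hk' x))
  simp only [Pi.add_apply, Int.cast_add, add_mul, sum_add_distrib]
  refine le_of_eq_of_le (congrArg abs ?_) this
  ring

theorem NL.neg (h : NL S r Θ K y) : NL S r (fun x => -Θ x) K y := by
  obtain ⟨k, hk⟩ := h
  refine ⟨-k, fun x => ?_⟩
  simp only [Pi.neg_apply, Int.cast_neg, neg_mul, sum_neg_distrib]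
  rw [← abs_neg]
  convert hk x using 2
  ring

theorem NL.sub (h : NL S r Θ K y) (h' : NL S r Θ' K' y) :
    NL S r (fun x => Θ x - Θ' x) (K + K') y := by
  simpa only [sub_eq_add_neg] using h.add h'.neg

theorem nl_zero (hK : 0 ≤ K) : NL S r (fun _ => 0) K y :=
  ⟨0, fun x => by simpa using mul_nonneg hK (Real.sqrt_nonneg _)⟩

theorem NL.sum {κ : Type*} (t : Finset κ) {Θ : κ → (ι → ℝ) → ℝ} (h : ∀ k ∈ t, NL S r (Θ k) K y) :
    NL S r (fun x => ∑ k ∈ t, Θ k x) (t.card * K) y := by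
  classical
  induction t using Finset.induction_on with
  | empty => simpa using nl_zero le_rfl
  | insert a t ha ih =>
    simp only [sum_insert ha, card_insert_of_notMem ha, Nat.cast_add, Nat.cast_one, add_mul, one_mul]
    rw [add_comm _ K]
    exact (h a (mem_insert_self _ _)).add (ih fun k hk => h k (mem_insert_of_mem hk))

/-- passage to another fibre along a map that keeps the coordinates in `r ∩ r'` -/
theorem NL.move (h : NL S r Θ K y) (hK : 0 ≤ K) {S₂ : MS V ι} {r' : Finset ι} {y' : ι → ℝ}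
    (k1 : ∀ x, Θ (mix r (msk r' x) y) = Θ' (mix r' x y'))
    (k2 : ∀ x, ln2 S r (mix r (msk r' x) y) ≤ ln2 S₂ r' (mix r' x y')) : NL S₂ r' Θ' K y' := by
  obtain ⟨k, hk⟩ := h
  refine ⟨fun i => if i ∈ r then k i else 0, fun x => ?_⟩
  have := (hk (msk r' x)).trans (mul_le_mul_of_nonneg_left (Real.sqrt_le_sqrt (k2 x)) hK)
  rw [k1] at this
  refine le_of_eq_of_le (congrArg (fun u => |Θ' (mix r' x y') - u|) ?_) this
  simp only [msk, mul_ite, mul_zero, Int.cast_ite, Int.cast_zero, ite_mul, zero_mul, ← sum_filter,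
    filter_mem_eq_inter, inter_comm]

/-- independent fibres -/
theorem Ev_prod (h : Tr S) {κ : Type*} [DecidableEq κ] (t : Finset κ) (hq : Cl S q)
    {r : κ → Finset ι} (hr : ∀ k, Cl S (q ∪ r k)) (hd : ∀ k, Disjoint q (r k))
    (hp : ∀ k k', k ≠ k' → Disjoint (r k) (r k')) {f : κ → (ι → ℤ) → ℂ} (hf : ∀ k z, ‖f k z‖ ≤ 1)
    (df : ∀ k, Dp (q ∪ r k) (f k)) : Cl S (q ∪ t.biUnion r) ∧ ∀ (g : (ι → ℤ) → ℂ) (C : ℝ),
      (∀ z, ‖g z‖ ≤ C) → Dp q g → Ev S (q ∪ t.biUnion r) (fun z => g z * ∏ k ∈ t, f k z) =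
        Ev S q fun z => g z * ∏ k ∈ t, Fb S (r k) (f k) z := by
  induction t using Finset.induction_on with
  | empty => simpa using hq
  | insert a t ha ih =>
    have e : q ∪ (insert a t).biUnion r = q ∪ t.biUnion r ∪ r a := by
      rw [biUnion_insert, union_comm (r a), union_assoc]
    have d : Disjoint (q ∪ t.biUnion r) (r a) := disjoint_union_left.2
      ⟨hd a, (disjoint_biUnion_left _ _ _).2 fun k hk => hp k a fun b => ha (b ▸ hk)⟩
    refine ⟨?_, fun g C hg dg => ?_⟩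
    · rw [e, show q ∪ t.biUnion r ∪ r a = q ∪ t.biUnion r ∪ (q ∪ r a) by
        ext; simp only [mem_union]; tauto]
      exact ih.1.union (hr a)
    obtain ⟨B, hB⟩ := h.Fb_bdd (r a) (hf a)
    have hC : 0 ≤ C := (norm_nonneg _).trans (hg 0)
    have n1 : ∀ z, ‖∏ k ∈ t, f k z‖ ≤ 1 := fun z => by
      rw [norm_prod]; exact prod_le_one (fun _ _ => norm_nonneg _) fun k _ => hf k z
    have d1 : Dp (q ∪ t.biUnion r) fun z => g z * ∏ k ∈ t, f k z := fun z z' hz => by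
      beta_reduce
      rw [dg z z' fun i hi => hz i (mem_union_left _ hi), prod_congr rfl fun k hk => df k z z'
        fun i hi => hz i (union_subset_union_right (subset_biUnion_of_mem r hk) hi)]
    simp only [prod_insert ha, mul_comm (f a _), ← mul_assoc]
    rw [e, Ev_split h ih.1 (sat_of_union h.pd.1 hq.sat (hr a).sat (hd a)) d (C := C) fun z => by
        rw [norm_mul, norm_mul]
        exact (mul_le_of_le_one_right (by positivity) (hf a z)).trans
          ((mul_le_of_le_one_right (norm_nonneg _) (n1 z)).trans (hg z)),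
      funext (Fb_mul d (f a) d1), ← ih.2 (fun z => g z * Fb S (r a) (f a) z) (C * B) (fun z => by
        rw [norm_mul]; exact mul_le_mul (hg z) (hB z) (norm_nonneg _) hC)
        (dg.map₂ (dp_Fb (hr a) (df a)) (· * ·))]
    simp only [mul_right_comm]

end

end Vale.Agent.P057DP
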