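import Vale.Agent.P057DP.Flp
import Vale.Agent.P057NL.Nlb

/-!
Rules for forms; extraction of the relations from a bias on the joint star fibre.
-/

set_option linter.all false

open Matrix Finset Real
open Vale.Agent.P267.H775 Vale.Agent.P057G Vale.Agent.P057MA Vale.Agent.P057PC
open Vale.Agent.P057TP hiding ind
open Vale.Agent.P057GH Vale.Agent.P057RH
open Vale.Agent.P057EN (Cq cq_iff qq_blk_mono)

namespace Vale.Agent.P057DP

noncomputable section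

variable {C W X X₁ X₂ K S κ : Type} {T : Tow} {cl : W → C} {m s : ℕ} {N : ℝ}
  [Fintype W] [DecidableEq W] [Fintype X] [DecidableEq X] [Fintype X₁] [DecidableEq X₁]
  [Fintype X₂] [DecidableEq X₂] [Fintype K] [DecidableEq K] [Fintype S] {O : Ov W X}
  {O₁ : Ov W X₁} {O₂ : Ov W X₂} {P P' : X → Prop} {Θ Θ' : (LT T cl m O → ℝ) → ℝ}

theorem Fo.mono (h : Fo cl m O P Θ) (hP : ∀ x, P x → P' x) : Fo cl m O P' Θ :=
  ⟨h.dp.mono fun _ hl => mem_bs.2 fun x b => hP x (mem_bs.1 hl x b), h.lin⟩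

theorem Fo.add (h : Fo cl m O P Θ) (h' : Fo cl m O P Θ') : Fo cl m O P fun x => Θ x + Θ' x :=
  ⟨h.dp.map₂ h'.dp (· + ·), fun y =>
    ⟨fun u v => by rw [(h.lin y).map_add, (h'.lin y).map_add]; ring,
      fun c u => by rw [(h.lin y).map_smul, (h'.lin y).map_smul, smul_add]⟩⟩

theorem Fo.smul (h : Fo cl m O P Θ) (r : ℝ) : Fo cl m O P fun x => r * Θ x :=
  ⟨h.dp.map (r * ·), fun y => ⟨fun u v => by rw [(h.lin y).map_add, mul_add],
    fun c u => by rw [(h.lin y).map_smul, smul_eq_mul, smul_eq_mul, mul_left_comm]⟩⟩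

theorem Fo.sub (h : Fo cl m O P Θ) (h' : Fo cl m O P Θ') : Fo cl m O P fun x => Θ x - Θ' x := by
  simpa only [sub_eq_add_neg, neg_mul, one_mul] using h.add (h'.smul (-1))

theorem fo_zero : Fo cl m O P fun _ : LT T cl m O → ℝ => (0 : ℝ) :=
  ⟨fun _ _ _ => rfl, fun _ => ⟨by simp, by simp⟩⟩

theorem Fo.sum {ι : Type*} (t : Finset ι) {Θ : ι → (LT T cl m O → ℝ) → ℝ}
    (h : ∀ k ∈ t, Fo cl m O P (Θ k)) : Fo cl m O P fun x => ∑ k ∈ t, Θ k x := by
  classical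
  induction t using Finset.induction_on with
  | empty => simpa using fo_zero
  | insert a t ha ih =>
    simp only [sum_insert ha]
    exact (h a (mem_insert_self _ _)).add (ih fun k hk => h k (mem_insert_of_mem hk))

theorem inr_lt {K₂ S₂ : Type} [Fintype K₂] [DecidableEq K₂] {g : X₁ → X₂}
    {h : ∀ x, O₂.π (g x) = O₁.π x} {e e' : K₂} {l : LT T cl m O₁} :
    Sum.inr e' ∈ (lt h e l : LK T cl m O₂ K₂ S₂).fc ↔ Sum.inr () ∈ l.fc ∧ e = e' :=
  inr_lf.trans ⟨fun ⟨_, a⟩ => a, fun a => ⟨(), a⟩⟩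

theorem Fo.lt {g : X₁ → X₂} {h : ∀ x, O₂.π (g x) = O₁.π x} {P₁ : X₁ → Prop} {P₂ : X₂ → Prop}
    {Θ : (LT T cl m O₁ → ℝ) → ℝ} (k : Fo cl m O₁ P₁ Θ) (hP : ∀ x, P₁ x → P₂ (g x)) :
    Fo cl m O₂ P₂ fun x => Θ (x ∘ lt h ()) := by
  refine ⟨dp_lt hP k.dp, fun y => ?_⟩
  have e : ∀ x, mix (st T cl m O₂ fun _ => True) x y ∘ P057DP.lt h () =
      mix (st T cl m O₁ fun _ => True) (x ∘ P057DP.lt h ()) (y ∘ P057DP.lt h ()) := fun x =>
    funext fun l => if_congr (by simp only [mem_st, inr_lt, and_true, implies_true]) rfl rfl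
  simp only [e]
  exact ⟨fun u v => (k.lin _).map_add _ _, fun c u => (k.lin _).map_smul c _⟩

theorem Fo.al4 {DA DB : X → Prop} (h : Fo cl m O P Θ) :
    Fo cl m O.dbl (P2 P fun x => DA x ∨ DB x) (al4 DA DB Θ) := by
  have k : ∀ i j, Fo cl m O.dbl (P2 P fun x => DA x ∨ DB x)
      fun x => Θ (x ∘ P057DP.lt (g := cn DA DB i j) (fun _ => rfl) ()) := fun i j =>
    h.lt fun x hx => ⟨hx, by unfold cn; split_ifs <;> simp [*]⟩
  exact (((k _ _).sub (k _ _)).sub (k _ _)).add (k _ _)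

/-- the copy of the test system on the same vertices -/
abbrev li (O : Ov W X) (S : Type) (e : K) : LT T cl m O → LK T cl m O K S :=
  lt (O₁ := O) (O₂ := O) (g := id) (fun _ => rfl) e

theorem inl_li {e : K} {l : LT T cl m O} {x : X} :
    Sum.inl x ∈ (li O S e l).fc ↔ Sum.inl x ∈ l.fc := inl_lf.trans (by simp)

theorem bs_li {e : K} {l : LT T cl m O} : (li O S e l).bs = none := by rw [lf_bs, bs_lt]; rfl

theorem star_eq {l : LK T cl m O K S} {e e' : K} (h : Sum.inr e ∈ l.fc) (h' : Sum.inr e' ∈ l.fc) :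
    e = e' := Sum.inr_injective (l.2.2.1 h h' rfl)

theorem mem_li {e : K} {l : LK T cl m O K S} : l ∈ (st T cl m O P).image (li O S e) ↔
    l.bs = none ∧ Sum.inr e ∈ l.fc ∧ ∀ x, Sum.inl x ∈ l.fc → P x := by
  rw [mem_image]
  constructor
  · rintro ⟨l₁, a, rfl⟩
    exact ⟨bs_li, inr_lt.2 ⟨(mem_st.1 a).1, rfl⟩, fun x b => (mem_st.1 a).2 x (inl_li.1 b)⟩
  · rintro ⟨a, b, d⟩
    obtain ⟨l₁, rfl⟩ := lf_range (O₁ := O) (g := id) (k := fun _ : Unit => e)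
      (t := (Empty.elim : Empty → S)) (fun _ => rfl) Function.injective_id (fun _ _ _ => rfl)
      (l := l) (fun x _ => ⟨x, rfl⟩) (fun e' c => ⟨(), star_eq b c⟩)
      fun u c => by rw [a] at c; cases c
    exact ⟨l₁, mem_st.2 ⟨(inr_lt.1 b).1, fun x c => d x (inl_li.2 c)⟩, rfl⟩

variable {Z : Sys T W Unit} {a a' : Finset (X ⊕ K) → Option S → ℝ} {c : LK T cl m O K S → ℝ}

theorem p_ms (hT : T.Ok s N) (hZ : Z.Ok) {l : LK T cl m O K S} (hl : l.bs = none)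
    {x x' : LK T cl m O K S → ℝ} (hx : ∀ l' : LK T cl m O K S, l'.fc ⊆ l.fc → l'.bs = none →
      x l' = x' l') : (O.ms cl m Z K S a c).p x l = (O.ms cl m Z K S a c).p x' l :=
  congrArg (· + c l) (pr_congr hT (ok_pbo hZ _ _) fun l' b d _ => hx l' b (d.elim id (·.trans hl)))

/-- a bias on the joint star fibre gives one relation for every star vertex -/
theorem extract (hT : T.Ok s N) (hZ : Z.Ok) [Fintype κ] {r : Finset (LK T cl m O K S)} {e : κ → K}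
    (he : e.Injective) {Pk : κ → X → Prop} {Θ : κ → (LT T cl m O → ℝ) → ℝ}
    (hΘ : ∀ k, Fo cl m O (Pk k) (Θ k)) (hP : ∀ k x, Pk k x → P x)
    (hr : ∀ k, ∀ l ∈ st T cl m O (Pk k), li O S (e k) l ∈ r)
    (h1 : ∀ l ∈ r, l.bs = none ∧ (∃ e, Sum.inr e ∈ l.fc) ∧ ∀ x, Sum.inl x ∈ l.fc → P x)
    (h2 : ∀ l ∈ r, ∀ l' : LK T cl m O K S, l'.fc ⊆ l.fc → l'.bs = none →
      (∃ e, Sum.inr e ∈ l'.fc) → l' ∈ r) (ha : ∀ A o, 0 < a A o) (ha' : ∀ A o, 0 < a' A o)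
    {ω β : ℝ} (h3 : ∀ l ∈ r, 8 * a l.fc l.bs ≤ ω)
    (h4 : ∀ l : LK T cl m O K S, (∃ e, Sum.inr e ∈ l.fc) → a' l.fc l.bs = ω) (hβ : 0 < β)
    {y : LK T cl m O K S → ℤ} (hm : fm (O.ms cl m Z K S a' 0) r y ≤ 2)
    (hb : β ≤ ‖Fb (O.ms cl m Z K S a c) r (fun z => ee (∑ k, Θ k (toR z ∘ li O S (e k)))) y‖)
    (k : κ) : NR cl m Z O ω P (Θ k) √(log (2 / β)) (toR y ∘ li O S (e k)) := by
  classical
  have lo := lo_ms hT hZ ha' (0 : LK T cl m O K S → ℝ)
  have hl : ∀ u, LinAt (O.ms cl m Z K S a' 0) r u := lin_ms hT hZ (fun _ _ => rfl)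
    (fun l b => ⟨(h1 l b).1, (h1 l b).2.1⟩) fun l b l' d f => ⟨fun i => (h1 _ i).2.1, h2 l b l' d f⟩
  have key : ∀ k u, Θ k (mix r u (toR y) ∘ li O S (e k)) = Θ k (mix (st T cl m O fun _ => True)
      (u ∘ li O S (e k)) (toR y ∘ li O S (e k))) := fun k u => (hΘ k).dp _ _ fun l b => by
    refine if_congr ⟨fun d => ?_, fun d => hr k l (mem_st.2 ⟨(mem_st.1 d).1, mem_bs.1 b⟩)⟩ rfl rfl
    obtain ⟨e', f⟩ := (h1 _ d).2.1
    exact mem_st.2 ⟨(inr_lt.1 f).1, fun _ _ => trivial⟩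
  have nl := P057NL.bias _ _ (O.ms cl m Z K S a c) (O.ms cl m Z K S a' 0) r y c
    (fun x => ∑ k, Θ k (x ∘ li O S (e k))) β (lo_ms hT hZ ha c).pd lo.toTr
    (fun x i _ => by change _ + c i = _ + (0 : ℝ) + c i; rw [add_zero]) (hl _)
    (fun v => by
      rw [← qq_smul_mat]
      refine le_of_eq_of_le (congrArg (qq · v) ?_) (qq_blk_mono (a := fun A o => 8 * a A o)
        hT.pd v fun l _ => (h3 l l.2).trans_eq (h4 l (h1 l l.2).2.1).symm)
      ext i j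
      exact (mul_assoc _ _ _).symm) hm
    (by
      simp only [key]
      exact ⟨fun u v => by
          rw [← sum_add_distrib]; exact sum_congr rfl fun k _ => ((hΘ k).lin _).map_add _ _,
        fun c u => by rw [smul_sum]; exact sum_congr rfl fun k _ => ((hΘ k).lin _).map_smul c _⟩)
    hβ hb
  have em : Emb (tst cl m Z O (fun _ => 1) ω) (O.ms cl m Z K S a' 0) (li O S (e k))
      (st T cl m O P) :=
    emb_lf Function.injective_id (fun _ _ _ => rfl) (fun u : Empty => u.elim) (fun _ => rfl)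
      (fun l b => (h4 (li O S (e k) l) ⟨e k, inr_lt.2 ⟨(mem_st.1 b).1, rfl⟩⟩).trans
        (if_pos (mem_st.1 b).1).symm) fun _ _ => rfl
  refine em.nl.1 (nl.move (sqrt_nonneg _) (fun x => ?_) fun x => ?_)
  · rw [sum_eq_single k (fun k' _ hk => ?_) (by simp)]
    · refine (hΘ k).dp _ _ fun l b => ?_
      by_cases d : Sum.inr () ∈ l.fc
      · have f : li O S (e k) l ∈ (st T cl m O P).image (li O S (e k)) :=
          mem_image_of_mem _ (mem_st.2 ⟨d, fun x i => hP k x (mem_bs.1 b x i)⟩)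
        exact (mix_pos _ _ (hr k l (mem_st.2 ⟨d, mem_bs.1 b⟩))).trans
          ((msk_pos _ f).trans (mix_pos _ _ f).symm)
      · exact (mix_neg _ _ fun f => (h1 _ f).2.1.elim fun _ i => d (inr_lt.1 i).1).trans
          (mix_neg _ _ fun f => d (inr_lt.1 (mem_li.1 f).2.1).1).symm
    · rw [key, ← ((hΘ k').lin (toR y ∘ li O S (e k'))).map_zero]
      congr 2
      funext l
      exact msk_neg _ fun f => hk (he (inr_lt.1 (mem_li.1 f).2.1).2)
  · set r' := (st T cl m O P).image (li O S (e k))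
    have sat : Sat (O.ms cl m Z K S a' 0).G (r ∩ r') := fun i j hi hj => by_contra fun f => by
      obtain ⟨f1, f2⟩ := Gam_ne (right_ne_zero_of_mul f)
      obtain ⟨b, d⟩ := mem_inter.1 hi
      exact hj (mem_inter.2 ⟨h2 i b j f1.ge (f2 ▸ (h1 i b).1) (f1 ▸ (h1 i b).2.1),
        mem_li.2 (f1 ▸ f2 ▸ mem_li.1 d)⟩)
    refine le_of_eq_of_le (congrArg (qq _) (funext fun l => ?_))
      (qq_msk_le lo.pd sat inter_subset_right _)
    by_cases b : l ∈ r
    swap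
    · rw [msk_neg _ b, msk_neg _ fun f => b (mem_inter.1 f).1]
    by_cases d : l ∈ r'
    · rw [msk_pos _ b, msk_pos _ (mem_inter.2 ⟨b, d⟩), Pi.sub_apply, Pi.sub_apply, mix_pos _ _ b,
        mix_pos _ _ d, msk_pos _ d, p_ms hT hZ (h1 l b).1 fun l' f i => ?_]
      by_cases j : ∃ e, Sum.inr e ∈ l'.fc
      · have j' : l' ∈ r' := mem_li.2 ⟨i, star_eq (f j.choose_spec) (mem_li.1 d).2.1 ▸ j.choose_spec,
          fun x n => (h1 l b).2.2 x (f n)⟩
        rw [mix_pos _ _ (h2 l b l' f i j), mix_pos _ _ j', msk_pos _ j']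
      · rw [mix_neg _ _ fun n => j (h1 _ n).2.1, mix_neg _ _ fun n => j ⟨_, (mem_li.1 n).2.1⟩]
    · rw [msk_pos _ b, msk_neg _ fun f => d (mem_inter.1 f).2, Pi.sub_apply, mix_pos _ _ b,
        msk_neg _ d, zero_sub, neg_eq_zero, ← (hl (toR y) l b).map_zero]
      refine p_ms hT hZ (h1 l b).1 fun l' f i => ?_
      unfold mix
      rw [msk_neg _ fun n => d (mem_li.2 ⟨(h1 l b).1, f (mem_li.1 n).2.1, (h1 l b).2.2⟩)]
      rfl

end

end Vale.Agent.P057DP
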