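import Vale.Agent.P057DP.Er
import Vale.Agent.P057EN.Dbl
import Vale.Agent.P057MA.Lift

/-!
Maps of labels between systems of copies; densities and relations along embeddings.
-/

set_option linter.all false

open Matrix Finset
open Vale.Agent.P267.H775 Vale.Agent.P057G Vale.Agent.P057MA Vale.Agent.P057PC
open Vale.Agent.P057TP hiding ind
open Vale.Agent.P057GH
open Vale.Agent.P057T1 (ind ind_pos ind_neg ind_nonneg ind_le abs_ind ind_mono)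
open Vale.Agent.P057EN (Cq cq_iff)

namespace Vale.Agent.P057DP

noncomputable section

variable {C W X X₁ X₂ X₃ K K₁ K₂ K₃ S S₁ S₂ S₃ : Type} {T : Tow} {cl : W → C} {m s : ℕ} {N : ℝ}
  [Fintype X] [DecidableEq X] [Fintype X₁] [DecidableEq X₁] [Fintype X₂] [DecidableEq X₂]
  [Fintype X₃] [DecidableEq X₃] [Fintype K] [DecidableEq K] [Fintype K₁] [DecidableEq K₁]
  [Fintype K₂] [DecidableEq K₂] [Fintype K₃] [DecidableEq K₃]
  {O : Ov W X} {O₁ : Ov W X₁} {O₂ : Ov W X₂} {O₃ : Ov W X₃} {g g' : X₁ → X₂} {k k' : K₁ → K₂}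
  {t t' : S₁ → S₂} {h : ∀ x, O₂.π (g x) = O₁.π x} {l : LK T cl m O₁ K₁ S₁}

theorem lf_cd : (lf h k t l).cd = l.cd := rfl
theorem lf_fc : (lf h k t l).fc = l.fc.image (Sum.map g k) := rfl
theorem lf_bs : (lf h k t l).bs = l.bs.map t := rfl

theorem inl_lf {x : X₂} : Sum.inl x ∈ (lf h k t l).fc ↔ ∃ y, Sum.inl y ∈ l.fc ∧ g y = x := by
  simp [lf_fc]

theorem inr_lf {e : K₂} : Sum.inr e ∈ (lf h k t l).fc ↔ ∃ y, Sum.inr y ∈ l.fc ∧ k y = e := by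
  simp [lf_fc]

theorem kp_lf : Kp (lf h k t l).fc (lf h k t l).bs ↔ Kp l.fc l.bs := by
  simp only [Kp, inr_lf, lf_bs, Option.map_eq_none_iff, not_exists, not_and]
  exact and_congr Iff.rfl ⟨fun a e b => a _ e b rfl, fun a _ e b _ => a e b⟩

variable [Fintype S] [Fintype S₁] [Fintype S₂] [Fintype S₃]

theorem lf_congr {h' : ∀ x, O₂.π (g' x) = O₁.π x} (h1 : ∀ x, Sum.inl x ∈ l.fc → g x = g' x)
    (h2 : ∀ e, Sum.inr e ∈ l.fc → k e = k' e) (h3 : ∀ u, l.bs = some u → t u = t' u) :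
    lf h k t l = lf h' k' t' l := by
  refine lb_ext rfl (image_congr fun v hv => ?_) (Option.map_congr h3)
  cases v with
  | inl x => exact congrArg Sum.inl (h1 x hv)
  | inr e => exact congrArg Sum.inr (h2 e hv)

theorem lf_lf {g₂ : X₂ → X₃} (h₂ : ∀ x, O₃.π (g₂ x) = O₂.π x) (k₂ : K₂ → K₃) (t₂ : S₂ → S₃) :
    lf h₂ k₂ t₂ (lf h k t l) =
      lf (g := g₂ ∘ g) (fun x => (h₂ _).trans (h x)) (k₂ ∘ k) (t₂ ∘ t) l :=
  lb_ext rfl (by rw [lf_fc, lf_fc, lf_fc, image_image, Sum.map_comp_map])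
    (by rw [lf_bs, lf_bs, lf_bs, Option.map_map])

theorem lf_self {g : X → X} {h : ∀ x, O.π (g x) = O.π x} {k : K → K} {t : S → S}
    {l : LK T cl m O K S} (h1 : ∀ x, Sum.inl x ∈ l.fc → g x = x)
    (h2 : ∀ e, Sum.inr e ∈ l.fc → k e = e) (h3 : ∀ u, l.bs = some u → t u = u) :
    lf h k t l = l :=
  (lf_congr (g' := id) (h' := fun _ => rfl) (k' := id) (t' := id) h1 h2 h3).trans
    (lb_ext rfl (by rw [lf_fc, Sum.map_id_id, image_id]) (by rw [lf_bs, Option.map_id, id]))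

theorem cc_ov (O : Ov W X) (cl : W → C) (K : Type) : Cc (O.j K) (O.cl cl K) := by
  have key : ∀ v w, O.j K v = some w → O.cl cl K v = some (cl w) := by
    rintro (x | e) w a
    · simp only [Ov.j, Sum.elim_inl] at a
      split_ifs at a
      rw [← Option.some_injective _ a]; rfl
    · cases a
  exact fun v v' w a b => (key v w a).trans (key v' w b).symm

theorem sc_image (hg : g.Injective) (hk : k.Injective) {σ₁ : X₁ → ℝ} {σ₂ : X₂ → ℝ}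
    {A : Finset (X₁ ⊕ K₁)} (hσ : ∀ x, Sum.inl x ∈ A → σ₂ (g x) = σ₁ x) :
    sc σ₂ (A.image (Sum.map g k)) = sc σ₁ A := by
  rw [sc, prod_image (hg.sumMap hk).injOn]
  refine prod_congr rfl fun v hv => ?_
  cases v with
  | inl x => exact hσ x hv
  | inr e => rfl

theorem sc_pos {σ : X → ℝ} (hσ : ∀ x, 0 < σ x) (A : Finset (X ⊕ K)) : 0 < sc σ A :=
  prod_pos fun v _ => by cases v with
    | inl x => exact hσ x
    | inr e => exact one_pos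

theorem lf_inj (hg : g.Injective) (hk : k.Injective) (ht : t.Injective) :
    (lf h k t : LK T cl m O₁ K₁ S₁ → _).Injective := lift_inj _ (hg.sumMap hk) ht

theorem lf_range (h : ∀ x, O₂.π (g x) = O₁.π x) (hg : g.Injective) (hk : k.Injective)
    {l : LK T cl m O₂ K₂ S₂} (h1 : ∀ x, Sum.inl x ∈ l.fc → ∃ y, g y = x)
    (h2 : ∀ e, Sum.inr e ∈ l.fc → ∃ y, k y = e) (h3 : ∀ u, l.bs = some u → ∃ y, t y = u) :
    ∃ l₁, lf h k t l₁ = l := by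
  obtain ⟨o, ho⟩ : ∃ o : Option S₁, l.bs = o.map t := by
    cases e : l.bs with
    | none => exact ⟨none, rfl⟩
    | some u => obtain ⟨y, rfl⟩ := h3 u e; exact ⟨some y, rfl⟩
  refine mem_lift _ (hg.sumMap hk) (B := univ) (fun v hv => ?_) (Or.inr ho)
  cases v with
  | inl x => obtain ⟨y, rfl⟩ := h1 x hv; exact mem_image.2 ⟨Sum.inl y, mem_univ _, rfl⟩
  | inr e => obtain ⟨y, rfl⟩ := h2 e hv; exact mem_image.2 ⟨Sum.inr y, mem_univ _, rfl⟩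

theorem cq_image (hg : g.Injective) (hk : k.Injective) (ht : t.Injective)
    {q : Finset (LK T cl m O₁ K₁ S₁)} (hq : Cq q) : Cq (q.image (lf h k t)) := by
  intro l hl l' h1 h2
  obtain ⟨l₀, a, rfl⟩ := mem_image.1 hl
  obtain ⟨l₁, rfl⟩ := mem_lift (hc_map h k) (hg.sumMap hk) h1 h2
  refine mem_image_of_mem _ (hq _ a _ ((image_subset_image_iff (hg.sumMap hk)).1 h1) ?_)
  exact h2.imp Option.map_eq_none_iff.1 fun b => Option.map_injective ht b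

theorem mem_b0 {P : X → Prop} {l : LK T cl m O K S} :
    l ∈ b0 T cl m O K S P ↔ Kp l.fc l.bs ∧ ∀ x, Sum.inl x ∈ l.fc → P x := by
  simp only [b0, mem_filter, mem_univ, true_and]

theorem mem_st {P : X → Prop} {l : LT T cl m O} :
    l ∈ st T cl m O P ↔ Sum.inr () ∈ l.fc ∧ ∀ x, Sum.inl x ∈ l.fc → P x := by
  simp only [st, mem_filter, mem_univ, true_and]

theorem bs_lt (l : LT T cl m O) : l.bs = none := by
  cases e : l.bs with
  | none => rfl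
  | some u => exact u.elim

theorem mem_bs {P : X → Prop} {l : LT T cl m O} :
    l ∈ b0 T cl m O Unit Empty P ∪ st T cl m O P ↔ ∀ x, Sum.inl x ∈ l.fc → P x := by
  rw [mem_union, mem_b0, mem_st, ← or_and_right, and_iff_right]
  exact (em (Sum.inr () ∈ l.fc)).symm.imp_left fun a => ⟨bs_lt l, fun _ => a⟩

theorem cq_b0 (P : X → Prop) : Cq (b0 T cl m O K S P) := fun l hl l' h1 h2 => by
  rw [mem_b0] at hl ⊢
  exact ⟨⟨h2.elim id (·.trans hl.1.1), fun e a => hl.1.2 e (h1 a)⟩, fun x a => hl.2 x (h1 a)⟩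

theorem b0_mono {P P' : X → Prop} (hP : ∀ x, P x → P' x) :
    b0 T cl m O K S P ⊆ b0 T cl m O K S P' := fun _ a =>
  mem_b0.2 ⟨(mem_b0.1 a).1, fun x b => hP x ((mem_b0.1 a).2 x b)⟩

theorem lf_b0 {P₁ : X₁ → Prop} {P₂ : X₂ → Prop} (hP : ∀ x, P₁ x → P₂ (g x))
    (hl : l ∈ b0 T cl m O₁ K₁ S₁ P₁) : lf h k t l ∈ b0 T cl m O₂ K₂ S₂ P₂ :=
  mem_b0.2 ⟨kp_lf.2 (mem_b0.1 hl).1, fun x a => by
    obtain ⟨y, b, rfl⟩ := inl_lf.1 a
    exact hP y ((mem_b0.1 hl).2 y b)⟩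

theorem b0_image (hg : g.Injective) (hk : k.Injective) {P₁ : X₁ → Prop} {P₂ : X₂ → Prop}
    (hP : ∀ x, P₂ x ↔ ∃ y, P₁ y ∧ g y = x) :
    (b0 T cl m O₁ K₁ S₁ P₁).image (lf h k t) = b0 T cl m O₂ K₂ S₂ P₂ := by
  refine Subset.antisymm (image_subset_iff.2 fun l hl => lf_b0 (fun x a => (hP _).2 ⟨x, a, rfl⟩) hl)
    fun l hl => ?_
  obtain ⟨a, b⟩ := mem_b0.1 hl
  obtain ⟨l₁, rfl⟩ := lf_range (k := k) (t := t) h hg hk (l := l)
    (fun x c => ((hP x).1 (b x c)).imp fun _ => And.right) (fun e c => (a.2 e c).elim)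
    fun u c => by rw [a.1] at c; cases c
  refine mem_image_of_mem _ (mem_b0.2 ⟨kp_lf.1 a, fun x c => ?_⟩)
  obtain ⟨y, d, e⟩ := (hP _).1 (b _ (inl_lf.2 ⟨x, c, rfl⟩))
  exact hg e ▸ d

theorem st_image (hg : g.Injective) {P₁ : X₁ → Prop} {P₂ : X₂ → Prop}
    (hP : ∀ x, P₂ x ↔ ∃ y, P₁ y ∧ g y = x) :
    (st T cl m O₁ P₁).image (lt h ()) = st T cl m O₂ P₂ := by
  ext l
  rw [mem_image, mem_st]
  constructor
  · rintro ⟨l₁, a, rfl⟩
    refine ⟨inr_lf.2 ⟨(), (mem_st.1 a).1, rfl⟩, fun x c => ?_⟩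
    obtain ⟨y, b, rfl⟩ := inl_lf.1 c
    exact (hP _).2 ⟨y, (mem_st.1 a).2 y b, rfl⟩
  · rintro ⟨a, b⟩
    obtain ⟨l₁, rfl⟩ := lf_range (k := fun _ : Unit => ()) (t := (Empty.elim : Empty → Empty)) h hg
      (fun _ _ _ => rfl) (l := l) (fun x c => ((hP x).1 (b x c)).imp fun _ => And.right)
      (fun e _ => ⟨(), rfl⟩) fun u => u.elim
    refine ⟨l₁, mem_st.2 ⟨(inr_lf.1 a).choose_spec.1, fun x c => ?_⟩, rfl⟩
    obtain ⟨y, d, e⟩ := (hP _).1 (b _ (inl_lf.2 ⟨x, c, rfl⟩))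
    exact hg e ▸ d

theorem dp_lt {α β : Type*} {P₁ : X₁ → Prop} {P₂ : X₂ → Prop} (hP : ∀ x, P₁ x → P₂ (g x))
    {f : (LT T cl m O₁ → α) → β} (hf : Dp (b0 T cl m O₁ Unit Empty P₁ ∪ st T cl m O₁ P₁) f) :
    Dp (b0 T cl m O₂ Unit Empty P₂ ∪ st T cl m O₂ P₂) fun z => f (z ∘ lt h ()) :=
  hf.comp fun l hl => mem_bs.2 fun x a => by
    obtain ⟨y, b, rfl⟩ := inl_lf.1 a
    exact hP y (mem_bs.1 hl y b)

variable [Fintype W] [DecidableEq W] {Z : Sys T W Unit}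

theorem lo_ms (hT : T.Ok s N) (hZ : Z.Ok) {a : Finset (X ⊕ K) → Option S → ℝ}
    (ha : ∀ A o, 0 < a A o) (c : LK T cl m O K S → ℝ) : Lo (O.ms cl m Z K S a c) :=
  lo_cub hT (ok_pbo hZ _ _) ha

theorem dc_ms {a : Finset (X ⊕ K) → Option S → ℝ} {c : LK T cl m O K S → ℝ}
    {q : Finset (LK T cl m O K S)} (hq : Cq q) : Dc (O.ms cl m Z K S a c) q := cq_iff.2 hq

theorem emb_lf (hg : g.Injective) (hk : k.Injective) (ht : t.Injective)
    (hj : ∀ x, O₂.jk (g x) = O₁.jk x) {a₁ : Finset (X₁ ⊕ K₁) → Option S₁ → ℝ}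
    {a₂ : Finset (X₂ ⊕ K₂) → Option S₂ → ℝ} {c₁ : LK T cl m O₁ K₁ S₁ → ℝ}
    {c₂ : LK T cl m O₂ K₂ S₂ → ℝ} {q : Finset (LK T cl m O₁ K₁ S₁)}
    (ha : ∀ l ∈ q, a₂ (l.fc.image (Sum.map g k)) (l.bs.map t) = a₁ l.fc l.bs)
    (hc : ∀ l ∈ q, c₂ (lf h k t l) = c₁ l) :
    Emb (O₁.ms cl m Z K₁ S₁ a₁ c₁) (O₂.ms cl m Z K₂ S₂ a₂ c₂) (lf h k t) q := by
  refine ⟨lf_inj hg hk ht, fun i hi j _ => sG_lift _ (hg.sumMap hk) ht (ha i hi) j,
    fun z i hi => ?_⟩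
  change _ + c₂ _ = _ + c₁ i
  rw [hc i hi]
  congr 1
  refine pr_pbo _ (cc_ov _ _ _) (cc_ov _ _ _) (hg.sumMap hk) ht (fun v => ?_) z i
  cases v with
  | inl x => simp only [Ov.j, Sum.map_inl, Sum.elim_inl, hj, h]
  | inr e => rfl

theorem lo_tst (hT : T.Ok s N) (hZ : Z.Ok) {σ : X → ℝ} (hσ : ∀ x, 0 < σ x) {ω : ℝ} (hω : 0 < ω) :
    Lo (tst cl m Z O σ ω) :=
  lo_ms hT hZ (fun A _ => by split_ifs; exacts [hω, sc_pos hσ A]) _

theorem emb_tst (h : ∀ x, O₂.π (g x) = O₁.π x) (hg : g.Injective) (hj : ∀ x, O₂.jk (g x) = O₁.jk x)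
    {σ₁ : X₁ → ℝ} {σ₂ : X₂ → ℝ} {P : X₁ → Prop} (hσ : ∀ x, P x → σ₂ (g x) = σ₁ x) (ω : ℝ) :
    Emb (tst cl m Z O₁ σ₁ ω) (tst cl m Z O₂ σ₂ ω) (lt h ())
      (b0 T cl m O₁ Unit Empty P ∪ st T cl m O₁ P) :=
  emb_lf hg (fun _ _ _ => rfl) (fun u => u.elim) hj (fun l hl => by
    beta_reduce
    rw [sc_image hg (fun _ _ _ => rfl) fun x a => hσ x (mem_bs.1 hl x a)]
    exact if_congr ((inr_lf (h := h) (t := (Empty.elim : Empty → Empty))).trans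
      ⟨fun ⟨_, a, _⟩ => a, fun a => ⟨(), a, rfl⟩⟩) rfl rfl)
    fun _ _ => rfl

theorem dn_emb (h : ∀ x, O₂.π (g x) = O₁.π x) (hg : g.Injective) (hj : ∀ x, O₂.jk (g x) = O₁.jk x)
    {σ₁ : X₁ → ℝ} {σ₂ : X₂ → ℝ} {P₁ : X₁ → Prop} {P₂ : X₂ → Prop}
    (hσ : ∀ x, P₁ x → σ₂ (g x) = σ₁ x) (hP : ∀ x, P₂ x ↔ ∃ y, P₁ y ∧ g y = x)
    (E : (LT T cl m O₁ → ℤ) → Prop) :
    dn cl m Z O₂ σ₂ P₂ (fun z => E (z ∘ lt h ())) = dn cl m Z O₁ σ₁ P₁ E := by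
  unfold dn
  rw [← b0_image (h := h) (k := fun _ : Unit => ()) (t := (Empty.elim : Empty → Empty)) hg
    (fun _ _ _ => rfl) hP]
  exact ((emb_tst h hg hj hσ 1).mono subset_union_left).er fun z => ind (E z)

variable {ω κ κ' : ℝ} {P P' : X → Prop} {Θ Θ' : (LT T cl m O → ℝ) → ℝ} {y : LT T cl m O → ℝ}
  {σ : X → ℝ} {E E' : (LT T cl m O → ℤ) → Prop}

theorem nr_emb (h : ∀ x, O₂.π (g x) = O₁.π x) (hg : g.Injective) (hj : ∀ x, O₂.jk (g x) = O₁.jk x)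
    {P₁ : X₁ → Prop} {P₂ : X₂ → Prop} (hP : ∀ x, P₂ x ↔ ∃ y, P₁ y ∧ g y = x)
    {Θ : (LT T cl m O₁ → ℝ) → ℝ} {y : LT T cl m O₂ → ℝ} :
    NR cl m Z O₂ ω P₂ (fun x => Θ (x ∘ lt h ())) κ y ↔ NR cl m Z O₁ ω P₁ Θ κ (y ∘ lt h ()) := by
  unfold NR
  rw [← st_image (h := h) hg hP]
  exact ((emb_tst h hg hj (fun _ _ => rfl) ω).mono subset_union_right).nl

theorem sat_st (hT : T.Ok s N) (hZ : Z.Ok) (hσ : ∀ x, 0 < σ x) (hω : 0 < ω) (P : X → Prop) :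
    Sat (tst cl m Z O σ ω).G (st T cl m O P) := fun i j hi hj => by_contra fun e => by
  have := (Gam_ne (right_ne_zero_of_mul e)).1
  exact hj (mem_st.2 (this ▸ mem_st.1 hi))

/-- the centre of a label of the test system depends only on the labels on its face -/
theorem p_tst (hT : T.Ok s N) (hZ : Z.Ok) {l : LT T cl m O} {x x' : LT T cl m O → ℝ}
    (hx : ∀ l' : LT T cl m O, l'.fc ⊆ l.fc → x l' = x' l') :
    (tst cl m Z O σ ω).p x l = (tst cl m Z O σ ω).p x' l :=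
  congrArg (· + (0 : ℝ)) (pr_congr hT (ok_pbo hZ _ _) fun l' a _ _ => hx l' a)

theorem NR.up (hT : T.Ok s N) (hZ : Z.Ok) (hω : 0 < ω) (hκ : 0 ≤ κ) (hP : ∀ x, P x → P' x)
    (hΘ : Dp (b0 T cl m O Unit Empty P ∪ st T cl m O P) Θ) (h : NR cl m Z O ω P Θ κ y) :
    NR cl m Z O ω P' Θ κ y := by
  have hs : st T cl m O P ⊆ st T cl m O P' := fun _ a =>
    mem_st.2 ⟨(mem_st.1 a).1, fun x b => hP x ((mem_st.1 a).2 x b)⟩
  have key : ∀ x, ∀ l : LT T cl m O, (∀ v, Sum.inl v ∈ l.fc → P v) →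
      mix (st T cl m O P) (msk (st T cl m O P') x) y l = mix (st T cl m O P') x y l :=
    fun x l hl => by
      by_cases a : Sum.inr () ∈ l.fc
      · rw [mix_pos _ _ (mem_st.2 ⟨a, hl⟩), mix_pos _ _ (hs (mem_st.2 ⟨a, hl⟩)),
          msk_pos _ (hs (mem_st.2 ⟨a, hl⟩))]
      · rw [mix_neg _ _ fun b => a (mem_st.1 b).1, mix_neg _ _ fun b => a (mem_st.1 b).1]
  refine NL.move h hκ (fun x => hΘ _ _ fun l hl => key x l (mem_bs.1 hl)) fun x => ?_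
  refine le_of_eq_of_le (congrArg (qq _) (msk_congr fun l hl => ?_))
    (qq_msk_le (lo_tst hT hZ (fun _ => one_pos) hω).pd (sat_st hT hZ (fun _ => one_pos) hω P) hs _)
  rw [Pi.sub_apply, Pi.sub_apply, key x l (mem_st.1 hl).2,
    p_tst hT hZ fun l' a => key x l' fun v b => (mem_st.1 hl).2 v (a b)]

/-- the relation depends only on the labels on the vertices in `P` -/
theorem NR.dp (hT : T.Ok s N) (hZ : Z.Ok)
    (hΘ : Dp (b0 T cl m O Unit Empty P ∪ st T cl m O P) Θ) :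
    Dp (b0 T cl m O Unit Empty P) (NR cl m Z O ω P Θ κ) := by
  intro y y' hy
  have key : ∀ x, ∀ l : LT T cl m O, (∀ v, Sum.inl v ∈ l.fc → P v) →
      mix (st T cl m O P) x y l = mix (st T cl m O P) x y' l := fun x l hl => by
    by_cases a : Sum.inr () ∈ l.fc
    · rw [mix_pos _ _ (mem_st.2 ⟨a, hl⟩), mix_pos _ _ (mem_st.2 ⟨a, hl⟩)]
    · rw [mix_neg _ _ fun b => a (mem_st.1 b).1, mix_neg _ _ fun b => a (mem_st.1 b).1]
      exact hy l (mem_b0.2 ⟨⟨bs_lt l, fun _ => a⟩, hl⟩)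
  unfold NR NL
  congr! 6 with k x
  · exact hΘ _ _ fun l hl => key x l (mem_bs.1 hl)
  · refine congrArg (qq _) (msk_congr fun l hl => ?_)
    rw [Pi.sub_apply, Pi.sub_apply, key x l (mem_st.1 hl).2,
      p_tst hT hZ fun l' a => key x l' fun v b => (mem_st.1 hl).2 v (a b)]

theorem dn_nonneg : 0 ≤ dn cl m Z O σ P E := Er_nonneg fun _ => ind_nonneg _

theorem dn_mono (hT : T.Ok s N) (hZ : Z.Ok) (hσ : ∀ x, 0 < σ x) (h : ∀ z, E z → E' z) :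
    dn cl m Z O σ P E ≤ dn cl m Z O σ P E' :=
  (lo_tst hT hZ hσ one_pos).Er_le (bd_ind _) (bd_ind _) fun z _ => ind_mono (h z)

theorem dn_and (hT : T.Ok s N) (hZ : Z.Ok) (hσ : ∀ x, 0 < σ x) (E E' : _ → Prop) :
    dn cl m Z O σ P E ≤ dn cl m Z O σ P (fun z => E z ∧ E' z) +
      dn cl m Z O σ P fun z => E z ∧ ¬ E' z := by
  unfold dn
  rw [← (lo_tst hT hZ hσ one_pos).Er_add (bd_ind _) (bd_ind _)]
  refine (lo_tst hT hZ hσ one_pos).Er_le (bd_ind _) ((bd_ind _).add (bd_ind _)) fun z _ => ?_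
  by_cases a : E z <;> by_cases b : E' z <;> simp [ind, a, b]

end

end Vale.Agent.P057DP
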