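import Vale.Agent.P057DP.Sd
import Vale.Agent.P057SG.Plan

/-!
The blocks of the energy step as statements.
-/

set_option linter.all false

open Matrix Finset Real
open Vale.Agent.P267.H775 Vale.Agent.P057G Vale.Agent.P057MA Vale.Agent.P057PC
open Vale.Agent.P057TP Vale.Agent.P057GH Vale.Agent.P057SG
open Vale.Agent.P057T1 (ind pr a4)
open Vale.Agent.P057SY (fo)
open Vale.Agent.P057IV (OnP den Nr jt b4 rel)

namespace Vale.Agent.P057DP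

noncomputable section

/-- bias on a fine linear fibre gives a near integer form -/
def BIAS : Prop :=
  ∀ (V ι : Type) [Fintype ι] [DecidableEq ι] (S S' : MS V ι) (r : Finset ι) (y : ι → ℤ) (c : ι → ℝ)
    (Θ : (ι → ℝ) → ℝ) (δ : ℝ), S.G.PosDef → Tr S' →
    (∀ x, ∀ i ∈ r, S.p (mix r x (toR y)) i = S'.p (mix r x (toR y)) i + c i) →
    LinAt S' r (toR y) → (∀ v, 8 * qq (blk S.G r) v ≤ qq (blk S'.G r) v) → P057DP.fm S' r y ≤ 2 →
    (IsLinearMap ℝ fun x => Θ (mix r x (toR y))) → 0 < δ →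
    δ ≤ ‖Fb S r (fun z => ee (Θ (toR z))) y‖ → NL S' r Θ √(log (2 / δ)) (toR y)

/-- two witnesses -/
def TWO : Prop :=
  ∀ (V ι : Type) [Fintype ι] [DecidableEq ι] (S S' : MS V ι) (r0 r1 r2 : Finset ι) (y : ι → ℤ)
    (Θ : (ι → ℝ) → ℝ) (K : ℝ), Tr S → Tr S' → S'.p = S.p → Disjoint r0 r1 → Disjoint r0 r2 →
    Disjoint r1 r2 → Sat S.G r0 → Sat S.G r1 → Sat S.G r2 →
    (∀ i ∈ r0 ∪ r1, ∀ z z', (∀ j ∉ r2, z j = z' j) → S.p z i = S.p z' i) →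
    (∀ i ∈ r0 ∪ r2, ∀ z z', (∀ j ∉ r1, z j = z' j) → S.p z i = S.p z' i) →
    (∀ z z', (∀ j ∉ r1 ∪ r2, z j = z' j) → Θ z = Θ z') → LinAt S (r0 ∪ r1 ∪ r2) (toR y) → 0 ≤ K →
    (∀ v, 36 * K ^ 2 * qq (blk S.G (r0 ∪ r1 ∪ r2)) v ≤ qq (blk S'.G (r0 ∪ r1 ∪ r2)) v) →
    P057DP.fm S' (r0 ∪ r1 ∪ r2) y ≤ 2 → NL S (r0 ∪ r1) Θ K (toR y) → NL S (r0 ∪ r2) Θ K (toR y) →
    NL S r0 Θ K (toR y)

/-- substitutions commute with the centres -/
def SUBP : Prop :=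
  ∀ (T : Tow) (C W W₁ W₂ : Type) [Fintype W] [DecidableEq W] [Fintype W₁] [DecidableEq W₁]
    [Fintype W₂] [DecidableEq W₂] (Z : Sys T W Unit) (m : ℕ) (cl₁ : W₁ → C) (cl₂ : W₂ → C)
    (j₁ : W₁ → Option W) (j₂ : W₂ → Option W) (M : W₂ → W₁ → ℤ) (P : W₁ → Prop), Z.Ok →
    Cm cl₂ cl₁ M → Jm j₂ j₁ M P → ∀ (x : Lb T cl₂ Empty m → ℝ) (k : Lb T cl₁ Empty m),
    (∀ v ∈ k.fc, P v) →
    (pbo Z j₁ Empty).pr cl₁ m (sub M x) k = sub M ((pbo Z j₂ Empty).pr cl₂ m x) k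

/-- composition of substitutions; embeddings are substitutions -/
def SUBC : Prop :=
  ∀ (T : Tow) (C W₁ W₂ : Type) [Fintype W₁] [DecidableEq W₁] [Fintype W₂] [DecidableEq W₂] (m : ℕ)
    (cl₁ : W₁ → C) (cl₂ : W₂ → C) (R : Type) [CommRing R],
    (∀ (W₃ : Type) [Fintype W₃] [DecidableEq W₃] (cl₃ : W₃ → C) (M : W₂ → W₁ → ℤ)
      (M' : W₃ → W₂ → ℤ), Cm cl₂ cl₁ M → Cm cl₃ cl₂ M' → ∀ z : Lb T cl₃ Empty m → R,
      (sub M (sub M' z : Lb T cl₂ Empty m → R) : Lb T cl₁ Empty m → R) =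
        sub (fun y v => ∑ x, M' y x * M x v) z) ∧
    ∀ (g : W₁ → W₂) (hc : ∀ w w', cl₂ (g w) = cl₂ (g w') ↔ cl₁ w = cl₁ w'), g.Injective →
      ∀ z : Lb T cl₂ Empty m → R,
        z ∘ P057GH.lift hc Empty.elim = sub (fun x v => if g v = x then 1 else 0) z

/-- substitutions transport relations, forms and events -/
def NRS : Prop :=
  ∀ (T : Tow) (s : ℕ) (N : ℝ) (C W X₁ X₂ : Type) [Fintype W] [DecidableEq W] [Fintype X₁]
    [DecidableEq X₁] [Fintype X₂] [DecidableEq X₂] (Z : Sys T W Unit) (cl : W → C) (m : ℕ)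
    (O₁ : Ov W X₁) (O₂ : Ov W X₂) (M : X₂ → X₁ → ℤ) (P₁ : X₁ → Prop) (P₂ : X₂ → Prop), T.Ok s N →
    Z.Ok → Sm cl O₂ O₁ M P₂ P₁ →
    (∀ (α : Type) (E : (LT T cl m O₁ → ℤ) → α), Dp (b0 T cl m O₁ Unit Empty P₁) E →
      Dp (b0 T cl m O₂ Unit Empty P₂) fun z => E (sub (ex M) z)) ∧
    ∀ Θ, Fo cl m O₁ P₁ Θ → Fo cl m O₂ P₂ (fun x => Θ (sub (ex M) x)) ∧ ∀ ω K y, 0 < ω → 0 ≤ K →
      NR cl m Z O₁ ω P₁ Θ K (sub (ex M) y) → NR cl m Z O₂ ω P₂ (fun x => Θ (sub (ex M) x))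
        (2 ^ (Fintype.card X₁ + Fintype.card X₂) * K) y

/-- a shear by narrower vertices almost preserves densities -/
def SHR : Prop :=
  ∀ (T : Tow) (s : ℕ) (N : ℝ) (C W X : Type) [Fintype W] [DecidableEq W] [Fintype X]
    [DecidableEq X] (Z : Sys T W Unit) (cl : W → C) (m : ℕ) (O : Ov W X) (M M' : X → X → ℤ)
    (P : X → Prop) (σ : X → ℝ) (n : ℕ) (L η δ : ℝ) (E : (LT T cl m O → ℤ) → Prop), T.Ok s N →
    Z.Ok → Sm cl O O M P P → Sm cl O O M' P P → (∀ x v, M x v ≠ 0 → P x → P v) →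
    (∀ x v, M' x v ≠ 0 → P x → P v) → (∀ x v, ∑ y, M x y * M' y v = if x = v then 1 else 0) →
    (∀ x v, ∑ y, M' x y * M y v = if x = v then 1 else 0) → (∀ x, 1 ≤ σ x) → 0 ≤ δ →
    2 ^ Fintype.card X * δ ≤ 1 → (∀ x v, M x v ≠ 0 → x = v ∨ σ v ≤ δ ^ 2 * σ x) →
    Al cl m Z n L η → η ≤ 1 → Fintype.card X + 1 ≤ n →
    (∀ l : LT T cl m O, 4 * sc σ l.fc ≤ L) →
    dn cl m Z O σ P E ≤ dn cl m Z O σ P (fun z => E (sub (ex M) z)) +
      (2 * η + 3 * 2 ^ Fintype.card X * δ * Fintype.card (LT T cl m O))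

section dict

variable {T : Tow} {C U : Type} [Fintype U] [DecidableEq U] {cl : U → C} {m : ℕ}

open Classical in
/-- labels of the test system as labels with a special vertex -/
def dc (y : LT T cl m (Ov.one U) → ℝ) (l : Lb T cl Unit m) : ℝ :=
  ∑ k, if k.cd = l.cd ∧ k.fc.image (Sum.elim some fun _ => none) = fo l ∧ l.Pure then y k else 0

/-- the labels of the vertices in a star system -/
def kw {K : Type} [Fintype K] [DecidableEq K] (z : LK T cl m (Ov.one U) K Unit → ℤ)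
    (l : PW T cl m) : ℤ :=
  z (P057GH.lift (j := Sum.inl) (cl := (Ov.one U).cl cl K) (fun _ _ => Option.some_inj) id l.1)

variable {n p : ℕ} {R : Type} [Fintype R] [DecidableEq R]

/-- live parts and frozen vertices -/
def O0 (n p : ℕ) (R : Type) : Ov (Uv n p R) (Wv n p ⊕ Uv n p R) :=
  ⟨Sum.elim Sum.inl id, Sum.elim (fun _ => false) fun _ => true⟩

/-- four copies of the live parts and the frozen vertices -/
def O4 (n p : ℕ) (R : Type) : Ov (Uv n p R) ((Wv n p × Fin 4) ⊕ Uv n p R) :=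
  ⟨Sum.elim (fun v => Sum.inl v.1) id, Sum.elim (fun _ => false) fun _ => true⟩

theorem hc_rl (w w' : Vt n p R) : (O0 n p R).cl cU Unit (w.elim (Sum.inr ()) Sum.inl) =
    (O0 n p R).cl cU Unit (w'.elim (Sum.inr ()) Sum.inl) ↔ cV w = cV w' := by
  rcases w with _ | w | w <;> rcases w' with _ | w' | w' <;> simp [Ov.cl, O0, cV, cU]

/-- labels of the root system as labels of the test system -/
def rl : Lr T n p R → LT T cU (n + 2) (O0 n p R) := P057GH.lift hc_rl id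

/-- the old labels as functions of the labels of the test system -/
def rm (x : LT T cU (n + 2) (O0 n p R) → ℝ) : Lb T (cU : Uv n p R → _) Unit (n + 2) → ℝ :=
  dc (sub (ex (pm (fun _ => True) (O0 n p R).π)) x)

/-- an event on the root systems as an event on the test system -/
def ev (U : (Fz T n p R → ℤ) → (Lv T n p R → ℝ) → Prop) (z : LT T cU (n + 2) (O0 n p R) → ℤ) :
    Prop := U (fun l => z (rl l.1)) fun l => z (rl l.1)

/-- the vertices of the joint system -/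
def P4 (b : Fin n) : (Wv n p × Fin 4) ⊕ Uv n p R → Prop :=
  Sum.elim (fun v => v.1.1 = b ∨ v.2 = 0) fun _ => True

/-- the scales of the joint system -/
def s4 (b : Fin n) (lam μ : ℝ) : (Wv n p × Fin 4) ⊕ Uv n p R → ℝ :=
  Sum.elim (fun v => if v.1.1 = b ∧ 2 ≤ v.2 then lam * μ else lam) fun _ => 1

/-- the point with the copies `c, c'` of the class `b` -/
def M4 (b : Fin n) (c c' : Fin 4) : (Wv n p × Fin 4) ⊕ Uv n p R → Wv n p ⊕ Uv n p R → ℤ :=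
  pm (Sum.elim (fun v => if v.1.1 = b then v.2 = c ∨ v.2 = c' else v.2 = 0) fun _ => True)
    (Sum.map Prod.fst id)

end dict

/-- the dictionary between the test systems and the root systems -/
def CONV : Prop :=
  ∀ (s : ℕ) (N : ℝ) (T : Tow) (n p : ℕ) (R : Type) [Fintype R] [DecidableEq R]
    (Z : Sys T (Uv n p R) Unit), T.Ok s N → Z.Ok →
    (∀ Φ : (Pg T n p R → ℤ) → ℝ, Er (tst cU (n + 2) Z (Ov.one _) (fun _ => 1) 1)
      (b0 T cU (n + 2) (Ov.one _) Unit Empty fun _ => True) (fun z => Φ (rp (dc (toR z)))) =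
        ∑' w, wP Z w * Φ w) ∧
    (∀ ψ : (Pg T n p R → ℤ) → Lg T n p R → ℝ,
      Fo cU (n + 2) (Ov.one _) (fun _ => True) fun x => P057SG.fm ψ (dc x)) ∧
    (∀ (α : Type) (Q : (Pg T n p R → ℤ) → α),
      Dp (b0 T cU (n + 2) (Ov.one (Uv n p R)) Unit Empty fun _ => True)
        fun z => Q (rp (dc (toR z)))) ∧
    (∀ (K : Type) [Fintype K] [DecidableEq K] (e : K)
      (z : LK T cU (n + 2) (Ov.one (Uv n p R)) K Unit → ℤ),
      rp (dc (toR (z ∘ lt (g := id) (fun _ => rfl) e))) = kw z) ∧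
    (∀ z : LT T cU (n + 2) (O0 n p R) → ℤ,
      rmap (fun l => z (rl l.1)) (fun l => z (rl l.1)) = rm (toR z)) ∧
    ∀ (lam γ : ℝ) (U : (Fz T n p R → ℤ) → (Lv T n p R → ℝ) → Prop), 1 ≤ lam → 1 ≤ γ →
      (∀ D, OnP (fce (root Z lam γ D) (BB n)) (U D)) →
      Dp (b0 T cU (n + 2) (O0 n p R) Unit Empty fun _ => True) (ev U) ∧
      ∑' D, wD Z D * den (root Z lam γ D) (BB n) (U D) ≤ dn cU (n + 2) Z (O0 n p R)
        (Sum.elim (fun _ => lam) fun _ => 1) (fun _ => True) (ev U) ∧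
      ∀ (b : Fin n) (μ K : ℝ) (κ : Type)
        (Θ : κ → (Lb T (cU : Uv n p R → _) Unit (n + 2) → ℝ) → ℝ), 1 ≤ μ → 0 ≤ K →
        dn cU (n + 2) Z (O4 n p R) (s4 b lam μ) (P4 b) (fun z => ev U (sub (ex (M4 b 0 2)) z) ∧
          ∀ r, NR cU (n + 2) Z (O4 n p R) γ (P4 b) (fun x => Θ r (rm (sub (ex (M4 b 0 2)) x)) -
            Θ r (rm (sub (ex (M4 b 0 3)) x)) - Θ r (rm (sub (ex (M4 b 1 2)) x)) +
            Θ r (rm (sub (ex (M4 b 1 3)) x))) K (toR z)) ≤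
        ∑' D, wD Z D * den (jt (root Z lam γ D) (some b) μ) (b4 (BB n) (some b)) fun W =>
          U D (pr (root Z lam γ D) (some b) 0 2 W) ∧ ∀ r,
            Nr (jt (root Z lam γ D) (some b) μ) (a4 {none}) (b4 (BB n) (some b))
              (rel (root Z lam γ D) (some b) fun _ x => Θ r (rmap D x)) K W

/-- the correlations as one expectation on the star system -/
def SIN (s : ℕ) : Prop :=
  ∃ c : ℕ, 1 ≤ c ∧ ∀ (N : ℝ) (P : ℕ → ℝ) (T : Tow) (n p : ℕ) (R : Type) [Fintype R] [DecidableEq R]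
    (Z : Sys T (Uv n p R) Unit) (f : ℤ → ℝ) (θ A γ X Y : ℝ) (κ : Type) [Fintype κ] [DecidableEq κ]
    (ψ : κ → (Pg T n p R → ℤ) → Lg T n p R → ℝ)
    (F : κ → (Lb T (cU : Uv n p R → _) Unit (n + 2) → ℤ) → ℝ)
    (Ω : (Pg T n p R → ℤ) → (Lg T n p R → ℤ) → Prop), Ctx s N c P T n p R Z f θ A →
    P (n + 2) ≤ X → X ≤ Y → Y ≤ A → exp (Y ^ c) ≤ γ → γ ≤ exp A → (Fintype.card κ : ℝ) ≤ X →
    (∀ a, F a = PG Z f ∨ F a = fun _ => 1) → Base Z γ X Ω →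
    (∀ w z, Ω w z → ∀ a, exp (-X) ≤ ‖cor Z (F a) γ w z (ψ a w)‖) →
    ∃ g : κ → Finset (Uv n p R) → (T.ι → ℤ) → ℝ, (∀ a A x, |g a A x| ≤ 1) ∧
      ∀ (y : ℝ) (Φ : (Pg T n p R → ℤ) → ℝ), X ≤ y → y ≤ Y → (∀ w, 0 ≤ Φ w ∧ Φ w ≤ 1) →
        (∀ w, Φ w ≠ 0 → exp (-(2 * X)) ≤ ∑' z, wL Z w z * ind (Ω w z)) →
        exp (-y) ≤ ∑' w, wP Z w * Φ w →
        ∃ a cc, (∀ A o, Kp A o → a A o = 1) ∧ (∀ l, Kp l.fc l.bs → cc l = 0) ∧
          (∀ A o, 0 < a A o ∧ a A o ≤ exp (X ^ c) * γ) ∧ exp (-(y + X ^ c)) ≤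
          ‖Ev ((Ov.one _).ms cU (n + 2) Z (κ × Bool) Unit a cc) univ fun z => Φ (kw z) *
            Fs ((cells (Prod.fst : Wv n p → Fin n)).image (image Sum.inl)) g
              (fun a x => P057SG.fm (ψ a) (dc x)) (ι := id) (fun _ => rfl) id () z‖

end

end Vale.Agent.P057DP
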