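import Vale.Agent.P057DP.Lf
import Vale.Agent.P057DP.Plan

/-!
The blocks of the core of the energy step as statements.
-/

set_option linter.all false

open Matrix Finset Real
open Vale.Agent.P267.H775 Vale.Agent.P057G Vale.Agent.P057MA Vale.Agent.P057PC
open Vale.Agent.P057TP hiding ind
open Vale.Agent.P057GH Vale.Agent.P057SG
open Vale.Agent.P057T1 (ind)
open Vale.Agent.P057EN (Cq)
open Vale.Agent.P057IV (OnP den)

namespace Vale.Agent.P057DP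

noncomputable section

variable {C W X K S E κ : Type}

/-- regularity for systems with at most `n` vertices and scalars at most `L` -/
structure Env (s : ℕ) (N : ℝ) {T : Tow} (m : ℕ) (Z : Sys T W Unit) (n : ℕ) (L η : ℝ) : Prop where
  ok : T.Ok s N
  zok : Z.Ok
  lf : ∃ d Λ, m ≤ d + 1 ∧ T.tw.LF d n Λ η ∧ (4 * n + 4) * L ≤ Λ
  L4 : 4 ≤ L
  η0 : 0 ≤ η
  η1 : η ≤ 1

/-- the same in asymptotic form: complexity `y`, logarithms of the scales at most `A` -/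
structure En (s : ℕ) (N : ℝ) (c : ℕ) {T : Tow} (m : ℕ) [Fintype W] (Z : Sys T W Unit) (y A : ℝ) :
    Prop where
  ok : T.Ok s N
  zok : Z.Ok
  cy : (c : ℝ) ≤ y
  yA : y ≤ A
  dm : ∀ e, T.dm e ≤ exp y
  cW : (Fintype.card W : ℝ) ≤ y
  lf : ∃ d, m ≤ d + 1 ∧ T.LFd d (A ^ c) (A ^ c)

/-- bounded scales -/
def Sb (s : ℕ) (L : ℝ) (σ : X → ℝ) : Prop := ∀ x, 1 ≤ σ x ∧ 4 * σ x ^ s ≤ L

open Classical in
/-- the copy `i` of the vertices in `D` -/
def cp (D : X → Prop) (i : Bool) (x : X) : X × Bool := (x, if D x then i else false)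

open Classical in
/-- the corner `(i, j)` of a rectangle -/
def cn (DA DB : X → Prop) (i j : Bool) (x : X) : X × Bool :=
  (x, if DA x then i else if DB x then j else false)

/-- the vertices in `P`, with two copies of the vertices in `D` -/
def P2 (P D : X → Prop) (x : X × Bool) : Prop := P x.1 ∧ (x.2 = false ∨ D x.1)

/-- the vertices with junk free extra vertices -/
def px (πE : E → W) : Ov W (E ⊕ W) := ⟨Sum.elim πE id, Sum.elim (fun _ => false) fun _ => true⟩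

/-- the vertices of a chain: `inl 0` original, `inl 1` root, `inl 2` shift, `inr l` private -/
def Oc (πE : E → W) : Ov W (E ⊕ W × (Fin 3 ⊕ W)) :=
  ⟨Sum.elim πE Prod.fst, Sum.elim (fun _ => false) fun x => x.2.elim (fun i => i ≠ 2) fun _ => true⟩

/-- the scales of a chain -/
def σc (σE : E → ℝ) (ν : ℝ) : E ⊕ W × (Fin 3 ⊕ W) → ℝ :=
  Sum.elim σE fun x => x.2.elim (fun i => if i = 2 then ν else 1) fun _ => 1

/-- the vertices used by a chain in the class `b` -/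
def Pc (cl : W → C) (b : C) : E ⊕ W × (Fin 3 ⊕ W) → Prop :=
  Sum.elim (fun _ => True) fun x => x.2.elim (fun i => i = 0 ∨ (i = 1 ∧ cl x.1 = b))
    fun l => cl x.1 = b ∧ cl l = b ∧ x.1 ≠ l

/-- the original vertices of the class `b` -/
def Da (cl : W → C) (b : C) : E ⊕ W × (Fin 3 ⊕ W) → Prop :=
  Sum.elim (fun _ => False) fun x => x.2 = Sum.inl 0 ∧ cl x.1 = b

/-- the original point -/
def og : E ⊕ W → E ⊕ W × (Fin 3 ⊕ W) := Sum.map id fun v => (v, Sum.inl 0)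

open Classical in
/-- the leaf `l` -/
def lw (cl : W → C) (b : C) (l : W) : E ⊕ W → E ⊕ W × (Fin 3 ⊕ W) :=
  Sum.map id fun v => (v, if cl v = b ∧ v ≠ l then Sum.inr l else Sum.inl 0)

theorem h_og (πE : E → W) (x : E ⊕ W) : (Oc πE).π (og x) = (px πE).π x := by cases x <;> rfl

theorem h_lw (πE : E → W) (cl : W → C) (b : C) (l : W) (x : E ⊕ W) :
    (Oc πE).π (lw cl b l x) = (px πE).π x := by cases x <;> rfl

/-- the vertices of a parallelogram: `0, 1` points, `2, 3` shifts -/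
def Op (πE : E → W) : Ov W (E ⊕ W × Fin 4) :=
  ⟨Sum.elim πE Prod.fst, Sum.elim (fun _ => false) fun x => x.2 < 2⟩

/-- the scales of a parallelogram -/
def σp (σE : E → ℝ) (ν : ℝ) : E ⊕ W × Fin 4 → ℝ := Sum.elim σE fun x => if x.2 < 2 then 1 else ν

/-- the vertices used by a parallelogram in the class `b` -/
def Pp (cl : W → C) (b : C) : E ⊕ W × Fin 4 → Prop :=
  Sum.elim (fun _ => True) fun x => x.2 = 0 ∨ cl x.1 = b

open Classical in
/-- the point `i` minus the shift `d` -/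
def Mq (πE : E → W) (cl : W → C) (b : C) (i d : Fin 4) (x : E ⊕ W × Fin 4) (v : E ⊕ W) : ℤ :=
  (if x = v.map id (fun w => (w, if cl w = b then i else 0)) then 1 else 0) -
    if cl ((px πE).π v) = b ∧ x = Sum.inr ((px πE).π v, d) then 1 else 0

open Classical in
/-- the frozen vertex is the vertex minus its live part -/
def M0 (πE : E → W) (x v : E ⊕ W) : ℤ :=
  (if x = v then 1 else 0) - if x.isLeft ∧ v = Sum.inr ((px πE).π x) then 1 else 0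

section sys

variable {T : Tow} {cl : W → C} {m : ℕ} [Fintype X] [DecidableEq X] {O : Ov W X}

open Classical in
/-- the labels of `q` that avoid the vertices in `D` -/
def aw (D : X → Prop) (q : Finset (LK T cl m O K S)) : Finset (LK T cl m O K S) :=
  q.filter fun l => ∀ x, Sum.inl x ∈ l.fc → ¬ D x

/-- the alternating sum over a rectangle -/
def al4 (DA DB : X → Prop) (Θ : (LT T cl m O → ℝ) → ℝ) (x : LT T cl m O.dbl → ℝ) : ℝ :=
  Θ (x ∘ lt (g := cn DA DB false false) (fun _ => rfl) ()) -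
    Θ (x ∘ lt (g := cn DA DB true false) (fun _ => rfl) ()) -
    Θ (x ∘ lt (g := cn DA DB false true) (fun _ => rfl) ()) +
    Θ (x ∘ lt (g := cn DA DB true true) (fun _ => rfl) ())

/-- the labels without star vertex and base -/
def bz (O : Ov W X) (K S : Type) [Fintype K] [DecidableEq K] :
    LK T cl m O Empty Empty → LK T cl m O K S :=
  lf (g := id) (fun _ => rfl) Empty.elim Empty.elim

variable [Fintype W] [DecidableEq W] [Fintype E] [DecidableEq E]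

/-- the labels of the vertices among the labels with extra vertices -/
abbrev ri (πE : E → W) : LT T cl m (Ov.one W) → LT T cl m (px πE) :=
  lt (O₁ := Ov.one W) (O₂ := px πE) (g := Sum.inr) (fun _ => rfl) ()

/-- the alternating sum over a parallelogram -/
def alq (πE : E → W) (b : C) (θ : (LT T cl m (Ov.one W) → ℝ) → ℝ) (x : LT T cl m (Op πE) → ℝ) : ℝ :=
  θ ((sub (ex (Mq πE cl b 0 2)) x : LT T cl m (px πE) → ℝ) ∘ ri πE) -
    θ ((sub (ex (Mq πE cl b 0 3)) x : LT T cl m (px πE) → ℝ) ∘ ri πE) -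
    θ ((sub (ex (Mq πE cl b 1 2)) x : LT T cl m (px πE) → ℝ) ∘ ri πE) +
    θ ((sub (ex (Mq πE cl b 1 3)) x : LT T cl m (px πE) → ℝ) ∘ ri πE)

end sys

/-- the data of a star system -/
structure Sx (T : Tow) (cl : W → C) (m : ℕ) (κ : Type) where
  a : Finset (W ⊕ κ × Bool) → Option Unit → ℝ
  c : LK T cl m (Ov.one W) (κ × Bool) Unit → ℝ
  Ce : Finset (Finset W)
  g : κ → Finset W → (T.ι → ℤ) → ℝ
  θ : κ → (LT T cl m (Ov.one W) → ℝ) → ℝ

namespace Sx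

variable {T : Tow} {cl : W → C} {m : ℕ} [Fintype W] [DecidableEq W] [Fintype κ] [DecidableEq κ]
  (x : Sx T cl m κ)

structure Ok (am : ℝ) : Prop where
  kp : ∀ A o, Kp A o → x.a A o = 1
  c0 : ∀ l, Kp l.fc l.bs → x.c l = 0
  bd : ∀ A o, 0 < x.a A o ∧ x.a A o ≤ am
  ce : ∀ c ∈ x.Ce, Set.InjOn cl c
  g1 : ∀ a A u, |x.g a A u| ≤ 1
  fo : ∀ a, Fo cl m (Ov.one W) (fun _ => True) (x.θ a)

/-- points with a large expectation over the star fibre -/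
def Pop (Z : Sys T W Unit) (η : ℝ) (y : LT T cl m (Ov.one W) → ℤ) : Prop :=
  ∀ z : LK T cl m (Ov.one W) (κ × Bool) Unit → ℤ, z ∘ bz _ _ _ = y ∘ bz _ _ _ →
    η ≤ ‖Fb ((Ov.one W).ms cl m Z (κ × Bool) Unit x.a x.c)
      (b0 T cl m (Ov.one W) (κ × Bool) Unit fun _ => True)ᶜ
      (Fs x.Ce x.g x.θ (ι := id) (fun _ => rfl) id ()) z‖

end Sx

/-- Cauchy-Schwarz for densities -/
def DBL : Prop :=
  ∀ (T : Tow) (s : ℕ) (N : ℝ) (C W X : Type) [Fintype W] [DecidableEq W] [Fintype X]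
    [DecidableEq X] (Z : Sys T W Unit) (cl : W → C) (m : ℕ) (O : Ov W X) (σ : X → ℝ)
    (P D : X → Prop) (b : C) (n : ℕ) (L η : ℝ) (E : (LT T cl m O → ℤ) → Prop),
    Env s N m Z n L η → 2 * (Fintype.card X + 1) ≤ n → Sb s L σ → (∀ x, D x → cl (O.π x) = b) →
    Dp (b0 T cl m O Unit Empty P) E →
    dn cl m Z O σ P E ^ 2 ≤ 2 * dn cl m Z O.dbl (σ ∘ Prod.fst) (P2 P D) fun z =>
      E (z ∘ lt (g := cp D false) (fun _ => rfl) ()) ∧ E (z ∘ lt (g := cp D true) (fun _ => rfl) ())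

/-- two witnesses remove the vertices in `D` from the relations -/
def WIT : Prop :=
  ∀ (T : Tow) (s : ℕ) (N : ℝ) (C W X κ : Type) [Fintype W] [DecidableEq W] [Fintype X]
    [DecidableEq X] (Z : Sys T W Unit) (cl : W → C) (m : ℕ) (O : Ov W X) (σ : X → ℝ)
    (P D : X → Prop) (b : C) (n : ℕ) (L η ω K : ℝ) (E : (LT T cl m O → ℤ) → Prop)
    (Θ : κ → (LT T cl m O → ℝ) → ℝ), Env s N m Z n L η → 4 * (Fintype.card X + 1) ≤ n →
    Sb s L σ → (∀ x, D x → cl (O.π x) = b) → 0 < ω → 1 ≤ K → 36 * K ^ 2 * ω ≤ L →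
    Dp (b0 T cl m O Unit Empty fun x => P x ∧ ¬ D x) E →
    (∀ k, Fo cl m O (fun x => P x ∧ ¬ D x) (Θ k)) →
    dn cl m Z O σ P (fun z => E z ∧ ∀ k, NR cl m Z O ω P (Θ k) K (toR z)) ^ 2 ≤
      2 * dn cl m Z O σ (fun x => P x ∧ ¬ D x)
        (fun z => E z ∧ ∀ k, NR cl m Z O ω (fun x => P x ∧ ¬ D x) (Θ k) K (toR z)) + 12 * √η

/-- the box inequality and the extraction of the relations -/
def BOX : Prop :=
  ∀ (T : Tow) (s : ℕ) (N : ℝ) (C W X K S κ : Type) [Fintype W] [DecidableEq W] [Fintype X]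
    [DecidableEq X] [Fintype K] [DecidableEq K] [Fintype S] [Fintype κ] (Z : Sys T W Unit)
    (cl : W → C) (m : ℕ) (O : Ov W X) (σ : X → ℝ) (P DA DB : X → Prop) (b : C) (n : ℕ)
    (L η am ω ρ β : ℝ) (a : Finset (X ⊕ K) → Option S → ℝ) (c : LK T cl m O K S → ℝ)
    (q : Finset (LK T cl m O K S)) (e₀ : K) (e : κ → K) (Pk : κ → X → Prop)
    (Θ : κ → (LT T cl m O → ℝ) → ℝ) (E : (LT T cl m O → ℤ) → Prop)
    (A B Φ : (LK T cl m O K S → ℤ) → ℂ), Env s N m Z n L η →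
    2 * (Fintype.card X + Fintype.card K + Fintype.card S) ≤ n → Sb s L σ →
    (∀ F o, Kp F o → a F o = sc σ F) → (∀ F o, ¬ Kp F o → 0 < a F o ∧ a F o ≤ am) →
    (∀ l ∈ b0 T cl m O K S P, c l = 0) → 8 * am ≤ L → 0 < ω → 0 ≤ ρ → 8 * am ≤ ρ ^ 2 * ω →
    0 < β → Cq q → b0 T cl m O K S P ⊆ q → (∀ l ∈ q, ∀ x, Sum.inl x ∈ l.fc → P x) →
    (∀ x, DA x → ¬ DB x) → (∀ x, DA x ∨ DB x → cl (O.π x) = b) → e.Injective →
    (∀ k, Fo cl m O (Pk k) (Θ k)) → (∀ k x, Pk k x → P x) →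
    (∀ k, ∀ l ∈ st T cl m O (Pk k), lt (g := id) (fun _ => rfl) (e k) l ∈ q) →
    (∀ z, ‖A z‖ ≤ 1) → (∀ z, ‖B z‖ ≤ 1) → Dp (aw DB q) A → Dp (aw DA q) B →
    (∀ z, ‖Φ z‖ ≤ ind (E (z ∘ lt (g := id) (fun _ => rfl) e₀))) → Dp (b0 T cl m O K S P) Φ →
    Dp (b0 T cl m O Unit Empty P) E →
    ‖Ev (O.ms cl m Z K S a c) q fun z => A z * (B z * (Φ z *
      ee (∑ k, Θ k (toR z ∘ lt (g := id) (fun _ => rfl) (e k)))))‖ ^ 4 ≤
      16 * β + 16 * dn cl m Z O.dbl (σ ∘ Prod.fst) (P2 P fun x => DA x ∨ DB x) (fun z =>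
        (∀ i j, E (z ∘ lt (g := cn DA DB i j) (fun _ => rfl) ())) ∧
        ∀ k, NR cl m Z O.dbl ω (P2 P fun x => DA x ∨ DB x) (al4 DA DB (Θ k))
          (ρ * √(log (2 / β))) (toR z)) + 120 * √η

/-- a dense set of refined configurations contains a dense set of popular points -/
def POP (s : ℕ) : Prop :=
  ∃ c : ℕ, 1 ≤ c ∧ ∀ (N : ℝ) (P : ℕ → ℝ) (T : Tow) (n p : ℕ) (R : Type) [Fintype R] [DecidableEq R]
    (Z : Sys T (Uv n p R) Unit) (f : ℤ → ℝ) (θ A γ lam X Y : ℝ) (κ : Type) [Fintype κ]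
    [DecidableEq κ] (ψ : κ → (Pg T n p R → ℤ) → Lg T n p R → ℝ)
    (F : κ → (Lb T (cU : Uv n p R → _) Unit (n + 2) → ℤ) → ℝ)
    (Ω : (Pg T n p R → ℤ) → (Lg T n p R → ℤ) → Prop), Ctx s N c P T n p R Z f θ A →
    P (n + 2) ≤ X → X ≤ Y → Y ≤ A → exp (Y ^ c) ≤ γ → γ ≤ exp A → exp (Y ^ c) ≤ lam →
    lam ≤ exp A → (Fintype.card κ : ℝ) ≤ X → (∀ a, F a = PG Z f ∨ F a = fun _ => 1) →
    Base Z γ X Ω → (∀ w z, Ω w z → ∀ a, exp (-X) ≤ ‖cor Z (F a) γ w z (ψ a w)‖) →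
    ∀ (y : ℝ) (U : (Fz T n p R → ℤ) → (Lv T n p R → ℝ) → Prop), X ≤ y → y ≤ Y →
      (∀ D, OnP (fce (root Z lam γ D) (BB n)) (U D)) →
      (∀ D x, U D (toR x) → exp (-(2 * X)) ≤ ∑' z, wL Z (rp (rmap D (toR x))) z *
        ind (Ω (rp (rmap D (toR x))) z)) →
      exp (-y) ≤ ∑' D, wD Z D * den (root Z lam γ D) (BB n) (U D) →
      ∃ x : Sx T (cU : Uv n p R → _) (n + 2) κ, x.Ok (exp (y ^ c) * γ) ∧
        (x.θ = fun a u => P057SG.fm (ψ a) (dc u)) ∧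
        Dp (b0 T cU (n + 2) (px Sum.inl) Unit Empty fun _ => True)
          (fun z => ev U (sub (ex (M0 Sum.inl)) z) ∧ x.Pop Z (exp (-y ^ c)) (z ∘ ri Sum.inl)) ∧
        exp (-y ^ c) ≤ dn cU (n + 2) Z (px Sum.inl) (Sum.elim (fun _ => lam) fun _ => 1)
          (fun _ => True) fun z =>
            ev U (sub (ex (M0 Sum.inl)) z) ∧ x.Pop Z (exp (-y ^ c)) (z ∘ ri Sum.inl)

/-- the forms are sums of forms that see one original vertex of the class `b` each -/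
def CHN (s : ℕ) : Prop :=
  ∃ c : ℕ, 1 ≤ c ∧ ∀ (T : Tow) (N : ℝ) (C W E κ : Type) [DecidableEq C] [Fintype W] [DecidableEq W]
    [Fintype E] [DecidableEq E] [Fintype κ] [DecidableEq κ] (Z : Sys T W Unit) (cl : W → C) (m : ℕ)
    (πE : E → W) (σE : E → ℝ) (b : C) (y A ω ν : ℝ) (x : Sx T cl m κ)
    (U : (LT T cl m (px πE) → ℤ) → Prop), En s N c m Z y A → (Fintype.card E : ℝ) ≤ y →
    (Fintype.card κ : ℝ) ≤ y → (∀ e, 1 ≤ σE e ∧ σE e ≤ exp A) → 1 ≤ ω → ω ≤ exp A → 1 ≤ ν →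
    ν ≤ exp A → x.Ok (exp y * ω) → Dp (b0 T cl m (px πE) Unit Empty fun _ => True) U →
    (∀ z, U z → x.Pop Z (exp (-y)) (z ∘ ri πE)) →
    exp (-y) ≤ dn cl m Z (px πE) (Sum.elim σE fun _ => 1) (fun _ => True) U →
    ∃ Ψ : κ → (LT T cl m (Oc πE) → ℝ) → ℝ,
      (∀ a, Fo cl m (Oc πE) (fun v => Pc cl b v ∧ ¬ Da cl b v) (Ψ a)) ∧
      exp (-y ^ c) ≤ dn cl m Z (Oc πE) (σc σE ν) (Pc cl b) fun z =>
        U (z ∘ lt (h_og πE) ()) ∧ (∀ l, cl l = b → U (z ∘ lt (h_lw πE cl b l) ())) ∧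
        ∀ a, NR cl m Z (Oc πE) ω (Pc cl b) (fun u => x.θ a (u ∘ lt (h_og πE) () ∘ ri πE) -
          ∑ l ∈ univ.filter (cl · = b), x.θ a (u ∘ lt (h_lw πE cl b l) () ∘ ri πE) - Ψ a u)
          (exp (y ^ c)) (toR z)

/-- from chains to parallelograms -/
def PARA (s : ℕ) : Prop :=
  ∃ c : ℕ, 1 ≤ c ∧ ∀ (T : Tow) (N : ℝ) (C W E κ : Type) [DecidableEq C] [Fintype W] [DecidableEq W]
    [Fintype E] [DecidableEq E] [Fintype κ] [DecidableEq κ] (Z : Sys T W Unit) (cl : W → C) (m : ℕ)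
    (πE : E → W) (σE : E → ℝ) (b : C) (y A ω ν : ℝ) (x : Sx T cl m κ)
    (U : (LT T cl m (px πE) → ℤ) → Prop) (Ψ : κ → (LT T cl m (Oc πE) → ℝ) → ℝ),
    En s N c m Z y A → (∃ v, cl v = b) → (Fintype.card E : ℝ) ≤ y → (Fintype.card κ : ℝ) ≤ y →
    (∀ e, 1 ≤ σE e ∧ exp (y ^ c) * σE e ≤ ν) → 1 ≤ ω → exp (y ^ c) * ω ≤ ν → ν ≤ exp A →
    x.Ok (exp y * ω) → Dp (b0 T cl m (px πE) Unit Empty fun _ => True) U →
    (∀ z, U z → x.Pop Z (exp (-y)) (z ∘ ri πE)) →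
    (∀ a, Fo cl m (Oc πE) (fun v => Pc cl b v ∧ ¬ Da cl b v) (Ψ a)) →
    exp (-y) ≤ dn cl m Z (Oc πE) (σc σE ν) (Pc cl b) (fun z =>
      U (z ∘ lt (h_og πE) ()) ∧ (∀ l, cl l = b → U (z ∘ lt (h_lw πE cl b l) ())) ∧
      ∀ a, NR cl m Z (Oc πE) ω (Pc cl b) (fun u => x.θ a (u ∘ lt (h_og πE) () ∘ ri πE) -
        ∑ l ∈ univ.filter (cl · = b), x.θ a (u ∘ lt (h_lw πE cl b l) () ∘ ri πE) - Ψ a u)
        (exp y) (toR z)) →
    exp (-y ^ c) ≤ dn cl m Z (Op πE) (σp σE ν) (Pp cl b) fun z =>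
      U (sub (ex (Mq πE cl b 0 2)) z) ∧
      ∀ a, NR cl m Z (Op πE) ω (Pp cl b) (alq πE b (x.θ a)) (exp (y ^ c)) (toR z)

/-- from parallelograms to the joint system -/
def FIN (s : ℕ) : Prop :=
  ∃ c : ℕ, 1 ≤ c ∧ ∀ (T : Tow) (N : ℝ) (n p : ℕ) (R κ : Type) [Fintype R] [DecidableEq R]
    (Z : Sys T (Uv n p R) Unit) (b : Fin n) (y A γ lam μ : ℝ)
    (θ : κ → (LT T cU (n + 2) (Ov.one (Uv n p R)) → ℝ) → ℝ)
    (Θ : κ → (Lb T (cU : Uv n p R → _) Unit (n + 2) → ℝ) → ℝ)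
    (V : (LT T cU (n + 2) (O0 n p R) → ℤ) → Prop), En s N c (n + 2) Z y A → 1 ≤ γ → γ ≤ exp A →
    exp (y ^ c) ≤ lam → 1 ≤ μ → lam * μ ≤ exp A → (∀ a, θ a = fun u => Θ a (dc u)) →
    (∀ a, Fo cU (n + 2) (Ov.one _) (fun _ => True) (θ a)) →
    Dp (b0 T cU (n + 2) (O0 n p R) Unit Empty fun _ => True) V →
    exp (-y) ≤ dn cU (n + 2) Z (Op Sum.inl) (σp (fun _ => lam) (lam * μ)) (Pp cU (some b))
      (fun z => V (sub (ex (M0 Sum.inl)) (sub (ex (Mq Sum.inl cU (some b) 0 2)) z :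
          LT T cU (n + 2) (px Sum.inl) → ℤ)) ∧
        ∀ a, NR cU (n + 2) Z (Op Sum.inl) γ (Pp cU (some b)) (alq Sum.inl (some b) (θ a)) (exp y)
          (toR z)) →
    exp (-y ^ c) ≤ dn cU (n + 2) Z (O4 n p R) (s4 b lam μ) (P4 b) fun z =>
      V (sub (ex (M4 b 0 2)) z) ∧
        ∀ r, NR cU (n + 2) Z (O4 n p R) γ (P4 b) (fun x => Θ r (rm (sub (ex (M4 b 0 2)) x)) -
          Θ r (rm (sub (ex (M4 b 0 3)) x)) - Θ r (rm (sub (ex (M4 b 1 2)) x)) +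
          Θ r (rm (sub (ex (M4 b 1 3)) x))) (exp (y ^ c)) (toR z)

/-- the assembly -/
def ENA (s : ℕ) : Prop := POP s → CHN s → PARA s → FIN s → EN s

end

end Vale.Agent.P057DP
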