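import Vale.Agent.P057DP.Bxx
import Vale.Agent.P057EA.Wem
import Vale.Agent.P057NL.Wit

/-!
From rectangles of shifted chains to parallelograms.
-/

set_option linter.all false

open Matrix Finset Real
open Vale.Agent.P267.H775 Vale.Agent.P057G Vale.Agent.P057MA Vale.Agent.P057PC
open Vale.Agent.P057TP hiding ind
open Vale.Agent.P057GH
open Vale.Agent.P057EN (mb mb_congr sm_mb mb_lt sub_lt)
open Vale.Agent.P057SB (nrs toR_sub)

namespace Vale.Agent.P057DP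

noncomputable section

variable {C W E κ : Type}

/-- the leaf of a vertex of a chain -/
def lv (πE : E → W) : E ⊕ W × (Fin 3 ⊕ W) → W := Sum.elim πE fun x => x.2.elim (fun _ => x.1) id

/-- the shift of a leaf -/
def uu (E : Type) (v : W) : E ⊕ W × (Fin 3 ⊕ W) := Sum.inr (v, Sum.inl 2)

/-- the vertices that move -/
def Dm (πE : E → W) (cl : W → C) (b : C) (x : E ⊕ W × (Fin 3 ⊕ W)) : Prop :=
  cl ((Oc πE).π x) = b ∧ cl (lv πE x) = b

/-- every vertex that moves minus the shift of its leaf -/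
def Mr [DecidableEq E] [DecidableEq W] (πE : E → W) (cl : W → C) (b : C) :
    E ⊕ W × (Fin 3 ⊕ W) → E ⊕ W × (Fin 3 ⊕ W) → ℤ := mb id (uu E ∘ lv πE) (Dm πE cl b)

/-- the vertices of a chain and the shifts -/
def Pu (cl : W → C) (b : C) (x : E ⊕ W × (Fin 3 ⊕ W)) : Prop :=
  Pc cl b x ∨ ∃ v, cl v = b ∧ x = uu E v

/-- roots, shifts and private vertices -/
def Db (cl : W → C) (b : C) : E ⊕ W × (Fin 3 ⊕ W) → Prop :=
  Sum.elim (fun _ => False) fun x => x.2 ≠ Sum.inl 0 ∧ cl x.1 = b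

/-- the vertices of a parallelogram in the doubled chain -/
def gp : E ⊕ W × Fin 4 → (E ⊕ W × (Fin 3 ⊕ W)) × Bool :=
  Sum.elim (fun e => (Sum.inl e, false)) fun x =>
    (Sum.inr (x.1, Sum.inl (if x.2 < 2 then 0 else 2)), decide (x.2 = 1 ∨ x.2 = 3))

theorem h_gp (πE : E → W) (x : E ⊕ W × Fin 4) : (Oc πE).dbl.π (gp x) = (Op πE).π x := by
  cases x <;> rfl

theorem gp_inj : (gp : E ⊕ W × Fin 4 → _).Injective := by
  rintro (x | ⟨v, i⟩) (y | ⟨w, j⟩) h <;> simp only [gp, Sum.elim_inl, Sum.elim_inr, Prod.mk.injEq,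
    Sum.inl.injEq, Sum.inr.injEq, reduceCtorEq, false_and, and_true] at h
  · rw [h]
  · obtain ⟨⟨rfl, h1⟩, h2⟩ := h
    have : ∀ i j : Fin 4, (if i < 2 then 0 else 2 : Fin 3) = (if j < 2 then 0 else 2) →
      decide (i = 1 ∨ i = 3) = decide (j = 1 ∨ j = 3) → i = j := by decide
    rw [this i j h1 h2]

theorem og_inj : (og : E ⊕ W → _).Injective :=
  Function.injective_id.sumMap fun _ _ h => (Prod.mk.inj h).1

theorem cn_inj {X : Type} (DA DB : X → Prop) (i j : Bool) : (cn DA DB i j).Injective :=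
  fun _ _ h => (Prod.mk.inj h).1

variable {T : Tow} {cl : W → C} {m s n : ℕ} {N L η ω K₀ K₁ ν : ℝ} [Fintype W] [DecidableEq W]
  [Fintype E] [DecidableEq E] {Z : Sys T W Unit} {πE : E → W} {σE : E → ℝ} {b : C}

theorem nr_lt {X₁ X₂ : Type} [Fintype X₁] [DecidableEq X₁] [Fintype X₂] [DecidableEq X₂]
    {O₁ : Ov W X₁} {O₂ : Ov W X₂} {g : X₁ → X₂} (hT : T.Ok s N) (hZ : Z.Ok)
    (h : ∀ x, O₂.π (g x) = O₁.π x) (hg : g.Injective) (hj : ∀ x, O₂.jk (g x) = O₁.jk x)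
    {P₁ : X₁ → Prop} {P₂ : X₂ → Prop} (hP : ∀ x, P₁ x → P₂ (g x)) {Θ : (LT T cl m O₁ → ℝ) → ℝ}
    (hΘ : Fo cl m O₁ P₁ Θ) (hω : 0 < ω) (hK : 0 ≤ K₀) {y : LT T cl m O₂ → ℝ}
    (k : NR cl m Z O₁ ω P₁ Θ K₀ (y ∘ lt h ())) :
    NR cl m Z O₂ ω P₂ (fun x => Θ (x ∘ lt h ())) K₀ y :=
  ((nr_emb h hg hj (P₂ := fun x => ∃ y, P₁ y ∧ g y = x) fun _ => Iff.rfl).2 k).up hT hZ hω hK
    (by rintro _ ⟨x, a, rfl⟩; exact hP x a) (hΘ.lt fun x a => ⟨x, a, rfl⟩).dp

theorem sm_Mr {P₁ P₂ : E ⊕ W × (Fin 3 ⊕ W) → Prop} (h1 : ∀ x, P₁ x → P₂ x)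
    (h2 : ∀ v, cl v = b → P₂ (uu E v)) : Sm cl (Oc πE) (Oc πE) (Mr πE cl b) P₂ P₁ :=
  sm_mb (fun _ => rfl) (fun _ => rfl) (fun _ k => ⟨k.2.trans k.1.symm, rfl⟩) h1
    fun _ _ k => h2 _ k.2

theorem sm_pu : Sm cl (Oc πE) (Oc πE) (Mr πE cl b) (Pu cl b) (Pc cl b) :=
  sm_Mr (fun _ => Or.inl) fun v k => Or.inr ⟨v, k, rfl⟩

open Classical in
theorem sm_Mq {i d : Fin 4} (hi : i < 2) (hd : ¬ d < 2) :
    Sm cl (Op πE) (px πE) (mb (Sum.map id fun w => (w, if cl w = b then i else 0))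
      (fun v => Sum.inr ((px πE).π v, d)) fun v => cl ((px πE).π v) = b) (Pp cl b) fun _ => True :=
  sm_mb (by rintro (e | v) <;> rfl) (by
      rintro (e | v)
      · rfl
      · change decide ((if cl v = b then i else 0) < 2) = true
        split_ifs <;> simp [hi])
    (fun _ _ => ⟨rfl, decide_eq_false hd⟩) (by
      rintro (e | v) _
      · trivial
      · change (if cl v = b then i else 0) = 0 ∨ cl v = b
        split_ifs with k <;> simp [k])
    fun _ _ k => Or.inr k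

open Classical in
theorem Mq_eq (i d : Fin 4) : Mq πE cl b i d = mb (Sum.map id fun w => (w, if cl w = b then i else 0))
    (fun v => Sum.inr ((px πE).π v, d)) fun v => cl ((px πE).π v) = b := by
  funext x v
  unfold Mq mb
  congr

/-- the shifted original point at a corner -/
theorem cor_og {R : Type} [CommRing R] (i j : Bool) (z : LT T cl m (Oc πE).dbl → R) :
    (sub (ex (Mr πE cl b)) (z ∘ lt (O₁ := Oc πE) (g := cn (Da cl b) (Db cl b) i j)
      (fun _ => rfl) () : LT T cl m (Oc πE) → R) : LT T cl m (Oc πE) → R) ∘ lt (h_og πE) () =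
    sub (ex (Mq πE cl b (if i then 1 else 0) (if j then 3 else 2)))
      (z ∘ lt (h_gp πE) () : LT T cl m (Op πE) → R) := by
  classical
  rw [Mq_eq, mb_lt (h_gp πE) gp_inj (sm_Mq (by cases i <;> decide) (by cases j <;> decide))]
  refine (congrArg (· ∘ lt (h_og πE) ()) (mb_lt (O₂ := Oc πE) (O₃ := (Oc πE).dbl)
    (g := cn (Da cl b) (Db cl b) i j) (fun _ => rfl) (cn_inj _ _ i j) (sm_pu (b := b)) z)).trans ((sub_lt _ og_inj _ _).trans ?_)
  refine congrArg (fun M => sub (ex M) z) (mb_congr (α := (cn (Da cl b) (Db cl b) i j ∘ id) ∘ og)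
    (β := (cn (Da cl b) (Db cl b) i j ∘ uu E ∘ lv πE) ∘ og) (D := Dm πE cl b ∘ og) ?_ ?_ ?_)
  · rintro (e | v)
    · simp [cn, og, gp, Da, Db]
    · by_cases k : cl v = b <;> cases i <;> simp [cn, og, gp, Da, Db, k]
  · rintro (e | v) <;> exact and_self_iff
  · have key : ∀ v, cl v = b → cn (Da cl b) (Db cl b) i j (uu E v) =
        gp (Sum.inr (v, if j then 3 else 2)) := fun v k => by
      cases j <;> simp [cn, uu, gp, Da, Db, k]
    rintro (e | v) k <;> exact key _ k.1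

variable [DecidableEq C] {θ : κ → (LT T cl m (Ov.one W) → ℝ) → ℝ}
  {Ψ : κ → (LT T cl m (Oc πE) → ℝ) → ℝ} {U : (LT T cl m (px πE) → ℤ) → Prop}

/-- the relation of a chain -/
def rc (πE : E → W) (b : C) (θ : (LT T cl m (Ov.one W) → ℝ) → ℝ) (Ψ : (LT T cl m (Oc πE) → ℝ) → ℝ)
    (u : LT T cl m (Oc πE) → ℝ) : ℝ := θ (u ∘ lt (h_og πE) () ∘ ri πE) -
  ∑ l ∈ univ.filter (cl · = b), θ (u ∘ lt (h_lw πE cl b l) () ∘ ri πE) - Ψ u

theorem fo_og (hθ : ∀ a, Fo cl m (Ov.one W) (fun _ => True) (θ a)) (a : κ) :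
    Fo cl m (Oc πE) (Pc cl b) fun u => θ a (u ∘ lt (h_og πE) () ∘ ri πE) :=
  ((hθ a).lt (O₂ := px πE) (P₂ := fun x => x.isRight) fun _ _ => rfl).lt (h := h_og πE) (by
    rintro (e | v) k
    exacts [trivial, Or.inl rfl])

theorem fo_lw (hθ : ∀ a, Fo cl m (Ov.one W) (fun _ => True) (θ a)) (a : κ) {l : W} (hl : cl l = b) :
    Fo cl m (Oc πE) (Pc cl b) fun u => θ a (u ∘ lt (h_lw πE cl b l) () ∘ ri πE) :=
  ((hθ a).lt (O₂ := px πE) (P₂ := fun x => x.isRight) fun _ _ => rfl).lt (h := h_lw πE cl b l) (by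
    rintro (e | v) k
    · trivial
    · by_cases c : cl v = b ∧ v ≠ l <;> simp [lw, Pc, c, hl])

theorem fo_alq (hT : T.Ok s N) (hZ : Z.Ok) (hθ : ∀ a, Fo cl m (Ov.one W) (fun _ => True) (θ a))
    (a : κ) : Fo cl m (Op πE) (Pp cl b) (alq πE b (θ a)) := by
  have k : ∀ i d : Fin 4, i < 2 → ¬ d < 2 → Fo cl m (Op πE) (Pp cl b) fun x =>
      θ a ((sub (ex (Mq πE cl b i d)) x : LT T cl m (px πE) → ℝ) ∘ ri πE) := fun i d hi hd => by
    rw [Mq_eq]
    exact ((nrs T s N C W _ _ Z cl m _ _ _ _ _ hT hZ (sm_Mq hi hd)).2 _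
      ((hθ a).lt (O₂ := px πE) fun _ _ => trivial)).1
  exact (((k _ _ (by decide) (by decide)).sub (k _ _ (by decide) (by decide))).sub
    (k _ _ (by decide) (by decide))).add (k _ _ (by decide) (by decide))

/-- the last part of the parallelogram step -/
theorem para_tail (h : Env s N m Z n L η)
    (hn : 4 * (2 * Fintype.card (E ⊕ W × (Fin 3 ⊕ W)) + 1) ≤ n) (hσ : Sb s L (σc σE ν (W := W)))
    (hω : 0 < ω) (h0 : 0 ≤ K₀) (h1 : 0 ≤ K₁) {K : ℝ} (hK : 1 ≤ K) (hL : 36 * K ^ 2 * ω ≤ L)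
    (hKK : 4 * (2 ^ (2 * Fintype.card (E ⊕ W × (Fin 3 ⊕ W))) * K₀) + Fintype.card W * K₁ ≤ K)
    (hθ : ∀ a, Fo cl m (Ov.one W) (fun _ => True) (θ a))
    (hΨ : ∀ a, Fo cl m (Oc πE) (fun v => Pc cl b v ∧ ¬ Da cl b v) (Ψ a))
    (dU : Dp (b0 T cl m (px πE) Unit Empty fun _ => True) U)
    {Ec : (LT T cl m (Oc πE) → ℤ) → Prop} (hE : ∀ z, Ec z → U (z ∘ lt (h_og πE) ()) ∧
      ∀ a, NR cl m Z (Oc πE) ω (Pc cl b) (rc πE b (θ a) (Ψ a)) K₀ (toR z)) :
    dn cl m Z (Oc πE).dbl (σc σE ν ∘ Prod.fst) (P2 (Pu cl b) fun x => Da cl b x ∨ Db cl b x)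
      (fun z => (∀ i j, Ec (sub (ex (Mr πE cl b)) (z ∘ lt (O₁ := Oc πE)
          (g := cn (Da cl b) (Db cl b) i j) (fun _ => rfl) () : LT T cl m (Oc πE) → ℤ))) ∧
        ∀ l, cl l = b → ∀ a, NR cl m Z (Oc πE).dbl ω (P2 (Pu cl b) fun x => Da cl b x ∨ Db cl b x)
          (al4 (Da cl b) (Db cl b) fun u => θ a ((sub (ex (Mr πE cl b)) u : LT T cl m (Oc πE) → ℝ) ∘
            lt (h_lw πE cl b l) () ∘ ri πE)) K₁ (toR z)) ^ 2 ≤
      2 * dn cl m Z (Op πE) (σp σE ν) (Pp cl b) (fun z => U (sub (ex (Mq πE cl b 0 2)) z) ∧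
        ∀ a, NR cl m Z (Op πE) ω (Pp cl b) (alq πE b (θ a)) K (toR z)) + 12 * √η := by
  have hT := h.ok
  have hZ := h.zok
  refine le_trans (pow_le_pow_left₀ dn_nonneg (dn_mono hT hZ (hσ.comp _).pos fun z hz => ?_) 2)
    (P057EA.wit_emb P057NL.wit (h_gp πE) gp_inj (σ₂ := σc σE ν ∘ Prod.fst) (by
      rintro (e | ⟨v, i⟩)
      · rfl
      · change decide ((if i < 2 then 0 else 2 : Fin 3) ≠ 2) = decide (i < 2)
        revert i; decide) (by
      rintro (e | ⟨v, i⟩) _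
      · rfl
      · by_cases k : i < 2 <;> simp [σc, σp, gp, k]) (by
      rintro (e | ⟨v, i⟩) k
      · exact ⟨Or.inl trivial, Or.inl rfl⟩
      · rcases k with rfl | k
        · exact ⟨Or.inl (Or.inl rfl), Or.inl rfl⟩
        · change cl v = b at k
          by_cases c : i < 2 <;> simp [P2, Pu, Pc, Da, Db, gp, uu, c, k]) b (by
      rintro ⟨e | ⟨v, i⟩, t⟩ ⟨k1, k2⟩
      · obtain rfl : t = false := by simpa [Da, Db] using k2
        exact Or.inl ⟨.inl e, trivial, rfl⟩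
      · refine (em (cl v = b)).symm.imp (fun c => ⟨.inr (v, 0), Or.inl rfl, ?_⟩) id
        obtain rfl : t = false := by simpa [Da, Db, c] using k2
        rcases k1 with k1 | ⟨w, k1, k3⟩
        · cases i with
          | inl i => obtain rfl : i = 0 := by simpa [Pc, c] using k1
                     rfl
          | inr l => exact (c k1.1).elim
        · cases k3; exact (c k1).elim) h
      (by rwa [Fintype.card_prod, Fintype.card_bool, mul_comm _ 2]) (hσ.comp _) hω hK hL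
      (by rw [Mq_eq]; exact (nrs T s N C W _ _ Z cl m _ _ _ _ _ hT hZ
        (sm_Mq (by decide) (by decide))).1 _ _ dU) (fo_alq hT hZ hθ))
  refine ⟨(congrArg U (cor_og false false z)).mp (hE _ (hz.1 false false)).1, fun a => ?_⟩
  have fo : Fo cl m (Oc πE) (Pc cl b) (rc πE b (θ a) (Ψ a)) :=
    ((fo_og hθ a).sub (Fo.sum _ fun l hl => fo_lw hθ a (mem_filter.1 hl).2)).sub
      ((hΨ a).mono fun _ => And.left)
  have nr := (nrs T s N C W _ _ Z cl m _ _ _ _ _ hT hZ (sm_pu (πE := πE) (b := b))).2 _ fo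
  have k := fun i j => nr_lt (O₂ := (Oc πE).dbl) (g := cn (Da cl b) (Db cl b) i j) hT hZ
    (fun _ => rfl) (cn_inj _ _ i j) (fun _ => rfl) (fun x c => p2_cn c i j) nr.1 hω
    (by positivity) (y := toR z) (nr.2 ω K₀ _ hω h0 (by
      have := (hE _ (hz.1 i j)).2 a
      rwa [toR_sub] at this))
  have k2 := ((((k false false).sub (k true false)).sub (k false true)).add (k true true)).add
    (NL.sum (univ.filter (cl · = b)) fun l hl => hz.2 l (mem_filter.1 hl).2 a)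
  refine (k2.congr fun x => ?_).mono (le_trans ?_ hKK)
  · have d := ((nrs T s N C W _ _ Z cl m _ _ _ _ _ hT hZ (sm_Mr (πE := πE) (b := b)
      (P₁ := fun v => Pc cl b v ∧ ¬ Da cl b v) (P₂ := fun v => ¬ Da cl b v) (fun _ => And.right)
      fun v _ c => by cases c.1)).2 _ (hΨ a)).1.dp
    have e : ∀ u j, Ψ a (sub (ex (Mr πE cl b)) (u ∘ lt (O₁ := Oc πE) (O₂ := (Oc πE).dbl)
        (g := cn (Da cl b) (Db cl b) true j) (fun _ => rfl) () : LT T cl m (Oc πE) → ℝ)) =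
        Ψ a (sub (ex (Mr πE cl b)) (u ∘ lt (O₁ := Oc πE) (O₂ := (Oc πE).dbl)
        (g := cn (Da cl b) (Db cl b) false j) (fun _ => rfl) () : LT T cl m (Oc πE) → ℝ)) :=
      fun u j => d _ _ fun l hl => congrArg u (lf_congr (O₁ := Oc πE) (O₂ := (Oc πE).dbl)
        (S₂ := Empty) (fun v c => by simp only [cn, if_neg (mem_bs.1 hl v c)]) (fun _ _ => rfl)
        fun _ _ => rfl)
    simp only [rc, al4, alq, e, ← Function.comp_assoc, cor_og, sum_add_distrib, sum_sub_distrib]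
    simp only [Bool.false_eq_true, if_true, if_false]
    ring
  · have : ((univ.filter (cl · = b)).card : ℝ) ≤ Fintype.card W :=
      Nat.cast_le.2 (card_le_univ _)
    rw [← two_mul (Fintype.card _)]
    nlinarith

end

end Vale.Agent.P057DP
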