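import Vale.Agent.P057DP.Box
import Vale.Agent.P057T1.Frz

/-!
Forms that are nearly integral on a linear fibre; systems of copies of the vertices with star
vertices; substitutions of vertices.
-/

set_option linter.all false

open Matrix Finset
open Vale.Agent.P267.H775 Vale.Agent.P057G Vale.Agent.P057MA Vale.Agent.P057PC
open Vale.Agent.P057TP Vale.Agent.P057GH
open Vale.Agent.P057T1 (ind)

namespace Vale.Agent.P057DP

noncomputable section

section generic

variable {V ι : Type} [Fintype ι] [DecidableEq ι]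

/-- the centres on `r` are linear in the coordinates of `r` -/
def LinAt (S : MS V ι) (r : Finset ι) (y : ι → ℝ) : Prop :=
  ∀ i ∈ r, IsLinearMap ℝ fun x => S.p (mix r x y) i

/-- near an integer form on the fibre `r` over `y` -/
def NL (S : MS V ι) (r : Finset ι) (Θ : (ι → ℝ) → ℝ) (K : ℝ) (y : ι → ℝ) : Prop :=
  ∃ k : ι → ℤ, ∀ x, |Θ (mix r x y) - ∑ i ∈ r, k i * x i| ≤ K * √(ln2 S r (mix r x y))

/-- the real expectation over the part `q` -/
def Er (S : MS V ι) (q : Finset ι) (f : (ι → ℤ) → ℝ) : ℝ := ∑' z, nw S q z * f z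

end generic

/-- copies of the vertices of `W`; `jk` marks the copies that carry the lower order terms -/
structure Ov (W X : Type) where
  π : X → W
  jk : X → Bool

variable {C W X X₁ X₂ K K₁ K₂ S S₁ S₂ : Type}

namespace Ov

variable (O : Ov W X)

/-- the classes; the star vertices form a new class -/
def cl (cl : W → C) (K : Type) : X ⊕ K → Option C :=
  Sum.elim (fun x => some (cl (O.π x))) fun _ => none

/-- the vertex whose lower order terms are carried -/
def j (K : Type) : X ⊕ K → Option W :=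
  Sum.elim (fun x => if O.jk x then some (O.π x) else none) fun _ => none

/-- the vertices themselves -/
def one (W : Type) : Ov W W := ⟨id, fun _ => true⟩

/-- two copies of every vertex -/
def dbl : Ov W (X × Bool) := ⟨fun x => O.π x.1, fun x => O.jk x.1⟩

end Ov

/-- labels with star vertices `K` and special vertices `S` -/
abbrev LK (T : Tow) (cl : W → C) (m : ℕ) (O : Ov W X) (K S : Type) : Type := Lb T (O.cl cl K) S m

/-- labels of the test system: one star vertex, no special vertex -/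
abbrev LT (T : Tow) (cl : W → C) (m : ℕ) (O : Ov W X) : Type := LK T cl m O Unit Empty

variable {T : Tow} {cl : W → C} {m : ℕ}

theorem hc_map {O₁ : Ov W X₁} {O₂ : Ov W X₂} {g : X₁ → X₂} (h : ∀ x, O₂.π (g x) = O₁.π x)
    (k : K₁ → K₂) (w w' : X₁ ⊕ K₁) : O₂.cl cl K₂ (Sum.map g k w) = O₂.cl cl K₂ (Sum.map g k w') ↔
      O₁.cl cl K₁ w = O₁.cl cl K₁ w' := by
  cases w <;> cases w' <;> simp [Ov.cl, h]

section maps

variable [Fintype X₁] [DecidableEq X₁] [Fintype X₂] [DecidableEq X₂] [Fintype K₁] [DecidableEq K₁]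
  [Fintype K₂] [DecidableEq K₂] {O₁ : Ov W X₁} {O₂ : Ov W X₂} {g : X₁ → X₂}

/-- the map of labels given by maps of the vertices -/
def lf (h : ∀ x, O₂.π (g x) = O₁.π x) (k : K₁ → K₂) (t : S₁ → S₂) :
    LK T cl m O₁ K₁ S₁ → LK T cl m O₂ K₂ S₂ := lift (hc_map h k) t

/-- the copy of the test system with the star vertex `e` -/
abbrev lt (h : ∀ x, O₂.π (g x) = O₁.π x) (e : K₂) : LT T cl m O₁ → LK T cl m O₂ K₂ S₂ :=
  lf h (fun _ => e) Empty.elim

end maps

/-- faces without star vertex and without base -/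
def Kp (A : Finset (X ⊕ K)) (o : Option S) : Prop := o = none ∧ ∀ k, Sum.inr k ∉ A

/-- the product of the scales of the vertices -/
def sc (σ : X → ℝ) (A : Finset (X ⊕ K)) : ℝ := ∏ v ∈ A, Sum.elim σ (fun _ => 1) v

section sub

variable {W₁ W₂ : Type} {cl₁ : W₁ → C} {cl₂ : W₂ → C}

/-- the substitution of vertices given by an integer matrix, on labels without base -/
def sub [Fintype W₂] {R : Type} [CommRing R] (M : W₂ → W₁ → ℤ) (z : Lb T cl₂ Empty m → R)
    (k : Lb T cl₁ Empty m) : R :=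
  ∑ l, if l.cd = k.cd then ((∏ x ∈ l.fc, ∑ v ∈ k.fc, M x v : ℤ) : R) * z l else 0

/-- the matrix respects the classes and has small entries -/
def Cm (cl₂ : W₂ → C) (cl₁ : W₁ → C) (M : W₂ → W₁ → ℤ) : Prop :=
  ∀ x v, (M x v ≠ 0 → cl₂ x = cl₁ v) ∧ |M x v| ≤ 1

/-- the matrix respects the lower order terms on the vertices in `P` -/
def Jm [Fintype W₂] [DecidableEq W] (j₂ : W₂ → Option W) (j₁ : W₁ → Option W) (M : W₂ → W₁ → ℤ)
    (P : W₁ → Prop) : Prop :=
  ∀ v, P v → ∀ w, ∑ x, (if j₂ x = some w then M x v else 0) = if j₁ v = some w then 1 else 0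

end sub

/-- a matrix on the vertices, extended by the identity on the star vertex -/
def ex (M : X₂ → X₁ → ℤ) : X₂ ⊕ Unit → X₁ ⊕ Unit → ℤ :=
  Sum.elim (fun x => Sum.elim (M x) fun _ => 0) fun _ => Sum.elim (fun _ => 0) fun _ => 1

open Classical in
/-- the matrix of the sum over the copies in `P` -/
def pm (P : X₂ → Prop) (g : X₂ → X₁) (x : X₂) (v : X₁) : ℤ := if P x ∧ g x = v then 1 else 0

variable [Fintype W] [DecidableEq W] [Fintype X] [DecidableEq X] (Z : Sys T W Unit) (cl m)
  (O : Ov W X)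

/-- the system on the copies -/
def Ov.ms (K S : Type) [Fintype K] [DecidableEq K] [Fintype S]
    (a : Finset (X ⊕ K) → Option S → ℝ) (c : LK T cl m O K S → ℝ) :
    MS ((X ⊕ K) ⊕ S) (LK T cl m O K S) := cub (pbo Z (O.j K) S) (O.cl cl K) m a c

/-- the test system: scales `σ` away from the star vertex, `ω` on its star -/
def tst (σ : X → ℝ) (ω : ℝ) : MS ((X ⊕ Unit) ⊕ Empty) (LT T cl m O) :=
  O.ms cl m Z Unit Empty (fun A _ => if Sum.inr () ∈ A then ω else sc σ A) 0

variable (T)

open Classical in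
/-- labels without base and star vertex on the vertices in `P` -/
def b0 (K S : Type) [Fintype K] [Fintype S] (P : X → Prop) : Finset (LK T cl m O K S) :=
  univ.filter fun l => Kp l.fc l.bs ∧ ∀ x, Sum.inl x ∈ l.fc → P x

open Classical in
/-- labels through the star vertex on the vertices in `P` -/
def st (P : X → Prop) : Finset (LT T cl m O) :=
  univ.filter fun l => Sum.inr () ∈ l.fc ∧ ∀ x, Sum.inl x ∈ l.fc → P x

variable {T}

/-- the density of an event on the vertices in `P` -/
def dn (σ : X → ℝ) (P : X → Prop) (E : (LT T cl m O → ℤ) → Prop) : ℝ :=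
  Er (tst cl m Z O σ 1) (b0 T cl m O Unit Empty P) fun z => ind (E z)

/-- near an integer form on the star over the vertices in `P`, at the scale `ω` -/
def NR (ω : ℝ) (P : X → Prop) (Θ : (LT T cl m O → ℝ) → ℝ) (K : ℝ) (y : LT T cl m O → ℝ) : Prop :=
  NL (tst cl m Z O (fun _ => 1) ω) (st T cl m O P) Θ K y

/-- a form on the vertices in `P`, linear on the star -/
structure Fo (P : X → Prop) (Θ : (LT T cl m O → ℝ) → ℝ) : Prop where
  dp : Dp (b0 T cl m O Unit Empty P ∪ st T cl m O P) Θ
  lin : ∀ y, IsLinearMap ℝ fun x => Θ (mix (st T cl m O fun _ => True) x y)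

/-- all systems of copies with few vertices and bounded scalars have masses near one -/
def Al (n : ℕ) (L η : ℝ) : Prop :=
  ∀ (X K S : Type) [Fintype X] [DecidableEq X] [Fintype K] [DecidableEq K] [Fintype S]
    (O : Ov W X) (a : Finset (X ⊕ K) → Option S → ℝ) (c : LK T cl m O K S → ℝ),
    Fintype.card X + Fintype.card K + Fintype.card S ≤ n → (∀ A o, 0 < a A o) →
    (∀ l : LK T cl m O K S, a l.fc l.bs ≤ L) → Lf (O.ms cl m Z K S a c) η

/-- a substitution from the vertices in `P₂` to the vertices in `P₁` -/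
structure Sm [Fintype X₂] (O₂ : Ov W X₂) (O₁ : Ov W X₁) (M : X₂ → X₁ → ℤ) (P₂ : X₂ → Prop)
    (P₁ : X₁ → Prop) : Prop where
  cls : ∀ x v, M x v ≠ 0 → cl (O₂.π x) = cl (O₁.π v)
  le : ∀ x v, |M x v| ≤ 1
  jk : ∀ v, P₁ v → ∀ w, ∑ x, (if O₂.jk x ∧ O₂.π x = w then M x v else 0) =
    if O₁.jk v ∧ O₁.π v = w then 1 else 0
  dom : ∀ x v, M x v ≠ 0 → P₁ v → P₂ x

variable {cl m O} in
/-- the function on a copy of the star system: products over the cells and phases -/
def Fs {κ : Type} [Fintype κ] [DecidableEq κ] [Fintype K] [DecidableEq K] [Fintype S]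
    (Ce : Finset (Finset W)) (g : κ → Finset W → (T.ι → ℤ) → ℝ)
    (θ : κ → (LT T cl m (Ov.one W) → ℝ) → ℝ) {ι : W → X} (hι : ∀ v, O.π (ι v) = (Ov.one W).π v)
    (e : κ × Bool → K) (t : S) (z : LK T cl m O K S → ℤ) : ℂ :=
  (∏ j : κ × Bool, ∏ c ∈ Ce,
      (g j.1 c (pt z (some t) (insert (Sum.inr (e j)) (c.image fun v => Sum.inl (ι v)))) : ℂ)) *
    ee (∑ j : κ × Bool, (if j.2 then 1 else -1) * θ j.1 (toR z ∘ lt hι (e j)))

end

end Vale.Agent.P057DP
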